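import Vale.Agent.P359.Mom.Three

/-!
# P359: the pair moment and the pair-plus-one moment in the channels

The ladder relation makes the moment intertwine `lower` with `lift / Q`; so it is diagonal in the
multiplets, with one number per channel.
-/

noncomputable section

open Finset

namespace Vale.Agent.P359.Mom

open Sphere

variable {Q : ℕ} {D : Data}

/-- The pair moment is a multiple of the pair norms. -/
theorem dec0 : Dec0Pin := by
  intro Q D hQ hD
  refine ⟨D.y0 1 1 / pn Q 1, div_nonneg (by simpa using hD.psd0 {1} fun _ => 1) ?_, ?_⟩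
  · rw [pn_eq Q 0 (by omega)]
    simp [cP]
  intro s hs
  induction s, hs using Nat.le_induction with
  | base =>
      intro _
      rw [div_mul_cancel₀]
      rw [pn_eq Q 0 (by omega)]
      simp [cP]
  | succ n hn ih =>
      intro hs
      obtain ⟨i, rfl⟩ : ∃ i, n = i + 1 := ⟨n - 1, by omega⟩
      have hr := hD.rel0 (i + 1) (i + 1 + 1)
      simp only [lo0, up0, uR, if_pos (show 2 ≤ i + 1 + 1 by omega), Nat.add_sub_cancel,
        ih (by omega), show 2 * Q - (i + 1 + 1) = 2 * Q - 2 - i by omega] at hr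
      rw [pn_eq Q i (by omega)] at hr
      rw [pn_eq Q (i + 1) (by omega)]
      have hstep := cP_step Q i
      have hQ' : (Q : ℝ) ≠ 0 := by exact_mod_cast (by omega : Q ≠ 0)
      refine mul_left_cancel₀ (show ((i + 1 : ℕ) : ℝ) ≠ 0 by exact_mod_cast Nat.succ_ne_zero i) ?_
      rw [hr]
      push_cast
      calc ((2 * Q - 2 - i : ℕ) : ℝ) / Q * (D.y0 1 1 / pn Q 1 * (2 * cP Q i / (Q : ℝ) ^ i))
          = D.y0 1 1 / pn Q 1 * (2 * (((2 * Q - 2 - i : ℕ) : ℝ) * cP Q i) / (Q : ℝ) ^ (i + 1)) := by
            rw [pow_succ]; field_simp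
        _ = _ := by rw [← hstep]; ring

/-- The pair-plus-one moment as a matrix on raw polynomials. -/
def ker1 (D : Data) (i a j b : ℕ) : ℝ := D.z1 (i + 1, a) (j + 1, b)

/-- Its contraction with a polynomial in the second index. -/
def row (Q : ℕ) (D : Data) (g : ℕ → ℕ → ℝ) (i a : ℕ) : ℝ := ip Q g (ker1 D i a)

/-- The bilinear form of the moment. -/
def zmom (Q : ℕ) (D : Data) (f g : ℕ → ℕ → ℝ) : ℝ := ip Q f (row Q D g)

theorem ker1_comm (hD : IsMom Q D) (i a j b : ℕ) : ker1 D i a j b = ker1 D j b i a := hD.symm1 _ _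

theorem inBox_ker1 (hQ : 1 ≤ Q) (hD : IsMom Q D) (i a : ℕ) : InBox Q (ker1 D i a) := by
  intro j b h
  rw [ker1, hD.symm1]
  exact hD.out1 _ _ (Or.inr (h.imp_left fun h => (show 2 * Q ≤ j + 1 by omega)))

theorem hasSum'_ker1 (hD : IsMom Q D) (i a : ℕ) : HasSum' (i + a) (ker1 D i a) :=
  fun j b h => hD.grade1 _ _ (by simp only [Mom.grade1]; omega)

theorem inBox_row (hQ : 1 ≤ Q) (hD : IsMom Q D) (g : ℕ → ℕ → ℝ) : InBox Q (row Q D g) := by
  intro i a h
  have h0 : ker1 D i a = 0 := by
    funext j b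
    rw [ker1_comm hD]
    exact inBox_ker1 hQ hD j b i a h
  rw [row, h0, ip_zero_right]

theorem hasSum'_row (hD : IsMom Q D) {t : ℕ} {g : ℕ → ℕ → ℝ} (hg : HasSum' t g) :
    HasSum' t (row Q D g) :=
  fun i a h => ip_of_sum_ne hg (hasSum'_ker1 hD i a) (Ne.symm h)

theorem zmom_comm (hD : IsMom Q D) (f g : ℕ → ℕ → ℝ) : zmom Q D f g = zmom Q D g f := by
  simp only [zmom, row, ip, sum_div, mul_sum]
  refine (sum_congr rfl fun i _ => sum_comm).trans ?_
  rw [sum_comm]
  refine sum_congr rfl fun j _ => ?_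
  refine (sum_congr rfl fun i _ => sum_comm).trans ?_
  rw [sum_comm]
  refine sum_congr rfl fun b _ => sum_congr rfl fun i _ => sum_congr rfl fun a _ => ?_
  rw [ker1_comm hD]
  ring

theorem mom_nonneg (hD : IsMom Q D) (f : ℕ → ℕ → ℝ) : 0 ≤ zmom Q D f f := by
  classical
  have hinj : Function.Injective fun p : ℕ × ℕ => (p.1 + 1, p.2) :=
    fun p q h => by simpa [Prod.ext_iff] using h
  have h := hD.psd1 ((range (2 * Q - 2 + 1) ×ˢ range (Q + 1)).image fun p => (p.1 + 1, p.2))
    fun p => f (p.1 - 1) p.2 / (cP Q (p.1 - 1) * cS Q p.2)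
  simp only [sum_image hinj.injOn, sum_product, Nat.add_sub_cancel] at h
  refine h.trans_eq ?_
  simp only [zmom, row, ip, sum_div, mul_sum]
  refine sum_congr rfl fun i _ => sum_congr rfl fun a _ => sum_congr rfl fun j _ =>
    sum_congr rfl fun b _ => ?_
  rw [ker1]
  ring

theorem mom_zero_right (f : ℕ → ℕ → ℝ) : zmom Q D f 0 = 0 := by simp [zmom, row, ip]

theorem mom_smul_right (c : ℝ) (f g : ℕ → ℕ → ℝ) : zmom Q D f (c • g) = c * zmom Q D f g := by
  rw [zmom, show row Q D (c • g) = c • row Q D g from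
    funext fun i => funext fun a => ip_smul_left Q c g _, ip_smul_right, ← zmom]

/-- The ladder relation. -/
theorem lower_ker1 (hD : IsMom Q D) (i a j b : ℕ) :
    ((i : ℝ) + 1) * ker1 D (i + 1) a j b + ((a : ℝ) + 1) * ker1 D i (a + 1) j b
      = (1 / (Q : ℝ)) * lift Q (ker1 D i a) j b := by
  have h := hD.rel1 (i + 1, a) (j + 1, b)
  simp only [lo1, up1, Nat.add_sub_cancel] at h
  push_cast at h
  simp only [ker1, lift]
  rw [h, mul_add]
  congr 1
  · rcases j with _ | j
    · simp [uR]
    · rw [uR, if_pos (by omega), if_neg (Nat.succ_ne_zero j), Nat.add_sub_cancel,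
        show 2 * Q - (j + 1 + 1) = 2 * Q - 2 - j by omega]
      ring
  · rcases b with _ | b
    · simp [uO]
    · rw [uO, if_pos (by omega), if_neg (Nat.succ_ne_zero b), Nat.add_sub_cancel,
        show Q + 1 - (b + 1) = Q - b by omega]
      ring

theorem mom_lift (hQ : 1 ≤ Q) (hD : IsMom Q D) (f : ℕ → ℕ → ℝ) {g : ℕ → ℕ → ℝ}
    (hg : InBox Q g) : zmom Q D (lift Q f) g = (1 / (Q : ℝ)) * zmom Q D f (lower g) := by
  rw [zmom, ip_lift Q (inBox_row hQ hD g), zmom, ← ip_smul_right]
  congr 1
  funext i a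
  calc lower (row Q D g) i a = ip Q g ((1 / (Q : ℝ)) • lift Q (ker1 D i a)) := by
        simp only [lower, row, ip, mul_sum, ← sum_add_distrib, Pi.smul_apply, smul_eq_mul]
        refine sum_congr rfl fun j _ => sum_congr rfl fun b _ => ?_
        rw [← lower_ker1 hD i a j b]
        ring
    _ = _ := by
        rw [ip_smul_right, ip_comm, ip_lift Q hg, ip_comm]
        rfl

theorem mom_ladder (hQ : 2 ≤ Q) (hD : IsMom Q D) {m m' : ℕ} (hm : m ≤ Q) (hm' : m' ≤ Q) :
    ∀ t t', zmom Q D (ladder Q m t) (ladder Q m' t') = if m = m' ∧ t = t' then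
      ladderFac Q m t / (Q : ℝ) ^ t * zmom Q D (extremal m) (extremal m) else 0 := by
  intro t
  induction t with
  | zero =>
      intro t'
      cases t' with
      | zero =>
          by_cases h : m = m'
          · subst h; simp [ladder, ladderFac]
          · rw [if_neg (by tauto)]
            exact ip_of_sum_ne (hasSum'_ladder Q m 0) (hasSum'_row hD (hasSum'_ladder Q m' 0))
              (by omega)
      | succ t' =>
          rw [if_neg (by omega), zmom_comm hD, ladder_succ,
            mom_lift (by omega) hD _ (inBox_ladder hQ hm 0)]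
          simp [ladder, lower_extremal, mom_zero_right]
  | succ t ih =>
      intro t'
      rw [ladder_succ, mom_lift (by omega) hD _ (inBox_ladder hQ hm' t')]
      cases t' with
      | zero =>
          rw [if_neg (by omega)]
          simp [ladder, lower_extremal, mom_zero_right]
      | succ t' =>
          rw [lower_ladder_succ hQ hm' t', mom_smul_right, ih t']
          by_cases h : m = m' ∧ t = t'
          · obtain ⟨rfl, rfl⟩ := h
            simp only [and_self, if_true, ladderFac, Nat.factorial_succ, prod_range_succ, pow_succ]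
            push_cast
            ring
          · rw [if_neg h, if_neg (by omega), mul_zero, mul_zero]

theorem ip_extremal_ne_zero (hQ : 2 ≤ Q) {m : ℕ} (hm : m ≤ Q) :
    ip Q (extremal m) (extremal m) ≠ 0 := by
  intro h
  have := congrFun (congrFun (eq_zero_of_ip_self (inBox_extremal hQ hm) h) 0) m
  simp [extremal] at this

/-- The moment maps each member of a multiplet to a multiple of itself. -/
theorem row_ladder (hQ : 2 ≤ Q) (hD : IsMom Q D) {m : ℕ} (hm : m ≤ Q) (t : ℕ) (i a : ℕ) :
    row Q D (ladder Q m t) i a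
      = zmom Q D (ladder Q m t) (ladder Q m t) / ip Q (ladder Q m t) (ladder Q m t)
          * ladder Q m t i a := by
  have hexp := congrFun (congrFun (expansion hQ (inBox_row (by omega) hD (ladder Q m t))
    (hasSum'_row hD (hasSum'_ladder Q m t))) i) a
  rw [hexp]
  simp only [Finset.sum_apply, Pi.smul_apply, smul_eq_mul]
  rw [sum_eq_single m]
  · rw [Nat.add_sub_cancel_left, ← zmom]
  · intro m' hm' hne
    rw [mem_range] at hm'
    rw [← zmom, mom_ladder hQ hD (by omega) hm, if_neg (by tauto)]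
    simp
  · intro h
    exact absurd (mem_range.2 (by omega)) h

/-- The channel weight. -/
def weight1 (Q : ℕ) (D : Data) (m : ℕ) : ℝ :=
  zmom Q D (extremal m) (extremal m) / ip Q (extremal m) (extremal m) ^ 2

theorem ker1_eq (hQ : 2 ≤ Q) (hD : IsMom Q D) (i a j b : ℕ) :
    ker1 D i a j b = ∑ m ∈ range (Q + 1), ∑ t ∈ range (spin1 Q m + 1),
      weight1 Q D m * ladder Q m t i a * ladder Q m t j b
        / (ladderFac Q m t * (Q : ℝ) ^ t) := by
  classical
  have hexp := congrFun (congrFun (expansion hQ (inBox_ker1 (by omega) hD i a)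
    (hasSum'_ker1 hD i a)) j) b
  rw [hexp]
  simp only [Finset.sum_apply, Pi.smul_apply, smul_eq_mul]
  have hR : range (min (i + a) Q + 1) = (range (Q + 1)).filter (fun m => m ≤ i + a) := by
    ext m; simp only [mem_range, mem_filter]; omega
  rw [hR, sum_filter]
  refine sum_congr rfl fun m hm => ?_
  rw [mem_range] at hm
  have hzero : ∀ t, m + t ≠ i + a → ladder Q m t i a = 0 :=
    fun t h => hasSum'_ladder Q m t i a (Ne.symm h)
  split_ifs with hma
  swap
  · exact (sum_eq_zero fun t _ => by rw [hzero t (by omega)]; simp).symm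
  by_cases hts : i + a - m ≤ spin1 Q m
  · rw [sum_eq_single (i + a - m) (fun t _ hne => by rw [hzero t (by omega)]; simp)
      (fun h => absurd (mem_range.2 (by omega)) h), ← row, row_ladder hQ hD (by omega),
      mom_ladder hQ hD (by omega) (by omega), if_pos ⟨rfl, rfl⟩,
      ip_ladder hQ (by omega) (by omega), if_pos ⟨rfl, rfl⟩, weight1]
    have h1 : ladderFac Q m (i + a - m) ≠ 0 := (ladderFac_pos hts).ne'
    have h2 := ip_extremal_ne_zero hQ (show m ≤ Q by omega)
    have h3 : (Q : ℝ) ≠ 0 := by exact_mod_cast (by omega : Q ≠ 0)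
    field_simp
  · have hf : ladderFac Q m (i + a - m) = 0 := by
      rw [ladderFac, prod_eq_zero (mem_range.2 (show spin1 Q m < i + a - m by omega)), mul_zero]
      rw [spin1, Nat.cast_sub (by omega : 2 * m ≤ 3 * Q - 2), Nat.cast_sub (by omega : 2 ≤ 3 * Q)]
      push_cast
      ring
    rw [ip_ladder hQ (by omega) (by omega), if_pos ⟨rfl, rfl⟩, hf]
    rw [sum_eq_zero fun t ht => by
      rw [mem_range] at ht
      rw [hzero t (by omega)]
      simp]
    simp

/-- The pair-plus-one moment is diagonal in the channels. -/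
theorem dec1 : Dec1Pin := by
  intro Q D hQ hD
  refine ⟨weight1 Q D, fun m => div_nonneg (mom_nonneg hD _) (sq_nonneg _), ?_⟩
  rintro ⟨s, a⟩ _ ⟨r, b⟩ _
  rcases s with _ | i
  · rw [hD.out1 _ _ (Or.inl rfl)]
    simp [vec1_zero_fst]
  rcases r with _ | j
  · rw [hD.symm1, hD.out1 _ _ (Or.inl rfl)]
    simp [vec1_zero_fst]
  rw [← ker1, ker1_eq hQ hD]
  refine sum_congr rfl fun m hm => sum_congr rfl fun t ht => ?_
  rw [mem_range] at hm ht
  rw [vec1_eq, vec1_eq, lad_eq Q m t (by omega) hQ]
  have h1 : ladderFac Q m t ≠ 0 := (ladderFac_pos (by omega)).ne'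
  have h3 : (Q : ℝ) ≠ 0 := by exact_mod_cast (by omega : Q ≠ 0)
  have hs : ((-1 : ℝ) ^ m) * (-1) ^ m = 1 := by rw [← mul_pow]; norm_num
  field_simp
  linear_combination (-(weight1 Q D m * ladder Q m t i a * ladder Q m t j b)) * hs

end Vale.Agent.P359.Mom
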