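import Vale.Agent.P359.Mom.LadderTwo.Kap

/-!
# P359: decomposition of the pair-plus-two moment

`res L` is the moment minus the channels of grade at most `L`. It keeps all the properties of a
moment, so each channel matrix, read off at `s = 1`, is positive semidefinite.
-/

noncomputable section

open Finset

namespace Vale.Agent.P359.Mom.Two

variable {Q : ℕ}

/-- The part of one channel family. -/
def contrib (Q L : ℕ) (X : ℕ × ℕ → ℕ × ℕ → ℝ) (p q : J2) : ℝ :=
  ∑ t ∈ range (4 * Q), ∑ u ∈ pairs L, ∑ v ∈ pairs L,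
    X u v * vec2 Q u t p * vec2 Q v t q / lad Q (spin2 Q L) t

/-- Values at `s = 1`. -/
def coef (R : J2 → J2 → ℝ) (u v : ℕ × ℕ) : ℝ := R (1, u.1, u.2) (1, v.1, v.2)

/-- What the residual keeps. -/
structure Good (Q L : ℕ) (R : J2 → J2 → ℝ) : Prop where
  symm : ∀ p q, R p q = R q p
  out : ∀ p q, Out Q p → R p q = 0
  grade : ∀ p q, grade2 p ≠ grade2 q → R p q = 0
  rel : ∀ p q, lo2 (fun a => R a q) p = up2 Q (fun b => R p b) q
  low : ∀ p q, grade2 p ≤ L → R p q = 0
  psd : ∀ c : J2 → ℝ, 0 ≤ ∑ p ∈ I2 Q, ∑ q ∈ I2 Q, c p * c q * R p q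
  null : ∀ c : J2 → ℝ, (∀ x : Fin 4 → ℕ, (∀ i, x i ≤ Q) → ev2 c x = 0) →
    ∀ q, ∑ p ∈ I2 Q, c p * R p q = 0

/-- The residual after removing the channels of grade at most `L`. -/
def res (Q : ℕ) (z : J2 → J2 → ℝ) : ℕ → J2 → J2 → ℝ
  | 0 => z
  | L + 1 => fun p q => res Q z L p q - contrib Q L (coef (res Q z L)) p q

lemma good_zero {D : Data} (hD : IsMom Q D) : Good Q 0 D.z2 where
  symm := hD.symm2
  out p q h := hD.out2 p q h
  grade := hD.grade2
  rel := hD.rel2
  low p q h := hD.out2 p q (Or.inl (by simp only [grade2] at h; omega))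
  psd c := hD.psd2 _ c
  null := hD.null2

/-- Chains that leave the range vanish. -/
lemma vec2_eq_zero (hQ : 1 ≤ Q) {L : ℕ} (hL : L < Q) {u : ℕ × ℕ} (hu : u ∈ pairs L) {t : ℕ}
    (h : lad Q (spin2 Q L) t = 0) : vec2 Q u t = 0 :=
  eq_zero_of_ip2 hQ (supp_vec2 hQ hL hu t) (by rw [ip_vec2 hQ hL hu hu, if_pos rfl, h, zero_mul])

lemma lad_big {L t : ℕ} (ht : spin2 Q L < t) : lad Q (spin2 Q L) t = 0 :=
  prod_eq_zero (mem_range.2 ht) (by simp)

lemma spin2_lt (hQ : 1 ≤ Q) (L : ℕ) : spin2 Q L < 4 * Q := by unfold spin2; omega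

lemma lad_pos (hQ : 1 ≤ Q) {d t : ℕ} (ht : t ≤ d) : 0 < lad Q d t := by
  refine prod_pos fun i hi => ?_
  rw [mem_range] at hi
  have : (i : ℝ) < d := by exact_mod_cast (show i < d by omega)
  have : (0 : ℝ) < Q := Nat.cast_pos.2 hQ
  have : 0 < (d : ℝ) - i := by linarith
  positivity

lemma contrib_eq_ite (hQ : 1 ≤ Q) {L : ℕ} (hL : L < Q) (X : ℕ × ℕ → ℕ × ℕ → ℝ) (p q : J2) :
    contrib Q L X p q = ∑ u ∈ pairs L, ∑ v ∈ pairs L,
      if grade2 p = grade2 q ∧ L + 1 ≤ grade2 p then
        X u v * vec2 Q u (grade2 p - 1 - L) p * vec2 Q v (grade2 p - 1 - L) q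
          / lad Q (spin2 Q L) (grade2 p - 1 - L)
      else 0 := by
  rw [contrib, sum_comm]
  refine sum_congr rfl fun u hu => ?_
  rw [sum_comm]
  refine sum_congr rfl fun v hv => ?_
  split_ifs with h
  · rw [sum_eq_single (grade2 p - 1 - L)]
    · intro t _ ht
      rw [homog_vec2 hu t p (by omega), mul_zero, zero_mul, zero_div]
    · intro ht
      rw [vec2_eq_zero hQ hL hu
        (lad_big (by rw [mem_range] at ht; have := spin2_lt hQ L; omega))]
      simp
  · refine sum_eq_zero fun t _ => ?_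
    by_cases h1 : grade2 p = L + 1 + t
    · rw [homog_vec2 hv t q (fun h2 => h ⟨by omega, by omega⟩), mul_zero, zero_div]
    · rw [homog_vec2 hu t p h1, mul_zero, zero_mul, zero_div]

section step

variable {L : ℕ} {R : J2 → J2 → ℝ}

/-- The operator of a form in the metric. -/
def app (Q : ℕ) (R : J2 → J2 → ℝ) (g : J2 → ℝ) (q : J2) : ℝ := ip2 Q g fun p => R p q

lemma supp_col (hR : Good Q L R) (q : J2) : Supp Q fun p => R p q := fun p h => hR.out p q h

lemma app_up (hQ : 1 ≤ Q) (hR : Good Q L R) (g : J2 → ℝ) :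
    app Q R (up2 Q g) = up2 Q (app Q R g) := by
  funext q
  rw [app, ip2_up hQ _ (supp_col hR q)]
  simp only [up2, app, ip2, mul_sum, ← sum_add_distrib]
  refine sum_congr rfl fun p _ => ?_
  rw [hR.rel p q, up2]
  ring

lemma app_lo (hQ : 1 ≤ Q) (hR : Good Q L R) {g : J2 → ℝ} (hg : Supp Q g) :
    lo2 (app Q R g) = app Q R (lo2 g) := by
  funext q
  rw [app, ip2_comm (lo2 g), ← ip2_up hQ _ hg]
  simp only [lo2, app, ip2, mul_sum, ← sum_add_distrib]
  refine sum_congr rfl fun p _ => ?_
  have h := hR.rel q p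
  simp only [lo2, up2] at h ⊢
  rw [hR.symm (p.1 - 1, p.2.1, p.2.2) q, hR.symm (p.1, p.2.1 - 1, p.2.2) q,
    hR.symm (p.1, p.2.1, p.2.2 - 1) q, hR.symm p (q.1 + 1, q.2.1, q.2.2),
    hR.symm p (q.1, q.2.1 + 1, q.2.2), hR.symm p (q.1, q.2.1, q.2.2 + 1)]
  linear_combination (g p / mu Q p) * h

lemma up_row_zero (hR : Good Q L R) (p q : J2) (hq : grade2 q ≤ L + 1) :
    up2 Q (fun b => R p b) q = 0 := by
  have hz : ∀ b, grade2 b ≤ L → R p b = 0 := fun b hb => by rw [hR.symm]; exact hR.low _ _ hb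
  obtain ⟨s, a, b⟩ := q
  simp only [grade2] at hq
  have h1 : uR Q s * R p (s - 1, a, b) = 0 := by
    by_cases hs : 2 ≤ s
    · rw [hz _ (by simp only [grade2]; omega), mul_zero]
    · simp [uR, hs]
  have h2 : uO Q a * R p (s, a - 1, b) = 0 := by
    by_cases ha : 1 ≤ a
    · rw [hz _ (by simp only [grade2]; omega), mul_zero]
    · simp [uO, ha]
  have h3 : uO Q b * R p (s, a, b - 1) = 0 := by
    by_cases hb : 1 ≤ b
    · rw [hz _ (by simp only [grade2]; omega), mul_zero]
    · simp [uO, hb]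
  simp [up2, h1, h2, h3]

/-- A column of the lowest grade is a combination of lowest vectors. -/
lemma col_expand (hR : Good Q L R) (q : J2) (hq : grade2 q = L + 1) :
    (fun p => R p q) = ∑ u ∈ pairs L, R (1, u.1, u.2) q • low2 u :=
  lw_expand (fun p hp => hR.grade p q (by omega))
    (fun _ _ => hR.out _ _ (Or.inl rfl))
    (funext fun p => by rw [hR.rel p q, up_row_zero hR p q hq.le]; rfl)

lemma col_one (hR : Good Q L R) {v : ℕ × ℕ} (hv : v ∈ pairs L) :
    (fun p => R p (1, v.1, v.2)) = ∑ u ∈ pairs L, coef R u v • low2 u :=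
  col_expand hR _ (by simp only [pairs, HasAntidiagonal.mem_antidiagonal] at hv;
                      simp only [grade2]; omega)

/-- The matrix of `app` on the lowest vectors. -/
def amat (Q L : ℕ) (R : J2 → J2 → ℝ) (v w : ℕ × ℕ) : ℝ :=
  ∑ u ∈ pairs L, gram Q v u * coef R u w

lemma app_low (hQ : 1 ≤ Q) (hL : L < Q) (hR : Good Q L R) {v : ℕ × ℕ} (hv : v ∈ pairs L) :
    app Q R (low2 v) = ∑ w ∈ pairs L, amat Q L R v w • low2 w := by
  rw [lw_expand (L := L) (f := app Q R (low2 v))]
  · refine sum_congr rfl fun w hw => ?_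
    congr 1
    show app Q R (low2 v) (1, w.1, w.2) = _
    rw [app, col_one hR hw, ip2_sum_right, amat]
    exact sum_congr rfl fun u _ => by rw [ip2_smul_right, gram]; ring
  · intro q hq
    refine sum_eq_zero fun p _ => ?_
    by_cases hp : grade2 p = L + 1
    · dsimp only
      rw [hR.grade p q (by omega), mul_zero, zero_div]
    · rw [homog_low2 hv p hp, zero_mul, zero_div]
  · intro a b
    refine sum_eq_zero fun p _ => ?_
    dsimp only
    rw [hR.symm p, hR.out (0, a, b) p (Or.inl rfl), mul_zero, zero_div]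
  · rw [app_lo hQ hR (supp_low2 hL hv), lo2_low2]
    funext q
    simp [app, ip2]

lemma app_vec (hQ : 1 ≤ Q) (hL : L < Q) (hR : Good Q L R) {v : ℕ × ℕ} (hv : v ∈ pairs L) :
    ∀ t, app Q R (vec2 Q v t) = ∑ w ∈ pairs L, amat Q L R v w • vec2 Q w t
  | 0 => app_low hQ hL hR hv
  | t + 1 => by
      rw [vec2_succ, app_up hQ hR, app_vec hQ hL hR hv t, up2_sum]
      exact sum_congr rfl fun w _ => by rw [up2_smul, vec2_succ]

lemma coef_symm (hR : Good Q L R) (u v : ℕ × ℕ) : coef R u v = coef R v u := hR.symm _ _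

/-- The removed part acts like the form on the chains. -/
lemma app_contrib (hQ : 1 ≤ Q) (hL : L < Q) {v : ℕ × ℕ} (hv : v ∈ pairs L) {t : ℕ}
    (ht : t < 4 * Q) : app Q (contrib Q L (coef R)) (vec2 Q v t)
      = ∑ w ∈ pairs L, amat Q L R v w • vec2 Q w t := by
  funext q
  have h1 : app Q (contrib Q L (coef R)) (vec2 Q v t) q = ∑ k ∈ range (4 * Q),
      ∑ u ∈ pairs L, ∑ w ∈ pairs L,
        coef R u w * ip2 Q (vec2 Q v t) (vec2 Q u k) * vec2 Q w k q / lad Q (spin2 Q L) k := by
    have hc : (fun p => contrib Q L (coef R) p q) = ∑ k ∈ range (4 * Q), ∑ u ∈ pairs L,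
        ∑ w ∈ pairs L, (coef R u w * vec2 Q w k q / lad Q (spin2 Q L) k) • vec2 Q u k := by
      funext p
      simp only [contrib, Finset.sum_apply, Pi.smul_apply, smul_eq_mul]
      exact sum_congr rfl fun k _ => sum_congr rfl fun u _ => sum_congr rfl fun w _ => by ring
    rw [app, hc, ip2_sum_right]
    refine sum_congr rfl fun k _ => ?_
    rw [ip2_sum_right]
    refine sum_congr rfl fun u _ => ?_
    rw [ip2_sum_right]
    exact sum_congr rfl fun w _ => by rw [ip2_smul_right]; ring
  rw [h1, sum_eq_single_of_mem t (mem_range.2 ht) fun k _ hk =>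
    sum_eq_zero fun u hu => sum_eq_zero fun w _ => by
      rw [ip_vec2 hQ hL hv hu, if_neg (Ne.symm hk)]; simp, sum_comm]
  simp only [Finset.sum_apply, Pi.smul_apply, smul_eq_mul, amat, sum_mul]
  refine sum_congr rfl fun w hw => sum_congr rfl fun u hu => ?_
  rw [ip_vec2 hQ hL hv hu, if_pos rfl]
  by_cases h0 : lad Q (spin2 Q L) t = 0
  · simp [vec2_eq_zero hQ hL hw h0]
  · field_simp

/-- Null coefficients kill every channel. -/
lemma null_chain (hQ : 1 ≤ Q) (hL : L < Q) (hR : Good Q L R) {c : J2 → ℝ}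
    (hc : ∀ x : Fin 4 → ℕ, (∀ i, x i ≤ Q) → ev2 c x = 0) (t : ℕ) :
    ∀ v ∈ pairs L, ∑ u ∈ pairs L, (∑ p ∈ I2 Q, c p * vec2 Q u t p) * coef R u v = 0 := by
  set y : ℕ × ℕ → ℝ :=
    fun v => ∑ u ∈ pairs L, (∑ p ∈ I2 Q, c p * vec2 Q u t p) * coef R u v with hy
  refine gram_injective hQ hL (c := y) fun v hv => ?_
  have h0 : ∑ p ∈ I2 Q, c p * app Q R (vec2 Q v t) p = 0 := by
    simp only [app, ip2, mul_sum]
    rw [sum_comm]
    refine sum_eq_zero fun q _ => ?_
    have := hR.null c hc q
    calc ∑ p ∈ I2 Q, c p * (vec2 Q v t q * R q p / mu Q q)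
        = vec2 Q v t q / mu Q q * ∑ p ∈ I2 Q, c p * R p q := by
          rw [mul_sum]; exact sum_congr rfl fun p _ => by rw [hR.symm q p]; ring
      _ = 0 := by rw [this, mul_zero]
  rw [app_vec hQ hL hR hv t] at h0
  simp only [Finset.sum_apply, Pi.smul_apply, smul_eq_mul, mul_sum, amat] at h0
  rw [sum_comm] at h0
  rw [← h0]
  simp only [hy, sum_mul, mul_sum]
  rw [sum_comm]
  refine sum_congr rfl fun w _ => ?_
  rw [sum_comm]
  refine sum_congr rfl fun p _ => sum_congr rfl fun u _ => ?_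
  rw [coef_symm hR u, gram_comm u]
  ring

lemma contrib_symm (hR : Good Q L R) (p q : J2) :
    contrib Q L (coef R) p q = contrib Q L (coef R) q p := by
  refine sum_congr rfl fun t _ => ?_
  rw [sum_comm]
  exact sum_congr rfl fun v _ => sum_congr rfl fun u _ => by rw [coef_symm hR u v]; ring

lemma contrib_rel (hQ : 1 ≤ Q) (hL : L < Q) (X : ℕ × ℕ → ℕ × ℕ → ℝ) (p q : J2) :
    lo2 (fun a => contrib Q L X a q) p = up2 Q (fun b => contrib Q L X p b) q := by
  set d := spin2 Q L with hd
  have hcol : (fun a => contrib Q L X a q) = ∑ t ∈ range (4 * Q), ∑ u ∈ pairs L,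
      ∑ v ∈ pairs L, (X u v * vec2 Q v t q / lad Q d t) • vec2 Q u t := by
    funext a
    simp only [contrib, Finset.sum_apply, Pi.smul_apply, smul_eq_mul, hd]
    exact sum_congr rfl fun t _ => sum_congr rfl fun u _ => sum_congr rfl fun v _ => by ring
  have hrow : (fun b => contrib Q L X p b) = ∑ t ∈ range (4 * Q), ∑ u ∈ pairs L,
      ∑ v ∈ pairs L, (X u v * vec2 Q u t p / lad Q d t) • vec2 Q v t := by
    funext b
    simp only [contrib, Finset.sum_apply, Pi.smul_apply, smul_eq_mul, hd]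
    exact sum_congr rfl fun t _ => sum_congr rfl fun u _ => sum_congr rfl fun v _ => by ring
  rw [hcol, hrow]
  simp only [lo2_sum, lo2_smul, up2_sum, up2_smul, Finset.sum_apply, Pi.smul_apply, smul_eq_mul]
  obtain ⟨n, hn⟩ : ∃ n, 4 * Q = n + 1 := ⟨4 * Q - 1, by omega⟩
  have htop : ∀ v ∈ pairs L, vec2 Q v (n + 1) = 0 := fun v hv =>
    vec2_eq_zero hQ hL hv (lad_big (by rw [← hn]; exact spin2_lt hQ L))
  rw [hn, sum_range_succ', sum_range_succ]
  rw [sum_eq_zero (s := pairs L) (f := fun u => ∑ v ∈ pairs L,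
      X u v * vec2 Q v 0 q / lad Q d 0 * lo2 (vec2 Q u 0) p) fun u _ => sum_eq_zero fun v _ => by
        rw [vec2_zero Q u, lo2_low2]; simp,
    sum_eq_zero (s := pairs L) (f := fun u => ∑ v ∈ pairs L,
      X u v * vec2 Q u n p / lad Q d n * up2 Q (vec2 Q v n) q) fun u _ => sum_eq_zero fun v hv => by
        rw [← vec2_succ, htop v hv]; simp]
  simp only [add_zero]
  refine sum_congr rfl fun k _ => sum_congr rfl fun u hu => sum_congr rfl fun v hv => ?_
  rw [lo_vec2 hQ hL hu k, ← vec2_succ, Pi.smul_apply, smul_eq_mul]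
  by_cases h0 : step Q L k = 0
  · have hz : vec2 Q v (k + 1) = 0 :=
      vec2_eq_zero hQ hL hv (by rw [lad_succ, h0, mul_zero])
    simp [hz]
  · rw [hd, lad_succ]
    field_simp

/-- One more channel family removed. -/
theorem good_succ (hQ : 1 ≤ Q) (hL : L < Q) (hR : Good Q L R) :
    Good Q (L + 1) fun p q => R p q - contrib Q L (coef R) p q where
  symm p q := by rw [hR.symm, contrib_symm hR]
  out p q h := by
    rw [hR.out p q h, contrib, sum_eq_zero fun t _ => sum_eq_zero fun u hu =>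
      sum_eq_zero fun v _ => by rw [supp_vec2 hQ hL hu t p h]; simp, sub_zero]
  grade p q h := by
    rw [hR.grade p q h, contrib_eq_ite hQ hL, sum_eq_zero fun u _ => sum_eq_zero fun v _ =>
      if_neg (fun hc => h hc.1), sub_zero]
  rel p q := by
    have h1 := hR.rel p q
    have h2 := contrib_rel hQ hL (coef R) p q
    simp only [lo2, up2] at h1 h2 ⊢
    linear_combination h1 - h2
  low p q hp := by
    by_cases hpq : grade2 p = grade2 q
    swap
    · rw [hR.grade p q hpq, contrib_eq_ite hQ hL, sum_eq_zero fun u _ => sum_eq_zero fun v _ =>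
        if_neg (fun hc => hpq hc.1), sub_zero]
    by_cases hlow : grade2 p ≤ L
    · rw [hR.low p q hlow, contrib_eq_ite hQ hL, sum_eq_zero fun u _ => sum_eq_zero fun v _ =>
        if_neg (fun hc => by omega), sub_zero]
    have hg : grade2 p = L + 1 := by omega
    have hcq := congrFun (col_expand hR q (hpq ▸ hg)) p
    simp only [Finset.sum_apply, Pi.smul_apply, smul_eq_mul] at hcq
    rw [hcq, contrib_eq_ite hQ hL, sub_eq_zero]
    refine sum_congr rfl fun u hu => ?_
    have hu' := congrFun (col_one hR hu) q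
    simp only [Finset.sum_apply, Pi.smul_apply, smul_eq_mul] at hu'
    rw [hR.symm (1, u.1, u.2) q, hu', sum_mul]
    refine sum_congr rfl fun v _ => ?_
    rw [if_pos ⟨hpq, hg.ge⟩, show grade2 p - 1 - L = 0 by omega, coef_symm hR v u, vec2_zero,
      vec2_zero]
    simp [lad]
    ring
  null c hc q := by
    simp only [mul_sub, sum_sub_distrib, hR.null c hc q, contrib, mul_sum]
    rw [sum_comm, sum_eq_zero, sub_zero]
    intro t _
    rw [sum_comm]
    calc ∑ u ∈ pairs L, ∑ p ∈ I2 Q, ∑ v ∈ pairs L,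
          c p * (coef R u v * vec2 Q u t p * vec2 Q v t q / lad Q (spin2 Q L) t)
        = ∑ v ∈ pairs L, (∑ u ∈ pairs L, (∑ p ∈ I2 Q, c p * vec2 Q u t p) * coef R u v)
            * (vec2 Q v t q / lad Q (spin2 Q L) t) := by
          simp only [sum_mul]
          rw [eq_comm, sum_comm]
          refine sum_congr rfl fun u _ => ?_
          rw [sum_comm]
          exact sum_congr rfl fun p _ => sum_congr rfl fun v _ => by ring
      _ = 0 := sum_eq_zero fun v hv => by rw [null_chain hQ hL hR hc t v hv, zero_mul]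
  psd c := by
    classical
    set d := spin2 Q L with hd
    have hr : ∀ t, ∃ α : ℕ × ℕ → ℝ, ∀ v ∈ pairs L, ∑ u ∈ pairs L, α u * gram Q u v
        = (∑ p ∈ I2 Q, c p * vec2 Q v t p) / lad Q d t :=
      fun t => gram_surjective hQ hL _
    choose α hα using hr
    set e : J2 → ℝ :=
      fun p => ∑ t ∈ range (4 * Q), ∑ u ∈ pairs L, α t u * vec2 Q u t p / mu Q p with he
    set c' : J2 → ℝ := fun p => c p - e p with hc'
    set R' : J2 → J2 → ℝ := fun p q => R p q - contrib Q L (coef R) p q with hR'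
    have horth : ∀ s v, v ∈ pairs L → ∑ p ∈ I2 Q, c' p * vec2 Q v s p = 0 := by
      intro s v hv
      by_cases hs : s < 4 * Q
      swap
      · rw [vec2_eq_zero hQ hL hv (lad_big (by have := spin2_lt hQ L; omega))]
        simp
      have hev : ∑ p ∈ I2 Q, e p * vec2 Q v s p
          = ∑ u ∈ pairs L, α s u * (lad Q d s * gram Q u v) := by
        simp only [he, sum_mul]
        rw [sum_comm, sum_eq_single_of_mem s (mem_range.2 hs)]
        · rw [sum_comm]
          refine sum_congr rfl fun u hu => ?_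
          have := ip_vec2 hQ hL hu hv s s
          rw [if_pos rfl] at this
          rw [hd, ← this, ip2, mul_sum]
          exact sum_congr rfl fun p _ => by ring
        · intro t _ hts
          rw [sum_comm]
          refine sum_eq_zero fun u hu => ?_
          have := ip_vec2 hQ hL hu hv t s
          rw [if_neg hts] at this
          calc ∑ p ∈ I2 Q, α t u * vec2 Q u t p / mu Q p * vec2 Q v s p
              = α t u * ip2 Q (vec2 Q u t) (vec2 Q v s) := by
                rw [ip2, mul_sum]; exact sum_congr rfl fun p _ => by ring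
            _ = 0 := by rw [this, mul_zero]
      simp only [hc', sub_mul, sum_sub_distrib, hev]
      by_cases h0 : lad Q d s = 0
      · rw [vec2_eq_zero hQ hL hv h0]
        simp [h0]
      · rw [show ∑ u ∈ pairs L, α s u * (lad Q d s * gram Q u v)
            = lad Q d s * ∑ u ∈ pairs L, α s u * gram Q u v from by
              rw [mul_sum]; exact sum_congr rfl fun u _ => by ring, hα s v hv,
          mul_div_cancel₀ _ h0, sub_self]
    have hkill : ∀ q, ∑ p ∈ I2 Q, e p * R' p q = 0 := by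
      intro q
      simp only [he, sum_mul]
      rw [sum_comm]
      refine sum_eq_zero fun t ht => ?_
      rw [sum_comm]
      refine sum_eq_zero fun u hu => ?_
      have e1 : app Q R (vec2 Q u t) q - app Q (contrib Q L (coef R)) (vec2 Q u t) q = 0 := by
        rw [app_vec hQ hL hR hu t, app_contrib hQ hL hu (mem_range.1 ht), sub_self]
      simp only [app, ip2, ← sum_sub_distrib] at e1
      calc ∑ p ∈ I2 Q, α t u * vec2 Q u t p / mu Q p * R' p q
          = α t u * ∑ p ∈ I2 Q, (vec2 Q u t p * R p q / mu Q p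
              - vec2 Q u t p * contrib Q L (coef R) p q / mu Q p) := by
            rw [mul_sum]; exact sum_congr rfl fun p _ => by simp only [hR']; ring
        _ = 0 := by rw [e1, mul_zero]
    have hC : ∀ q, ∑ p ∈ I2 Q, c' p * contrib Q L (coef R) p q = 0 := by
      intro q
      simp only [contrib, mul_sum]
      rw [sum_comm]
      refine sum_eq_zero fun t _ => ?_
      rw [sum_comm]
      refine sum_eq_zero fun u hu => ?_
      rw [sum_comm]
      refine sum_eq_zero fun v _ => ?_
      calc ∑ p ∈ I2 Q, c' p * (coef R u v * vec2 Q u t p * vec2 Q v t q / lad Q d t)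
          = (∑ p ∈ I2 Q, c' p * vec2 Q u t p) * (coef R u v * vec2 Q v t q / lad Q d t) := by
            rw [sum_mul]; exact sum_congr rfl fun p _ => by ring
        _ = 0 := by rw [horth t u hu, zero_mul]
    have hsymm : ∀ p q, R' p q = R' q p := fun p q => by
      simp only [hR']; rw [hR.symm, contrib_symm hR]
    have hA : ∀ q, ∑ p ∈ I2 Q, c p * R' p q = ∑ p ∈ I2 Q, c' p * R p q := fun q => by
      calc ∑ p ∈ I2 Q, c p * R' p q
          = ∑ p ∈ I2 Q, c' p * R p q - ∑ p ∈ I2 Q, c' p * contrib Q L (coef R) p q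
              + ∑ p ∈ I2 Q, e p * R' p q := by
            rw [← sum_sub_distrib, ← sum_add_distrib]
            exact sum_congr rfl fun p _ => by simp only [hR', hc']; ring
        _ = _ := by rw [hC, hkill, sub_zero, add_zero]
    have hB : ∀ q, ∑ p ∈ I2 Q, c' p * R p q = ∑ p ∈ I2 Q, c' p * R' p q := fun q => by
      calc ∑ p ∈ I2 Q, c' p * R p q
          = ∑ p ∈ I2 Q, c' p * R' p q + ∑ p ∈ I2 Q, c' p * contrib Q L (coef R) p q := by
            rw [← sum_add_distrib]
            exact sum_congr rfl fun p _ => by simp only [hR']; ring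
        _ = _ := by rw [hC, add_zero]
    have hfin : ∑ p ∈ I2 Q, ∑ q ∈ I2 Q, c p * c q * R' p q
        = ∑ p ∈ I2 Q, ∑ q ∈ I2 Q, c' p * c' q * R p q := by
      calc ∑ p ∈ I2 Q, ∑ q ∈ I2 Q, c p * c q * R' p q
          = ∑ q ∈ I2 Q, c q * ∑ p ∈ I2 Q, c' p * R' p q := by
            rw [sum_comm]
            refine sum_congr rfl fun q _ => ?_
            rw [← hB, ← hA, mul_sum]
            exact sum_congr rfl fun p _ => by ring
        _ = ∑ p ∈ I2 Q, c' p * ∑ q ∈ I2 Q, c q * R' q p := by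
            simp only [mul_sum]
            rw [sum_comm]
            exact sum_congr rfl fun p _ => sum_congr rfl fun q _ => by rw [hsymm p q]; ring
        _ = _ := by
            refine sum_congr rfl fun p _ => ?_
            rw [hA, mul_sum]
            exact sum_congr rfl fun q _ => by rw [hR.symm p q]; ring
    exact (hR.psd c').trans_eq hfin.symm

end step

lemma good_res {D : Data} (hD : IsMom Q D) :
    ∀ L, L ≤ Q → Good Q L (res Q D.z2 L)
  | 0, _ => good_zero hD
  | L + 1, h => good_succ (by omega) (by omega) (good_res hD L (by omega))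

lemma res_add (z : J2 → J2 → ℝ) (p q : J2) : ∀ n,
    z p q = res Q z n p q + ∑ L ∈ range n, contrib Q L (coef (res Q z L)) p q
  | 0 => by simp [res]
  | n + 1 => by rw [res_add z p q n, sum_range_succ, res]; ring

lemma psd_on {L : ℕ} {R : J2 → J2 → ℝ} (hR : Good Q L R) (S : Finset J2) (c : J2 → ℝ) :
    0 ≤ ∑ p ∈ S, ∑ q ∈ S, c p * c q * R p q := by
  classical
  set c' : J2 → ℝ := fun p => if p ∈ S then c p else 0 with hc'
  have hmove : ∀ F : J2 → ℝ, (∀ p, Out Q p → F p = 0) →
      ∑ p ∈ S, c p * F p = ∑ p ∈ I2 Q, c' p * F p := by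
    intro F hF
    calc ∑ p ∈ S, c p * F p = ∑ p ∈ S ∩ I2 Q, c p * F p :=
          (sum_subset inter_subset_left fun p hp hp' => by
            rw [hF p (out_of_not_mem fun h => hp' (mem_inter.2 ⟨hp, h⟩)), mul_zero]).symm
      _ = ∑ p ∈ S ∩ I2 Q, c' p * F p :=
          sum_congr rfl fun p hp => by simp [hc', (mem_inter.1 hp).1]
      _ = ∑ p ∈ I2 Q, c' p * F p := sum_subset inter_subset_right fun p hp hp' => by
            simp [hc', show p ∉ S from fun h => hp' (mem_inter.2 ⟨h, hp⟩)]
  have hrow : ∀ p, ∑ q ∈ S, c p * c q * R p q = c p * ∑ q ∈ I2 Q, c' q * R p q := by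
    intro p
    rw [← hmove (fun q => R p q) fun q hq => by rw [hR.symm]; exact hR.out q p hq, mul_sum]
    exact sum_congr rfl fun q _ => mul_assoc _ _ _
  refine (hR.psd c').trans_eq ?_
  rw [sum_congr rfl fun p (_ : p ∈ S) => hrow p,
    hmove (fun p => ∑ q ∈ I2 Q, c' q * R p q) fun p hp => sum_eq_zero fun q _ => by
      rw [hR.out p q hp, mul_zero]]
  simp only [mul_sum, mul_assoc]

lemma coef_psd {L : ℕ} {R : J2 → J2 → ℝ} (hR : Good Q L R) (S : Finset (ℕ × ℕ))
    (c : ℕ × ℕ → ℝ) : 0 ≤ ∑ u ∈ S, ∑ v ∈ S, c u * c v * coef R u v := by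
  classical
  have h := psd_on hR (S.image fun u => ((1, u.1, u.2) : J2)) fun p => c p.2
  have hi : Set.InjOn (fun u : ℕ × ℕ => ((1, u.1, u.2) : J2)) S := fun u _ v _ he => by
    simpa using congrArg Prod.snd he
  rw [sum_image hi] at h
  refine h.trans_eq (sum_congr rfl fun u _ => ?_)
  rw [sum_image hi]
  exact sum_congr rfl fun v _ => rfl

/-- The disjoint-pair form of a kernel. -/
def fourOf (Q : ℕ) (R : J2 → J2 → ℝ) : ℝ :=
  ∑ s ∈ I0 Q, ∑ t ∈ I0 Q, (∑ c ∈ range (t + 1), ∑ c' ∈ range (t + 1),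
    (((t - c : ℕ) : ℝ) - c) * (((t - c' : ℕ) : ℝ) - c')
      * R (s, c, t - c) (s, c', t - c')) / (pn Q s * pn Q t)

lemma fourOf_nonneg (hQ : 1 ≤ Q) {L : ℕ} {R : J2 → J2 → ℝ} (hR : Good Q L R) :
    0 ≤ fourOf Q R := by
  classical
  refine sum_nonneg fun s hs => sum_nonneg fun t ht => ?_
  simp only [I0, mem_range] at hs ht
  rcases Nat.eq_zero_or_pos s with h | h
  · simp [h, pn_zero]
  rcases Nat.eq_zero_or_pos t with h' | h'
  · simp [h']
  refine div_nonneg ?_ (mul_nonneg (pn_pos hQ h hs).le (pn_pos hQ h' ht).le)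
  have hp := psd_on hR ((range (t + 1)).image fun c => ((s, c, t - c) : J2))
    fun p => (p.2.2 : ℝ) - p.2.1
  have hi : Set.InjOn (fun c => ((s, c, t - c) : J2)) (range (t + 1) : Finset ℕ) :=
    fun u _ v _ he => by simpa using congrArg (fun p : J2 => p.2.1) he
  rw [sum_image hi] at hp
  refine hp.trans_eq (sum_congr rfl fun c _ => ?_)
  rw [sum_image hi]

lemma fourOf_contrib (hQ : 1 ≤ Q) {L : ℕ} (hL : L < Q) (X : ℕ × ℕ → ℕ × ℕ → ℝ) :
    fourOf Q (contrib Q L X) = (spin2 Q L + 1 : ℝ)
      * ∑ u ∈ pairs L, ∑ v ∈ pairs L, X u v * bil Q (low2 u) (low2 v) := by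
  have h1 : fourOf Q (contrib Q L X) = ∑ k ∈ range (4 * Q), ∑ u ∈ pairs L, ∑ v ∈ pairs L,
      X u v / lad Q (spin2 Q L) k * bil Q (vec2 Q u k) (vec2 Q v k) := by
    simp only [bil, mul_sum]
    rw [fourOf]
    conv_rhs =>
      enter [2, k, 2, u]
      rw [sum_comm]
    conv_rhs =>
      enter [2, k]
      rw [sum_comm]
    rw [sum_comm (s := range (4 * Q))]
    refine sum_congr rfl fun s _ => ?_
    conv_rhs =>
      enter [2, k, 2, u]
      rw [sum_comm]
    conv_rhs =>
      enter [2, k]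
      rw [sum_comm]
    rw [sum_comm (s := range (4 * Q))]
    refine sum_congr rfl fun t _ => ?_
    simp only [← kap_range, contrib, sum_mul, mul_sum, sum_div]
    conv_lhs =>
      enter [2, c]
      rw [sum_comm]
    rw [sum_comm]
    refine sum_congr rfl fun k _ => ?_
    conv_lhs =>
      enter [2, c]
      rw [sum_comm]
    rw [sum_comm]
    refine sum_congr rfl fun u _ => ?_
    conv_lhs =>
      enter [2, c]
      rw [sum_comm]
    rw [sum_comm]
    refine sum_congr rfl fun v _ => ?_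
    rw [sum_comm]
    refine sum_congr rfl fun c _ => sum_congr rfl fun c' _ => ?_
    ring
  have hk : ∀ k ∈ range (4 * Q), ∑ u ∈ pairs L, ∑ v ∈ pairs L,
      X u v / lad Q (spin2 Q L) k * bil Q (vec2 Q u k) (vec2 Q v k)
      = if k ≤ spin2 Q L then ∑ u ∈ pairs L, ∑ v ∈ pairs L, X u v * bil Q (low2 u) (low2 v)
        else 0 := by
    intro k _
    split_ifs with h
    · refine sum_congr rfl fun u hu => sum_congr rfl fun v hv => ?_
      rw [bil_vec2 hQ hL hu hv]
      have := (lad_pos hQ h).ne'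
      field_simp
    · rw [lad_big (not_le.1 h)]
      simp
  rw [h1, sum_congr rfl hk, ← sum_filter, sum_const, nsmul_eq_mul]
  congr 1
  have : (range (4 * Q)).filter (fun k => k ≤ spin2 Q L) = range (spin2 Q L + 1) := by
    ext k
    have := spin2_lt hQ L
    simp only [mem_filter, mem_range]
    omega
  rw [this, card_range]
  push_cast
  ring

end Vale.Agent.P359.Mom.Two

namespace Vale.Agent.P359.Mom

open Two in
/-- The decomposition of the pair-plus-two moment. -/
theorem dec2 : Dec2Pin := by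
  intro M Q D hM hD
  have hQ : 1 ≤ Q := by omega
  refine ⟨fun L => if L ≤ M then coef (res Q D.z2 L) else fun _ _ => 0,
    fun L u v => ?_, fun L c => ?_, fun L hL c hc v hv => ?_, fun p _ q _ hp => ?_, ?_⟩
  · dsimp only
    split_ifs with h
    · exact coef_symm (good_res hD L (by omega)) u v
    · rfl
  · dsimp only
    split_ifs with h
    · exact coef_psd (good_res hD L (by omega)) _ c
    · simp
  · dsimp only
    rw [if_pos hL]
    exact null_chain hQ (by omega) (good_res hD L (by omega)) hc 0 v hv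
  · rw [res_add (Q := Q) D.z2 p q (M + 1), (good_res hD (M + 1) (by omega)).low p q hp, zero_add]
    refine sum_congr rfl fun L hL => ?_
    rw [mem_range] at hL
    rw [contrib_eq_ite hQ (by omega)]
    simp only [if_pos (show L ≤ M by omega)]
  · have h : fourForm Q D = fourOf Q (res Q D.z2 (M + 1))
        + ∑ L ∈ range (M + 1), fourOf Q (contrib Q L (coef (res Q D.z2 L))) := by
      rw [fourForm]
      conv_lhs =>
        enter [2, s, 2, t, 1, 2, c, 2, c']
        rw [res_add (Q := Q) D.z2 (s, c, t - c) (s, c', t - c') (M + 1), mul_add, mul_sum]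
      simp only [fourOf, sum_add_distrib, add_div, sum_div]
      congr 1
      rw [sum_comm (s := range (M + 1))]
      refine sum_congr rfl fun s _ => ?_
      rw [sum_comm (s := range (M + 1))]
      refine sum_congr rfl fun t _ => ?_
      conv_rhs => rw [sum_comm]
      refine sum_congr rfl fun c _ => ?_
      rw [sum_comm]
    have h0 := fourOf_nonneg hQ (good_res hD (M + 1) (by omega))
    have he : ∀ L ∈ range (M + 1), fourOf Q (contrib Q L (coef (res Q D.z2 L)))
        = (spin2 Q L + 1 : ℝ) * ∑ u ∈ pairs L, ∑ v ∈ pairs L, coef (res Q D.z2 L) u v *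
          bil Q (low2 u) (low2 v) := fun L hL =>
      fourOf_contrib hQ (by rw [mem_range] at hL; omega) _
    rw [h, sum_congr rfl he]
    refine le_add_of_nonneg_of_le h0 (le_of_eq ?_)
    refine sum_congr rfl fun L hL => ?_
    rw [mem_range] at hL
    simp only [if_pos (show L ≤ M by omega), bil, kap_range]

end Vale.Agent.P359.Mom
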