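import Vale.Agent.P359.Mom.CertTwo
import Vale.Agent.P359.Mom.LadderOne
import Vale.Agent.P359.Mom.LadderTwo

/-!
# P359: the certificate bound
-/

noncomputable section

open Finset Filter
open scoped Topology Nat

namespace Vale.Agent.P359.Mom

open Fock

/-- The pair part of the window operator per unit of the pair multiplier. -/
def winPair (Q : ℕ) : ℝ := (∑ i ∈ range 8, winData.q0 (i + 1) * pn Q (i + 1)) / 4

/-- Its planar value. -/
def winPairLim : ℝ := (∑ i ∈ range 8, winData.q0 (i + 1) * (2 ^ (i + 1) / (i ! : ℝ))) / 4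

theorem tendsto_winPair : Tendsto winPair atTop (𝓝 winPairLim) :=
  (tendsto_finsetSum _ fun i _ => (Fock.Two.tendsto_pn i).const_mul _).div_const _

theorem winPairLim_lt : winPairLim < 19 / 20 := by
  have h : ∀ a, a < 8 → winData.q0 (a + 1)
      = (coef (sec2.yr.getD a []) a : ℝ) / 100 / (pairDiv (a + 1) : ℝ) ^ 2 := by
    intro a _
    simp [winData, coupling]
  rw [winPairLim, sum_congr rfl fun a ha => by rw [h a (mem_range.1 ha)]]
  simp [sum_range_succ, sec2, sec2y0, sec2y1, sec2y2, sec2y3, sec2y4, sec2y5, sec2y6, sec2y7,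
    coef, pairDiv, Nat.factorial]
  norm_num

/-- The pair channel. -/
theorem eventually_pair : ∀ᶠ Q : ℕ in atTop,
    2 * (Q : ℝ) * winPair Q ≤ (19 / 20 : ℝ) * ((2 * Q - 1 : ℕ) : ℝ) := by
  have h : Tendsto (fun Q : ℕ => (19 / 20 : ℝ) * (((2 * Q - 1 : ℕ) : ℝ) / Q) - 2 * winPair Q) atTop
      (𝓝 (19 / 20 * 2 - 2 * winPairLim)) := by
    have := Sphere.tendsto_linear 2 1
    simp only [Nat.cast_ofNat] at this
    exact (this.const_mul _).sub (tendsto_winPair.const_mul 2)
  filter_upwards [h.eventually_const_le (show (0 : ℝ) < 19 / 20 * 2 - 2 * winPairLim by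
    linarith [winPairLim_lt]), eventually_ge_atTop 1] with Q hQ h1
  have hQ' : (0 : ℝ) < Q := by exact_mod_cast h1
  have := mul_nonneg hQ'.le hQ
  field_simp at this
  linarith

/-- The window operator in the channels: it is below the gap form. -/
theorem boundPin_of (h0 : Dec0Pin) (h1 : Dec1Pin) (h2 : Dec2Pin) : BoundPin := by
  refine ⟨1 / 50, winData, by norm_num, ?_⟩
  filter_upwards [eventually_fockForm_nonneg, threeForm_ge h0 h1, Fock.chanOne_ge,
    Fock.Two.chanTwo_ge h2, eventually_pair, eventually_ge_atTop 9]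
    with Q hF hT hO hTwo hP hQ
  refine ⟨hF.1, hF.2, fun D hD hwin => ?_⟩
  obtain ⟨γ, hγ, hexp, hthree⟩ := hT D hD
  obtain ⟨y, hy0, hy⟩ := h0 Q D (by omega) hD
  have hone := hO D hD γ hγ hexp
  have htwo := hTwo D hD
  have hpair := pairForm_eq (Q := Q) (by omega) hD hy
  have hzero : (∑ s ∈ range winData.W, winData.q0 s * D.y0 s s) / 4 = y * winPair Q := by
    rw [show winData.W = 8 + 1 from rfl, sum_range_succ', winPair, show winData.q0 0 = 0 by
      simp [winData]]
    rw [zero_mul, add_zero, mul_div_assoc', mul_sum]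
    congr 1
    refine sum_congr rfl fun a ha => ?_
    rw [mem_range] at ha
    rw [hy (a + 1) (by omega) (by omega)]
    ring
  have hwf : winForm Q winData D = y * winPair Q
      + (∑ a, ∑ b, winData.q1 a b *
          ∑ p ∈ I1 Q, ∑ q ∈ I1 Q, winData.c1 a p * winData.c1 b q * D.z1 p q)
      + Fock.Two.winTwo Q D := by
    rw [winForm, hzero]; rfl
  have hw0 : 0 ≤ 2 * (Q : ℝ) * winForm Q winData D := by positivity
  rw [hwf] at hw0
  have hp := mul_le_mul_of_nonneg_left hP hy0
  rw [gapForm, hpair]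
  rw [hpair] at hthree
  linarith

/-- **The certificate bound.** -/
theorem boundPin : BoundPin := boundPin_of dec0 dec1 dec2

end Vale.Agent.P359.Mom
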