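import Mathlib

/-!
# P359: a check on a list from checks on its pieces
-/

namespace Vale.Agent.P359.Mom.Fock

theorem all_of_chunks {α : Type*} (l : List α) (f : α → Bool) (w n : ℕ) (hlen : l.length ≤ n * w)
    (h : ∀ j < n, ((l.drop (j * w)).take w).all f = true) : l.all f = true := by
  refine List.all_eq_true.2 fun x hx => ?_
  obtain ⟨i, hi, rfl⟩ := List.mem_iff_getElem.1 hx
  have hw : 0 < w := by
    rcases Nat.eq_zero_or_pos w with rfl | hw
    · simp only [mul_zero] at hlen; omega
    · exact hw
  have hd : i / w * w + i % w = i := Nat.div_add_mod' i w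
  have hm : i % w < w := Nat.mod_lt _ hw
  refine List.all_eq_true.1 (h (i / w) ((Nat.div_lt_iff_lt_mul hw).2 (by omega))) _ ?_
  have hlt : i % w < ((l.drop (i / w * w)).take w).length := by
    rw [List.length_take, List.length_drop]; omega
  refine List.mem_iff_getElem.2 ⟨i % w, hlt, ?_⟩
  simp only [List.getElem_take, List.getElem_drop, hd]

end Vale.Agent.P359.Mom.Fock
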