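import Vale.Agent.P359.Mom.CertFockData

/-!
Kernel evaluation of the window certificate, part A.
-/

namespace Vale.Agent.P359.Mom.Fock

theorem check_blk6_23 : checkBlock marginS sectors blk6_23 = true := by decide +kernel
theorem check_blk5_19 : checkBlock marginS sectors blk5_19 = true := by decide +kernel
theorem check_blk7_28 : checkBlock marginS sectors blk7_28 = true := by decide +kernel
theorem check_blk6_27 : checkBlock marginS sectors blk6_27 = true := by decide +kernel
theorem check_blk5_16 : checkBlock marginS sectors blk5_16 = true := by decide +kernel
theorem check_blk5_23 : checkBlock marginS sectors blk5_23 = true := by decide +kernel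
theorem check_blk5_15 : checkBlock marginS sectors blk5_15 = true := by decide +kernel
theorem check_blk7_24 : checkBlock marginS sectors blk7_24 = true := by decide +kernel
theorem check_blk6_18 : checkBlock marginS sectors blk6_18 = true := by decide +kernel
theorem check_blk4_17 : checkBlock marginS sectors blk4_17 = true := by decide +kernel
theorem check_blk4_12 : checkBlock marginS sectors blk4_12 = true := by decide +kernel
theorem check_blk8_33 : checkBlock marginS sectors blk8_33 = true := by decide +kernel
theorem check_blk7_32 : checkBlock marginS sectors blk7_32 = true := by decide +kernel
theorem check_blk4_11 : checkBlock marginS sectors blk4_11 = true := by decide +kernel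
theorem check_blk6_30 : checkBlock marginS sectors blk6_30 = true := by decide +kernel
theorem check_blk6_16 : checkBlock marginS sectors blk6_16 = true := by decide +kernel
theorem check_blk7_34 : checkBlock marginS sectors blk7_34 = true := by decide +kernel
theorem check_blk3_9 : checkBlock marginS sectors blk3_9 = true := by decide +kernel
theorem check_blk5_27 : checkBlock marginS sectors blk5_27 = true := by decide +kernel
theorem check_blk3_14 : checkBlock marginS sectors blk3_14 = true := by decide +kernel
theorem check_blk4_8 : checkBlock marginS sectors blk4_8 = true := by decide +kernel
theorem check_blk6_32 : checkBlock marginS sectors blk6_32 = true := by decide +kernel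
theorem check_blk4_6 : checkBlock marginS sectors blk4_6 = true := by decide +kernel
theorem check_blk5_29 : checkBlock marginS sectors blk5_29 = true := by decide +kernel
theorem check_blk2_5 : checkBlock marginS sectors blk2_5 = true := by decide +kernel

end Vale.Agent.P359.Mom.Fock
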