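import Vale.Agent.P359.Mom.CertFockData

/-!
Kernel evaluation of the window certificate, part B.
-/

namespace Vale.Agent.P359.Mom.Fock

theorem check_blk6_24 : checkBlock marginS sectors blk6_24 = true := by decide +kernel
theorem check_blk5_18 : checkBlock marginS sectors blk5_18 = true := by decide +kernel
theorem check_blk7_27 : checkBlock marginS sectors blk7_27 = true := by decide +kernel
theorem check_blk5_17 : checkBlock marginS sectors blk5_17 = true := by decide +kernel
theorem check_blk6_20 : checkBlock marginS sectors blk6_20 = true := by decide +kernel
theorem check_blk4_16 : checkBlock marginS sectors blk4_16 = true := by decide +kernel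
theorem check_blk4_15 : checkBlock marginS sectors blk4_15 = true := by decide +kernel
theorem check_blk6_28 : checkBlock marginS sectors blk6_28 = true := by decide +kernel
theorem check_blk5_14 : checkBlock marginS sectors blk5_14 = true := by decide +kernel
theorem check_blk8_28 : checkBlock marginS sectors blk8_28 = true := by decide +kernel
theorem check_blk4_18 : checkBlock marginS sectors blk4_18 = true := by decide +kernel
theorem check_blk7_33 : checkBlock marginS sectors blk7_33 = true := by decide +kernel
theorem check_blk7_22 : checkBlock marginS sectors blk7_22 = true := by decide +kernel
theorem check_blk8_36 : checkBlock marginS sectors blk8_36 = true := by decide +kernel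
theorem check_blk5_25 : checkBlock marginS sectors blk5_25 = true := by decide +kernel
theorem check_blk5_26 : checkBlock marginS sectors blk5_26 = true := by decide +kernel
theorem check_blk6_15 : checkBlock marginS sectors blk6_15 = true := by decide +kernel
theorem check_blk3_13 : checkBlock marginS sectors blk3_13 = true := by decide +kernel
theorem check_blk4_9 : checkBlock marginS sectors blk4_9 = true := by decide +kernel
theorem check_blk5_11 : checkBlock marginS sectors blk5_11 = true := by decide +kernel
theorem check_blk4_22 : checkBlock marginS sectors blk4_22 = true := by decide +kernel
theorem check_blk5_28 : checkBlock marginS sectors blk5_28 = true := by decide +kernel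
theorem check_blk4_23 : checkBlock marginS sectors blk4_23 = true := by decide +kernel
theorem check_blk2_8 : checkBlock marginS sectors blk2_8 = true := by decide +kernel
theorem check_blk3_4 : checkBlock marginS sectors blk3_4 = true := by decide +kernel
theorem check_blk2_4 : checkBlock marginS sectors blk2_4 = true := by decide +kernel
theorem check_blk2_3 : checkBlock marginS sectors blk2_3 = true := by decide +kernel

end Vale.Agent.P359.Mom.Fock
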