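import Vale.Agent.P359.Mom.CertFockData

/-!
Kernel evaluation of the window certificate, part C.
-/

namespace Vale.Agent.P359.Mom.Fock

theorem check_blk6_25 : checkBlock marginS sectors blk6_25 = true := by decide +kernel
theorem check_blk6_22 : checkBlock marginS sectors blk6_22 = true := by decide +kernel
theorem check_blk6_26 : checkBlock marginS sectors blk6_26 = true := by decide +kernel
theorem check_blk7_29 : checkBlock marginS sectors blk7_29 = true := by decide +kernel
theorem check_blk7_25 : checkBlock marginS sectors blk7_25 = true := by decide +kernel
theorem check_blk6_19 : checkBlock marginS sectors blk6_19 = true := by decide +kernel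
theorem check_blk4_14 : checkBlock marginS sectors blk4_14 = true := by decide +kernel
theorem check_blk9_36 : checkBlock marginS sectors blk9_36 = true := by decide +kernel
theorem check_blk4_13 : checkBlock marginS sectors blk4_13 = true := by decide +kernel
theorem check_blk8_30 : checkBlock marginS sectors blk8_30 = true := by decide +kernel
theorem check_blk8_29 : checkBlock marginS sectors blk8_29 = true := by decide +kernel
theorem check_blk8_34 : checkBlock marginS sectors blk8_34 = true := by decide +kernel
theorem check_blk6_17 : checkBlock marginS sectors blk6_17 = true := by decide +kernel
theorem check_blk7_21 : checkBlock marginS sectors blk7_21 = true := by decide +kernel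
theorem check_blk5_13 : checkBlock marginS sectors blk5_13 = true := by decide +kernel
theorem check_blk3_11 : checkBlock marginS sectors blk3_11 = true := by decide +kernel
theorem check_blk3_12 : checkBlock marginS sectors blk3_12 = true := by decide +kernel
theorem check_blk3_10 : checkBlock marginS sectors blk3_10 = true := by decide +kernel
theorem check_blk7_35 : checkBlock marginS sectors blk7_35 = true := by decide +kernel
theorem check_blk5_10 : checkBlock marginS sectors blk5_10 = true := by decide +kernel
theorem check_blk3_7 : checkBlock marginS sectors blk3_7 = true := by decide +kernel
theorem check_blk4_7 : checkBlock marginS sectors blk4_7 = true := by decide +kernel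
theorem check_blk6_33 : checkBlock marginS sectors blk6_33 = true := by decide +kernel
theorem check_blk3_16 : checkBlock marginS sectors blk3_16 = true := by decide +kernel
theorem check_blk2_6 : checkBlock marginS sectors blk2_6 = true := by decide +kernel
theorem check_blk2_2 : checkBlock marginS sectors blk2_2 = true := by decide +kernel

end Vale.Agent.P359.Mom.Fock
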