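import Vale.Agent.P359.Mom.CertFockData

/-!
Kernel evaluation of the window certificate, part D.
-/

namespace Vale.Agent.P359.Mom.Fock

theorem check_blk5_20 : checkBlock marginS sectors blk5_20 = true := by decide +kernel
theorem check_blk6_21 : checkBlock marginS sectors blk6_21 = true := by decide +kernel
theorem check_blk5_21 : checkBlock marginS sectors blk5_21 = true := by decide +kernel
theorem check_blk5_22 : checkBlock marginS sectors blk5_22 = true := by decide +kernel
theorem check_blk7_26 : checkBlock marginS sectors blk7_26 = true := by decide +kernel
theorem check_blk7_30 : checkBlock marginS sectors blk7_30 = true := by decide +kernel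
theorem check_blk7_31 : checkBlock marginS sectors blk7_31 = true := by decide +kernel
theorem check_blk7_23 : checkBlock marginS sectors blk7_23 = true := by decide +kernel
theorem check_blk5_24 : checkBlock marginS sectors blk5_24 = true := by decide +kernel
theorem check_blk6_29 : checkBlock marginS sectors blk6_29 = true := by decide +kernel
theorem check_blk8_31 : checkBlock marginS sectors blk8_31 = true := by decide +kernel
theorem check_blk8_32 : checkBlock marginS sectors blk8_32 = true := by decide +kernel
theorem check_blk8_35 : checkBlock marginS sectors blk8_35 = true := by decide +kernel
theorem check_blk4_19 : checkBlock marginS sectors blk4_19 = true := by decide +kernel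
theorem check_blk4_10 : checkBlock marginS sectors blk4_10 = true := by decide +kernel
theorem check_blk4_20 : checkBlock marginS sectors blk4_20 = true := by decide +kernel
theorem check_blk5_12 : checkBlock marginS sectors blk5_12 = true := by decide +kernel
theorem check_blk6_31 : checkBlock marginS sectors blk6_31 = true := by decide +kernel
theorem check_blk4_21 : checkBlock marginS sectors blk4_21 = true := by decide +kernel
theorem check_blk3_8 : checkBlock marginS sectors blk3_8 = true := by decide +kernel
theorem check_blk3_15 : checkBlock marginS sectors blk3_15 = true := by decide +kernel
theorem check_blk3_6 : checkBlock marginS sectors blk3_6 = true := by decide +kernel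
theorem check_blk3_5 : checkBlock marginS sectors blk3_5 = true := by decide +kernel
theorem check_blk2_7 : checkBlock marginS sectors blk2_7 = true := by decide +kernel
theorem check_blk3_3 : checkBlock marginS sectors blk3_3 = true := by decide +kernel
theorem check_blk2_1 : checkBlock marginS sectors blk2_1 = true := by decide +kernel

end Vale.Agent.P359.Mom.Fock
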