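import Vale.Agent.P359.Mom.CertFockRestP0
import Vale.Agent.P359.Mom.CertFockRestP1
import Vale.Agent.P359.Mom.CertFockRestP2
import Vale.Agent.P359.Mom.CertFockRestP3
import Vale.Agent.P359.Mom.CertFockRestP4
import Vale.Agent.P359.Mom.CertFockRestP5
import Vale.Agent.P359.Mom.CertFockRestP6
import Vale.Agent.P359.Mom.CertFockRestP7

/-!
Kernel evaluation of the window certificate: the sectors and the masks outside all blocks.
-/

namespace Vale.Agent.P359.Mom.Fock

theorem check_sectors : sectors.all checkSector = true := by decide +kernel

theorem check_covered : (decide (blocks.flatMap fun b => b.st).Nodup &&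
    (blocks.flatMap fun b => b.st).all fun P => decide (P < 512)) = true := by decide +kernel

theorem check_rest : checkRest marginS sectors (blocks.flatMap fun b => b.st) = true := by
  simp only [checkRest, Bool.and_eq_true]
  refine ⟨Bool.and_eq_true_iff.1 check_covered, List.all_eq_true.2 fun P hP => ?_⟩
  have hP' : P < 512 := List.mem_range.1 hP
  have key : ∀ k, (List.range' k 64).all restAt = true → k ≤ P → P < k + 64 → restAt P = true :=
    fun k hk h1 h2 => List.all_eq_true.1 hk P (List.mem_range'_1.2 ⟨h1, h2⟩)
  by_cases h0 : P < 64
  · exact key 0 check_rest0 (by omega) (by omega)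
  by_cases h1 : P < 128
  · exact key 64 check_rest1 (by omega) (by omega)
  by_cases h2 : P < 192
  · exact key 128 check_rest2 (by omega) (by omega)
  by_cases h3 : P < 256
  · exact key 192 check_rest3 (by omega) (by omega)
  by_cases h4 : P < 320
  · exact key 256 check_rest4 (by omega) (by omega)
  by_cases h5 : P < 384
  · exact key 320 check_rest5 (by omega) (by omega)
  by_cases h6 : P < 448
  · exact key 384 check_rest6 (by omega) (by omega)
  exact key 448 check_rest7 (by omega) (by omega)

end Vale.Agent.P359.Mom.Fock
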