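import Vale.Agent.P359.Mom.CertFockDefs

/-!
# P359: soundness of the window certificate
-/

noncomputable section

open Finset

namespace Vale.Agent.P359.Mom.Fock

open Cert

variable (u : ℕ → ℝ)

@[simp] theorem lin_nil : lin [] u = 0 := rfl

@[simp] theorem lin_cons (e : ℕ × ℤ) (r : Row) : lin (e :: r) u = e.2 * u e.1 + lin r u := by
  simp [lin]

theorem lin_append (r s : Row) : lin (r ++ s) u = lin r u + lin s u := by
  simp [lin, List.map_append, List.sum_append]

theorem lin_scale (c : ℤ) (r : Row) : lin (scale c r) u = c * lin r u := by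
  induction r with
  | nil => simp [scale]
  | cons e r ih =>
      rw [show scale c (e :: r) = (e.1, c * e.2) :: scale c r from rfl, lin_cons, lin_cons, ih]
      push_cast; ring

theorem lin_flatMap {α : Type} (l : List α) (f : α → Row) :
    lin (l.flatMap f) u = (l.map fun x => lin (f x) u).sum := by
  induction l with
  | nil => simp
  | cons x l ih => simp [List.flatMap_cons, lin_append, ih]

theorem coef_cons (e : ℕ × ℤ) (r : Row) (k : ℕ) :
    coef (e :: r) k = (if e.1 = k then e.2 else 0) + coef r k := by
  by_cases h : e.1 = k <;> simp [coef, List.filter_cons, h]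

theorem lin_eq_coef {keys : List ℕ} (hk : keys.Nodup) (r : Row) (hr : ∀ e ∈ r, e.1 ∈ keys) :
    lin r u = ∑ k ∈ keys.toFinset, (coef r k : ℝ) * u k := by
  induction r with
  | nil => simp [coef]
  | cons e r ih =>
      rw [lin_cons, ih fun x hx => hr x (List.mem_cons_of_mem _ hx)]
      simp only [coef_cons, Int.cast_add, add_mul, sum_add_distrib]
      congr 1
      rw [Finset.sum_eq_single e.1]
      · simp
      · intro k _ hne; simp [Ne.symm hne]
      · intro h; exact absurd (List.mem_toFinset.2 (hr e List.mem_cons_self)) h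

theorem lin_eq_of_agree {keys : List ℕ} (hk : keys.Nodup) {r s : Row} (h : agree keys r s = true) :
    lin r u = lin s u := by
  simp only [agree, Bool.and_eq_true, List.all_eq_true, List.contains_iff_mem, beq_iff_eq] at h
  rw [lin_eq_coef u hk r h.1.1, lin_eq_coef u hk s h.1.2]
  exact sum_congr rfl fun k hk' => by rw [h.2 k (List.mem_toFinset.1 hk')]

theorem range_map_sum {β : Type*} [AddCommMonoid β] (n : ℕ) (f : ℕ → β) :
    ((List.range n).map f).sum = ∑ i ∈ range n, f i := rfl

/-! ### bits -/

theorem land_eq_zero_iff_add {a m : ℕ} (h : a &&& m = 0) :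
    (a ||| m) ^^^ a = m ∧ a &&& (a ||| m) = a := by
  have hb : ∀ i, (a.testBit i && m.testBit i) = false := fun i => by
    rw [← Nat.testBit_and, h, Nat.zero_testBit]
  constructor <;> refine Nat.eq_of_testBit_eq fun i => ?_ <;> have := hb i <;>
    simp only [Nat.testBit_xor, Nat.testBit_or, Nat.testBit_and] <;>
    cases h1 : a.testBit i <;> cases h2 : m.testBit i <;> simp_all

theorem land_eq_self_sub {a P : ℕ} (h : a &&& P = a) :
    a &&& (P ^^^ a) = 0 ∧ a ||| (P ^^^ a) = P := by
  have hb : ∀ i, (a.testBit i && P.testBit i) = a.testBit i := fun i => by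
    rw [← Nat.testBit_and, h]
  constructor <;> refine Nat.eq_of_testBit_eq fun i => ?_ <;> have := hb i <;>
    simp only [Nat.testBit_xor, Nat.testBit_or, Nat.testBit_and, Nat.zero_testBit] <;>
    cases h1 : a.testBit i <;> cases h2 : P.testBit i <;> simp_all

/-- Sums over the supersets of a mask are sums over the disjoint masks. -/
theorem sum_supermask {a : ℕ} (ha : a < 512) (F : ℕ → ℝ) :
    ∑ P ∈ range 512, (if a &&& P = a then F P else 0)
      = ∑ m ∈ range 512, if a &&& m = 0 then F (a ||| m) else 0 := by
  rw [← sum_filter, ← sum_filter]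
  refine sum_nbij' (fun P => P ^^^ a) (fun m => a ||| m) ?_ ?_ ?_ ?_ ?_
  · intro P hP
    simp only [mem_filter, mem_range] at hP ⊢
    exact ⟨Nat.xor_lt_two_pow (n := 9) hP.1 ha, (land_eq_self_sub hP.2).1⟩
  · intro m hm
    simp only [mem_filter, mem_range] at hm ⊢
    exact ⟨Nat.or_lt_two_pow (n := 9) ha hm.1, (land_eq_zero_iff_add hm.2).2⟩
  · intro P hP
    exact (land_eq_self_sub (mem_filter.1 hP).2).2
  · intro m hm
    exact (land_eq_zero_iff_add (mem_filter.1 hm).2).1
  · intro P hP
    rw [(land_eq_self_sub (mem_filter.1 hP).2).2]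

/-! ### rows -/

theorem lin_frow (r : Row) (m : ℕ) : lin (frow r m) u
    = (r.map fun e => if e.1 &&& m = 0 then (sgn e.1 m * e.2 : ℤ) * u (e.1 ||| m) else 0).sum := by
  induction r with
  | nil => rfl
  | cons e r ih =>
      by_cases h : e.1 &&& m = 0 <;>
        simp [frow, List.filter_cons, h] <;> simpa [frow, lin] using ih

theorem lin_coupled (S : ℤ) (T : Sector) (a m : ℕ) : lin (coupled S T a m) u
    = S * wt m * ((T.yr.getD a []).map fun t => (t.2 : ℝ) * lin (frow (T.rows.getD t.1 []) m) u).sum
      - lin (frow (T.rows.getD a []) m) u := by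
  rw [coupled, lin_append, lin_scale, lin_flatMap]
  simp only [lin_scale]
  rw [← List.sum_map_mul_left]
  simp only [Int.cast_mul, Int.cast_natCast, Int.cast_neg, Int.cast_one, mul_assoc, neg_one_mul,
    sub_eq_add_neg]

theorem sum_entries (r : Row) (hr : ∀ e ∈ r, e.1 < 512) (N : ℕ) (hN : N = 512) (g : ℕ → ℝ) :
    ∑ P ∈ range N, u P * (r.map fun e =>
        if e.1 &&& P = e.1 then (sgn e.1 (P ^^^ e.1) * e.2 : ℤ) * g (P ^^^ e.1) else 0).sum
      = ∑ m ∈ range N, (r.map fun e =>
        if e.1 &&& m = 0 then (sgn e.1 m * e.2 : ℤ) * u (e.1 ||| m) else 0).sum * g m := by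
  induction r with
  | nil => simp
  | cons e r ih =>
      simp only [List.map_cons, List.sum_cons, mul_add, add_mul, sum_add_distrib]
      rw [ih fun x hx => hr x (List.mem_cons_of_mem _ hx)]
      congr 1
      subst hN
      have h0 := sum_supermask (hr e List.mem_cons_self) fun P =>
        u P * ((sgn e.1 (P ^^^ e.1) * e.2 : ℤ) * g (P ^^^ e.1))
      refine Eq.trans ?_ (h0.trans (sum_congr rfl fun m _ => ?_))
      · refine sum_congr rfl fun P _ => ?_
        rw [mul_ite, mul_zero]
      · by_cases h : e.1 &&& m = 0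
        · rw [if_pos h, if_pos h, (land_eq_zero_iff_add h).1]; ring
        · rw [if_neg h, if_neg h, zero_mul]

theorem sum_funTerms (S : ℤ) (T : Sector) (hT : checkSector T = true) (a : ℕ) :
    ∑ P ∈ range 512, u P * lin (funTerms S T P a) u
      = ∑ m ∈ range 512, lin (frow (T.rows.getD a []) m) u * lin (coupled S T a m) u := by
  have hlt : ∀ e ∈ T.rows.getD a [], e.1 < 512 := by
    intro e he
    simp only [checkSector, Bool.and_eq_true, List.all_eq_true, decide_eq_true_eq] at hT
    by_cases hl : a < T.rows.length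
    · rw [List.getD_eq_getElem _ _ hl] at he
      exact hT.1 _ (List.getElem_mem hl) e he
    · rw [List.getD_eq_default _ _ (not_lt.1 hl)] at he; simp at he
  have hf : ∀ P, lin (funTerms S T P a) u = ((T.rows.getD a []).map fun e =>
      if e.1 &&& P = e.1 then (sgn e.1 (P ^^^ e.1) * e.2 : ℤ) * lin (coupled S T a (P ^^^ e.1)) u
      else 0).sum := by
    intro P
    rw [funTerms, lin_flatMap]
    congr 1
    refine List.map_congr_left fun e _ => ?_
    by_cases h : e.1 &&& P = e.1 <;> simp [h, lin_scale]
  simp only [hf]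
  rw [sum_entries u _ hlt 512 rfl fun m => lin (coupled S T a m) u]
  simp only [lin_frow]

theorem sum_rowTerms_sector (S : ℤ) (T : Sector) (hT : checkSector T = true) :
    ∑ P ∈ range 512, u P * lin ((List.range T.rows.length).flatMap fun a => funTerms S T P a) u
      = S * sectorForm T (fun m => (wt m : ℝ)) u - sectorSq T u := by
  simp only [lin_flatMap, range_map_sum, mul_sum]
  rw [sum_comm]
  simp only [sum_funTerms u S T hT, sectorForm, sectorSq, mul_sum, ← sum_sub_distrib]
  rw [sum_comm]
  refine sum_congr rfl fun m _ => sum_congr rfl fun a _ => ?_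
  rw [lin_coupled]; ring

theorem sum_rowTerms (S : ℤ) (Ts : List Sector) (hT : Ts.all checkSector = true) :
    ∑ P ∈ range 512, u P * lin (rowTerms S Ts P) u
      = S * tabForm Ts (fun m => (wt m : ℝ)) u - (Ts.map fun T => sectorSq T u).sum := by
  induction Ts with
  | nil => simp [rowTerms, tabForm]
  | cons T Ts ih =>
      simp only [List.all_cons, Bool.and_eq_true] at hT
      have hr : ∀ P, rowTerms S (T :: Ts) P
          = ((List.range T.rows.length).flatMap fun a => funTerms S T P a) ++ rowTerms S Ts P :=
        fun P => rfl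
      simp only [hr, lin_append, mul_add, sum_add_distrib]
      rw [sum_rowTerms_sector u S T hT.1, ih hT.2]
      simp [tabForm]; ring

/-! ### blocks -/

theorem block_nonneg {S : ℤ} {Ts : List Sector} {b : Block} (h : checkBlock S Ts b = true) :
    0 ≤ (b.st.map fun P => u P * lin (rowTerms S Ts P) u).sum := by
  simp only [checkBlock, Bool.and_eq_true, List.all_eq_true, List.mem_range, decide_eq_true_eq,
    beq_iff_eq] at h
  obtain ⟨⟨⟨⟨⟨hD, hnd⟩, hrow⟩, hP⟩, hZ⟩, hM⟩ := h
  set n := b.st.length with hn
  set R := b.B.length with hR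
  have hlist : (b.st.map fun P => u P * lin (rowTerms S Ts P) u).sum
      = ∑ i ∈ range n, ∑ j ∈ range n, (ent b.Z i j : ℝ) * u (b.st.getD i 0) * u (b.st.getD j 0) := by
    rw [show b.st.map (fun P => u P * lin (rowTerms S Ts P) u) = (List.range n).map
        (fun i => u (b.st.getD i 0) * lin (rowTerms S Ts (b.st.getD i 0)) u) from
      List.ext_getElem (by simp [hn]) fun i h1 h2 => by
        simp only [List.getElem_map, List.getElem_range]
        rw [List.getD_eq_getElem],
      range_map_sum]
    refine sum_congr rfl fun i hi => ?_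
    rw [lin_eq_of_agree u hnd (hrow i (mem_range.1 hi))]
    simp only [lin, List.map_map, range_map_sum, mul_sum, Function.comp_def]
    exact sum_congr rfl fun j _ => by ring
  rw [hlist]
  have hpsd := psd_of_check hM fun k : Fin R => ∑ i ∈ range n, (ent b.B k i : ℝ) * u (b.st.getD i 0)
  have key : (b.D : ℝ) * ∑ i ∈ range n, ∑ j ∈ range n,
        (ent b.Z i j : ℝ) * u (b.st.getD i 0) * u (b.st.getD j 0)
      = ∑ k : Fin R, ∑ l : Fin R, (ent b.M k l : ℝ)
          * (∑ i ∈ range n, (ent b.B k i : ℝ) * u (b.st.getD i 0))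
          * ∑ j ∈ range n, (ent b.B l j : ℝ) * u (b.st.getD j 0) := by
    have hDZ : ∀ i < n, ∀ j < n, (b.D : ℝ) * ent b.Z i j
        = ∑ k : Fin R, ∑ l : Fin R, (ent b.B k i : ℝ) * (ent b.M k l * ent b.B l j) := by
      intro i hi j hj
      have h1 := hZ i hi j hj
      rw [list_range_sum] at h1
      have h2 : ∀ k : Fin R, ent b.P k j = ∑ l : Fin R, ent b.M k l * ent b.B l j := fun k => by
        rw [← hP k k.isLt j hj, list_range_sum]
      simp only [h2, mul_sum] at h1
      exact_mod_cast h1.symm
    calc _ = ∑ i ∈ range n, ∑ j ∈ range n, ∑ k : Fin R, ∑ l : Fin R,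
        (ent b.B k i : ℝ) * (ent b.M k l * ent b.B l j) * u (b.st.getD i 0) * u (b.st.getD j 0) := by
          simp only [mul_sum]
          refine sum_congr rfl fun i hi => sum_congr rfl fun j hj => ?_
          rw [← mul_assoc, ← mul_assoc, hDZ i (mem_range.1 hi) j (mem_range.1 hj)]
          simp only [sum_mul]
      _ = _ := by
          simp only [mul_sum, sum_mul]
          rw [sum_congr rfl fun i _ => sum_comm, sum_comm]
          refine sum_congr rfl fun k _ => ?_
          rw [sum_congr rfl fun i _ => sum_comm, sum_comm]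
          exact sum_congr rfl fun l _ => sum_comm.trans
            (sum_congr rfl fun j _ => sum_congr rfl fun i _ => by ring)
  rw [← key] at hpsd
  exact nonneg_of_mul_nonneg_right hpsd (by exact_mod_cast hD)

/-- The planar form dominates the squares of all functionals. -/
theorem planar_margin {S : ℤ} {Ts : List Sector} {bs : List Block}
    (hT : Ts.all checkSector = true) (hb : ∀ b ∈ bs, checkBlock S Ts b = true)
    (hr : checkRest S Ts (bs.flatMap fun b => b.st) = true) :
    (Ts.map fun T => sectorSq T u).sum ≤ S * tabForm Ts (fun m => (wt m : ℝ)) u := by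
  rw [← sub_nonneg, ← sum_rowTerms u S Ts hT]
  simp only [checkRest, Bool.and_eq_true, List.all_eq_true, List.mem_range, decide_eq_true_eq,
    Bool.or_eq_true, List.contains_iff_mem] at hr
  obtain ⟨⟨hnd, hlt⟩, hout⟩ := hr
  rw [← sum_subset (s₁ := (bs.flatMap fun b => b.st).toFinset)
    (fun P hP => mem_range.2 (hlt P (List.mem_toFinset.1 hP))) fun P hP hnot => by
      rcases hout P (mem_range.1 hP) with h | h
      · exact absurd (List.mem_toFinset.2 h) hnot
      · rw [lin_eq_of_agree u (List.nodup_dedup _) h, lin_nil, mul_zero],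
    List.sum_toFinset _ hnd]
  clear hnd hlt hout
  induction bs with
  | nil => simp
  | cons b bs ih =>
      simp only [List.flatMap_cons, List.map_append, List.sum_append]
      exact add_nonneg (block_nonneg u (hb b List.mem_cons_self))
        (ih fun x hx => hb x (List.mem_cons_of_mem _ hx))

end Vale.Agent.P359.Mom.Fock
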