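import Vale.Agent.P359.Mom.Defs
import Vale.Agent.P359.Mom.CertFockSound
import Vale.Agent.P359.Mom.CertFockCheckA
import Vale.Agent.P359.Mom.CertFockCheckB
import Vale.Agent.P359.Mom.CertFockCheckC
import Vale.Agent.P359.Mom.CertFockCheckD
import Vale.Agent.P359.Mom.CertFockCheckR
import Vale.Agent.P359.Sphere.Limit

/-!
# P359: the tabulated window operator is nonnegative at every large flux
-/

noncomputable section

open Finset Filter
open scoped Topology Nat

namespace Vale.Agent.P359.Mom.Fock

/-- Weight of the occupied window orbitals at flux `Q`. -/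
def omega (Q m : ℕ) : ℝ := (∏ k ∈ bitSet m, cw Q k)⁻¹

theorem bitsL_nodup (m : ℕ) : (bitsL m).Nodup := List.nodup_range.filter _

theorem bitSet_eq (m : ℕ) : bitSet m = (bitsL m).toFinset := by
  ext i; simp [bitSet, bitsL]

theorem wt_eq_prod (m : ℕ) : wt m = ∏ k ∈ bitSet m, k ! := by
  rw [bitSet_eq, List.prod_toFinset _ (bitsL_nodup m)]; rfl

theorem tendsto_omega (m : ℕ) : Tendsto (fun Q => omega Q m) atTop (𝓝 (wt m : ℝ)) := by
  rw [wt_eq_prod, Nat.cast_prod]
  refine (tendsto_finsetProd _ fun k _ => Sphere.tendsto_rawWeight k).congr fun Q => ?_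
  rw [omega, ← Finset.prod_inv_distrib]
  exact Finset.prod_congr rfl fun k _ => by rw [cw, inv_div, Sphere.rawWeight]

/-- Sum of the absolute values of the coupling. -/
def couplingSize (T : Sector) : ℝ :=
  ∑ a ∈ range T.rows.length, ((T.yr.getD a []).map fun t => |(t.2 : ℝ)|).sum

theorem couplingSize_nonneg (T : Sector) : 0 ≤ couplingSize T :=
  sum_nonneg fun _ _ => List.sum_nonneg fun x hx => by
    obtain ⟨t, -, rfl⟩ := List.mem_map.1 hx
    exact abs_nonneg _

theorem inner_bound (T : Sector) (hT : checkSector T = true) (f : ℕ → ℝ) :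
    |∑ a ∈ range T.rows.length, f a * ((T.yr.getD a []).map fun t => (t.2 : ℝ) * f t.1).sum|
      ≤ couplingSize T * ∑ a ∈ range T.rows.length, f a ^ 2 := by
  simp only [checkSector, Bool.and_eq_true, List.all_eq_true, decide_eq_true_eq] at hT
  have hle : ∀ a < T.rows.length, ∀ b < T.rows.length,
      |f a| * |f b| ≤ ∑ c ∈ range T.rows.length, f c ^ 2 := by
    intro a ha b hb
    have h1 := single_le_sum (f := fun c => f c ^ 2) (fun c _ => sq_nonneg _) (mem_range.2 ha)
    have h2 := single_le_sum (f := fun c => f c ^ 2) (fun c _ => sq_nonneg _) (mem_range.2 hb)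
    nlinarith [sq_nonneg (|f a| - |f b|), sq_abs (f a), sq_abs (f b)]
  refine (abs_sum_le_sum_abs _ _).trans ?_
  rw [couplingSize, sum_mul]
  refine sum_le_sum fun a ha => ?_
  have hmem : ∀ t ∈ T.yr.getD a [], t.1 < T.rows.length := by
    intro t ht
    by_cases hl : a < T.yr.length
    · rw [List.getD_eq_getElem _ _ hl] at ht
      exact hT.2 _ (List.getElem_mem hl) t ht
    · rw [List.getD_eq_default _ _ (not_lt.1 hl)] at ht; simp at ht
  rw [abs_mul]
  generalize T.yr.getD a [] = l at hmem ⊢
  induction l with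
  | nil => simp
  | cons t l ih =>
      simp only [List.map_cons, List.sum_cons, add_mul]
      refine (mul_le_mul_of_nonneg_left (abs_add_le _ _) (abs_nonneg _)).trans ?_
      rw [mul_add]
      refine add_le_add ?_ (ih fun x hx => hmem x (List.mem_cons_of_mem _ hx))
      rw [abs_mul, mul_left_comm]
      exact mul_le_mul_of_nonneg_left
        (hle a (mem_range.1 ha) t.1 (hmem t List.mem_cons_self)) (abs_nonneg _)

theorem sectorForm_sub_le (T : Sector) (hT : checkSector T = true) (ω w : ℕ → ℝ) (η : ℝ)
    (hη : ∀ m ∈ range 512, |ω m - w m| ≤ η) (u : ℕ → ℝ) :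
    sectorForm T w u - sectorForm T ω u ≤ η * couplingSize T * sectorSq T u := by
  simp only [sectorForm, sectorSq, ← sum_sub_distrib, ← sub_mul]
  rw [mul_sum]
  refine sum_le_sum fun m hm => (le_abs_self _).trans ?_
  rw [abs_mul, abs_sub_comm, mul_assoc]
  exact mul_le_mul (hη m hm) (inner_bound T hT fun a => lin (frow (T.rows.getD a []) m) u)
    (abs_nonneg _) ((abs_nonneg _).trans (hη m hm))

theorem sectorSq_nonneg (T : Sector) (u : ℕ → ℝ) : 0 ≤ sectorSq T u :=
  sum_nonneg fun _ _ => sum_nonneg fun _ _ => sq_nonneg _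

theorem tabForm_sub_le (Ts : List Sector) (hT : Ts.all checkSector = true) (ω w : ℕ → ℝ) (η : ℝ)
    (h0 : 0 ≤ η) (hη : ∀ m ∈ range 512, |ω m - w m| ≤ η) (u : ℕ → ℝ) :
    tabForm Ts w u - tabForm Ts ω u
      ≤ η * (Ts.map couplingSize).sum * (Ts.map fun T => sectorSq T u).sum := by
  induction Ts with
  | nil => simp [tabForm]
  | cons T Ts ih =>
      simp only [List.all_cons, Bool.and_eq_true] at hT
      have hK : 0 ≤ (Ts.map couplingSize).sum := List.sum_nonneg fun x hx => by
        obtain ⟨T', -, rfl⟩ := List.mem_map.1 hx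
        exact couplingSize_nonneg T'
      have hN : 0 ≤ (Ts.map fun T => sectorSq T u).sum := List.sum_nonneg fun x hx => by
        obtain ⟨T', -, rfl⟩ := List.mem_map.1 hx
        exact sectorSq_nonneg T' u
      have h1 := sectorForm_sub_le T hT.1 ω w η hη u
      have h2 := ih hT.2
      simp only [tabForm, List.map_cons, List.sum_cons] at h2 ⊢
      nlinarith [mul_nonneg (mul_nonneg h0 hK) (sectorSq_nonneg T u),
        mul_nonneg (mul_nonneg h0 (couplingSize_nonneg T)) hN]

theorem check_blocks : ∀ b ∈ blocks, checkBlock marginS sectors b = true :=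
  List.forall_iff_forall_mem.1
    ⟨check_blk2_1, check_blk2_2, check_blk2_3, check_blk2_4, check_blk2_5, check_blk2_6, 
      check_blk2_7, check_blk2_8, check_blk3_3, check_blk3_4, check_blk3_5, check_blk3_6, 
      check_blk3_7, check_blk3_8, check_blk3_9, check_blk3_10, check_blk3_11, check_blk3_12, 
      check_blk3_13, check_blk3_14, check_blk3_15, check_blk3_16, check_blk4_6, check_blk4_7, 
      check_blk4_8, check_blk4_9, check_blk4_10, check_blk4_11, check_blk4_12, check_blk4_13, 
      check_blk4_14, check_blk4_15, check_blk4_16, check_blk4_17, check_blk4_18, 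
      check_blk4_19, check_blk4_20, check_blk4_21, check_blk4_22, check_blk4_23, 
      check_blk5_10, check_blk5_11, check_blk5_12, check_blk5_13, check_blk5_14, 
      check_blk5_15, check_blk5_16, check_blk5_17, check_blk5_18, check_blk5_19, 
      check_blk5_20, check_blk5_21, check_blk5_22, check_blk5_23, check_blk5_24, 
      check_blk5_25, check_blk5_26, check_blk5_27, check_blk5_28, check_blk5_29, 
      check_blk6_15, check_blk6_16, check_blk6_17, check_blk6_18, check_blk6_19, 
      check_blk6_20, check_blk6_21, check_blk6_22, check_blk6_23, check_blk6_24, 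
      check_blk6_25, check_blk6_26, check_blk6_27, check_blk6_28, check_blk6_29, 
      check_blk6_30, check_blk6_31, check_blk6_32, check_blk6_33, check_blk7_21, 
      check_blk7_22, check_blk7_23, check_blk7_24, check_blk7_25, check_blk7_26, 
      check_blk7_27, check_blk7_28, check_blk7_29, check_blk7_30, check_blk7_31, 
      check_blk7_32, check_blk7_33, check_blk7_34, check_blk7_35, check_blk8_28, 
      check_blk8_29, check_blk8_30, check_blk8_31, check_blk8_32, check_blk8_33, 
      check_blk8_34, check_blk8_35, check_blk8_36, check_blk9_36⟩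

/-- Positivity of the tabulated operator at every large flux. -/
theorem eventually_tabForm_nonneg :
    ∀ᶠ Q in atTop, ∀ u : ℕ → ℝ, 0 ≤ tabForm sectors (omega Q) u := by
  set S : ℝ := (marginS : ℝ) with hS
  have hS0 : 0 < S := by rw [hS]; norm_num [marginS]
  set K := (sectors.map couplingSize).sum with hK
  have hK0 : 0 ≤ K := List.sum_nonneg fun x hx => by
    obtain ⟨T, -, rfl⟩ := List.mem_map.1 hx
    exact couplingSize_nonneg T
  set η : ℝ := 1 / (S * (K + 1)) with hη
  have hη0 : 0 < η := by positivity
  have hev : ∀ᶠ Q in atTop, ∀ m ∈ range 512, |omega Q m - (wt m : ℝ)| ≤ η := by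
    rw [Finset.eventually_all]
    intro m _
    filter_upwards [(tendsto_omega m).eventually (Metric.closedBall_mem_nhds (wt m : ℝ) hη0)]
      with Q hQ
    simpa [Metric.mem_closedBall, Real.dist_eq] using hQ
  filter_upwards [hev] with Q hQ u
  have hm := planar_margin u check_sectors check_blocks check_rest
  have hd := tabForm_sub_le sectors check_sectors (omega Q) (fun m => (wt m : ℝ)) η hη0.le hQ u
  rw [← hK] at hd
  rw [← hS] at hm
  have hN : 0 ≤ (sectors.map fun T => sectorSq T u).sum := List.sum_nonneg fun x hx => by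
    obtain ⟨T, -, rfl⟩ := List.mem_map.1 hx
    exact sectorSq_nonneg T u
  have hone : η * (S * (K + 1)) = 1 := by rw [hη]; field_simp
  nlinarith [mul_le_mul_of_nonneg_left hd hS0.le, mul_nonneg hη0.le hS0.le]

end Vale.Agent.P359.Mom.Fock
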