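import Vale.Agent.P359.Cert.Psd

/-!
# P359: integer tables for quadratic forms on the window Fock space

A window set is a mask below `512`. A sector holds sparse integer functionals on sets of a fixed size
and sparse rows of their coupling matrix. `sectorForm` is the quadratic form these define on functions
of masks. `checkBlock` and `checkRest` certify, block by block, that `S` times the planar form minus
the sum of squares of all functionals is nonnegative.
-/

noncomputable section

open Finset

namespace Vale.Agent.P359.Mom.Fock

open Cert

/-- The elements of a mask. -/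
def bitsL (m : ℕ) : List ℕ := (List.range 9).filter fun i => m.testBit i

/-- The set of a mask. -/
def bitSet (m : ℕ) : Finset ℕ := (range 9).filter fun i => m.testBit i

/-- Number of pairs out of order when `a` is moved in front of `m`. -/
def invN (a m : ℕ) : ℕ :=
  ((bitsL a).map fun i => ((bitsL m).filter fun j => decide (j < i)).length).sum

def sgn (a m : ℕ) : ℤ := if invN a m % 2 = 0 then 1 else -1

/-- Planar weight. -/
def wt (m : ℕ) : ℕ := ((bitsL m).map Nat.factorial).prod

/-- Sparse linear form on masks. -/
abbrev Row := List (ℕ × ℤ)

structure Sector where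
  rows : List Row
  yr : List Row

/-- The functional `r` applied with the other particles in `m`. -/
def frow (r : Row) (m : ℕ) : Row :=
  (r.filter fun e => e.1 &&& m == 0).map fun e => (e.1 ||| m, sgn e.1 m * e.2)

def scale (c : ℤ) (r : Row) : Row := r.map fun e => (e.1, c * e.2)

def coupled (S : ℤ) (T : Sector) (a m : ℕ) : Row :=
  ((T.yr.getD a []).flatMap fun t => scale (S * wt m * t.2) (frow (T.rows.getD t.1 []) m))
    ++ scale (-1) (frow (T.rows.getD a []) m)

/-- Contribution of the functional `a` to the row `P`. -/
def funTerms (S : ℤ) (T : Sector) (P a : ℕ) : Row :=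
  (T.rows.getD a []).flatMap fun e =>
    if e.1 &&& P == e.1 then scale (sgn e.1 (P ^^^ e.1) * e.2) (coupled S T a (P ^^^ e.1)) else []

/-- Row `P` of the matrix of `S * planar - squares`. -/
def rowTerms (S : ℤ) (Ts : List Sector) (P : ℕ) : Row :=
  Ts.flatMap fun T => (List.range T.rows.length).flatMap fun a => funTerms S T P a

/-- Coefficient at `k`. -/
def coef (r : Row) (k : ℕ) : ℤ := ((r.filter fun e => e.1 == k).map Prod.snd).sum

def agree (keys : List ℕ) (r s : Row) : Bool :=
  (r.all fun e => keys.contains e.1) && (s.all fun e => keys.contains e.1) &&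
    (keys.all fun k => coef r k == coef s k)

/-- A block: states, its matrix `Z`, with `D * Z = transpose B * P` and `P = M * B`, and a
certificate `C` for `M`. -/
structure Block where
  st : List ℕ
  Z : List (List ℤ)
  D : ℤ
  B : List (List ℤ)
  P : List (List ℤ)
  M : List (List ℤ)
  C : List (List ℤ)

def checkBlock (S : ℤ) (Ts : List Sector) (b : Block) : Bool :=
  decide (0 < b.D) && decide b.st.Nodup &&
  ((List.range b.st.length).all fun i =>
    agree b.st (rowTerms S Ts (b.st.getD i 0))
      ((List.range b.st.length).map fun j => (b.st.getD j 0, ent b.Z i j))) &&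
  ((List.range b.B.length).all fun k => (List.range b.st.length).all fun j =>
    ((List.range b.B.length).map fun l => ent b.M k l * ent b.B l j).sum == ent b.P k j) &&
  ((List.range b.st.length).all fun i => (List.range b.st.length).all fun j =>
    ((List.range b.B.length).map fun k => ent b.B k i * ent b.P k j).sum == b.D * ent b.Z i j) &&
  checkPsd b.B.length b.M b.C

def checkRest (S : ℤ) (Ts : List Sector) (covered : List ℕ) : Bool :=
  decide covered.Nodup && (covered.all fun P => decide (P < 512)) &&
  ((List.range 512).all fun P => covered.contains P ||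
    agree ((rowTerms S Ts P).map Prod.fst).dedup (rowTerms S Ts P) [])

/-- The rows only use masks below `512` and the coupling only indices of rows. -/
def checkSector (T : Sector) : Bool :=
  (T.rows.all fun r => r.all fun e => decide (e.1 < 512)) &&
  (T.yr.all fun r => r.all fun e => decide (e.1 < T.rows.length))

/-- Evaluation of a sparse form. -/
def lin (r : Row) (u : ℕ → ℝ) : ℝ := (r.map fun e => (e.2 : ℝ) * u e.1).sum

def sectorForm (T : Sector) (ω : ℕ → ℝ) (u : ℕ → ℝ) : ℝ :=
  ∑ m ∈ range 512, ω m * ∑ a ∈ range T.rows.length, lin (frow (T.rows.getD a []) m) u *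
    ((T.yr.getD a []).map fun t => (t.2 : ℝ) * lin (frow (T.rows.getD t.1 []) m) u).sum

def sectorSq (T : Sector) (u : ℕ → ℝ) : ℝ :=
  ∑ m ∈ range 512, ∑ a ∈ range T.rows.length, lin (frow (T.rows.getD a []) m) u ^ 2

def tabForm (Ts : List Sector) (ω : ℕ → ℝ) (u : ℕ → ℝ) : ℝ :=
  (Ts.map fun T => sectorForm T ω u).sum

end Vale.Agent.P359.Mom.Fock
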