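import Vale.Agent.P359.Mom.CertFockData

/-!
# P359: the masks outside all blocks, in ranges
-/

namespace Vale.Agent.P359.Mom.Fock

open Cert

/-- The check of `checkRest` at one mask. -/
def restAt (P : ℕ) : Bool :=
  (blocks.flatMap fun b => b.st).contains P ||
    agree ((rowTerms marginS sectors P).map Prod.fst).dedup (rowTerms marginS sectors P) []

end Vale.Agent.P359.Mom.Fock
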