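import Vale.Agent.P359.Mom.CertWinDefs
import Mathlib.Data.Nat.Factorial.Basic

/-!
Kernel evaluation of the planar three-particle channels of the window certificate.
-/

namespace Vale.Agent.P359.Mom.Fock

/-- `new[a] = c * old[a] + d * old[a-1]`. -/
def stepL (c d : ℤ) : ℤ → List ℤ → List ℤ
  | prev, [] => [d * prev]
  | prev, x :: xs => (c * x + d * prev) :: stepL c d x xs

/-- Coefficients of the lowest vector of channel `m`, by orbital. -/
def lowZ : ℕ → List ℤ
  | 0 => [1]
  | m + 1 => stepL 1 (-1) 0 (lowZ m)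

/-- Planar ladder above it, by orbital. -/
def ladZ (m : ℕ) : ℕ → List ℤ
  | 0 => lowZ m
  | t + 1 => stepL 2 1 0 (ladZ m t)

/-- A multiple of all denominators. -/
def denOne : ℕ := 560

/-- `denOne` times the functional `a` on the planar vector `(m, t)`. -/
def funZ (m t a : ℕ) : ℤ :=
  let C := comb3.getD a ⟨0, 1, []⟩
  if C.grade = m + 1 + t then
    (C.cs.map fun e => e.2 * (ladZ m t).getD e.1.2 0).sum * (denOne / C.den : ℕ)
  else 0

/-- The window operator on the planar vector `(m, t)`, times `100 * denOne ^ 2`. -/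
def winZ (m t : ℕ) : ℤ :=
  ((List.range 48).map fun a =>
    funZ m t a * ((sec3.yr.getD a []).map fun y => y.2 * funZ m t y.1).sum).sum

/-- The margin of channel `m`, times a positive integer. -/
def marginZ (m : ℕ) : ℤ :=
  -6 * (1 - 3 * (m : ℤ)) * (-3) ^ m * m.factorial * 100 * denOne ^ 2 * Nat.factorial 15 * 3 ^ 15
    - 2 * 4 ^ (m + 1) *
      ((List.range 15).map fun t => winZ m t * ((Nat.factorial 15 / t.factorial * 3 ^ (15 - t) : ℕ) : ℤ)).sum

def checkOne : Bool :=
  (sec3.rows.length == 48) &&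
  ((List.range 48).all fun a =>
    let C := comb3.getD a ⟨0, 1, []⟩
    decide (C.grade ≤ 15 ∧ 0 < C.den ∧ denOne % C.den = 0) &&
      C.cs.all fun e => decide (1 ≤ e.1.1 ∧ e.1.1 + e.1.2 = C.grade)) &&
  ((List.range 15).all fun m => decide (m = 0 ∨ m = 1 ∨ m = 3 ∨ 0 < marginZ m))

theorem check_one : checkOne = true := by decide +kernel

end Vale.Agent.P359.Mom.Fock
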