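import Vale.Agent.P359.Mom.Three

/-!
# P359: the channels without a fermionic three-particle state
-/

noncomputable section

open Finset

namespace Vale.Agent.P359.Mom

theorem ev1_eq_zero_of_eq (c : J1 → ℝ) (x : Fin 3 → ℕ) {i j : Fin 3} (hij : i ≠ j)
    (h : x i = x j) : ev1 c x = 0 := by
  classical
  set g : Equiv.Perm (Fin 3) → ℝ := fun π =>
    ((π.sign : ℤ) : ℝ) * ((x (π 1) : ℝ) - x (π 0)) * c (x (π 0) + x (π 1), x (π 2)) with hg
  have hx : ∀ k, x (Equiv.swap i j k) = x k := by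
    intro k
    rcases eq_or_ne k i with rfl | hi
    · rw [Equiv.swap_apply_left, h]
    rcases eq_or_ne k j with rfl | hj
    · rw [Equiv.swap_apply_right, h]
    rw [Equiv.swap_apply_of_ne_of_ne hi hj]
  have hneg : ∀ π, g (Equiv.swap i j * π) = -g π := by
    intro π
    simp only [hg, Equiv.Perm.mul_apply, hx, Equiv.Perm.sign_mul, Equiv.Perm.sign_swap hij]
    push_cast
    ring
  have hsum : ∑ π, g π = ∑ π, g (Equiv.swap i j * π) :=
    (Equiv.sum_comp (Equiv.mulLeft (Equiv.swap i j)) g).symm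
  simp only [hneg, sum_neg_distrib] at hsum
  change ∑ π, g π = 0
  linarith

/-- A coefficient that no three distinct orbitals see. -/
theorem ev1_single (s a : ℕ) (hsa : ∀ i j, i + j = s → i ≠ j → i = a ∨ j = a) (x : Fin 3 → ℕ) :
    ev1 (fun p => if p = (s, a) then 1 else 0) x = 0 := by
  classical
  by_cases h : ∃ i j, i ≠ j ∧ x i = x j
  · obtain ⟨i, j, hij, hx⟩ := h
    exact ev1_eq_zero_of_eq _ x hij hx
  push Not at h
  refine sum_eq_zero fun π _ => ?_
  beta_reduce
  rw [if_neg, mul_zero]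
  intro he
  rw [Prod.mk.injEq] at he
  have hne : ∀ k l : Fin 3, k ≠ l → x (π k) ≠ x (π l) := fun k l hkl => h _ _ (π.injective.ne hkl)
  rcases hsa _ _ he.1 (hne 0 1 (by decide)) with h' | h'
  · exact hne 0 2 (by decide) (h'.trans he.2.symm)
  · exact hne 1 2 (by decide) (h'.trans he.2.symm)

/-- The channels `0`, `1` and `3` carry nothing. -/
theorem gamma_eq_zero {Q : ℕ} {D : Data} {γ : ℕ → ℝ} (hQ : 3 ≤ Q) (hD : IsMom Q D)
    (hγ : ∀ m, 0 ≤ γ m)
    (hexp : ∀ p ∈ I1 Q, ∀ q ∈ I1 Q, D.z1 p q = ∑ m ∈ range (Q + 1),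
      ∑ t ∈ range (spin1 Q m + 1), γ m * vec1 Q m t p * vec1 Q m t q / lad Q (spin1 Q m) t) :
    γ 0 = 0 ∧ γ 1 = 0 ∧ γ 3 = 0 := by
  classical
  have key : ∀ m s a, m ≤ Q → 1 ≤ s → s < 2 * Q → a ≤ Q → low1 m (s, a) ≠ 0 →
      (∀ i j, i + j = s → i ≠ j → i = a ∨ j = a) → γ m = 0 := by
    intro m s a hm hs hsQ ha hlow hsa
    have hp : (s, a) ∈ I1 Q := by simp [I1]; omega
    have hz := hD.null1 _ (fun x _ => ev1_single s a hsa x) (s, a)
    simp only [ite_mul, one_mul, zero_mul, sum_ite_eq', if_pos hp] at hz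
    rw [hexp _ hp _ hp] at hz
    have hnn : ∀ m' ∈ range (Q + 1), ∀ t ∈ range (spin1 Q m' + 1),
        0 ≤ γ m' * vec1 Q m' t (s, a) * vec1 Q m' t (s, a) / lad Q (spin1 Q m') t := by
      intro m' hm' t ht
      rw [mem_range] at hm' ht
      rw [mul_assoc]
      rw [lad_eq Q m' t (by omega) (by omega)]
      exact div_nonneg (mul_nonneg (hγ m') (mul_self_nonneg _))
        (div_nonneg (ladderFac_pos (by omega)).le (pow_nonneg (Nat.cast_nonneg _) _))
    have h1 := (sum_eq_zero_iff_of_nonneg fun m' hm' => sum_nonneg (hnn m' hm')).1 hz m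
      (mem_range.2 (by omega))
    have hm' : m ∈ range (Q + 1) := mem_range.2 (by omega)
    have h2 := (sum_eq_zero_iff_of_nonneg (hnn m hm')).1 h1 0 (mem_range.2 (Nat.succ_pos _))
    simpa [vec1, lad, hlow] using h2
  refine ⟨key 0 1 0 (by omega) le_rfl (by omega) (by omega) (by simp [low1]) fun i j h hne => by omega,
    key 1 2 0 (by omega) (by omega) (by omega) (by omega) (by simp [low1]) fun i j h hne => by omega,
    key 3 2 2 (by omega) (by omega) (by omega) (by omega) (by simp [low1]) fun i j h hne => by omega⟩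

end Vale.Agent.P359.Mom
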