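import Vale.Agent.P359.Mom.CertWin
import Vale.Agent.P359.Mom.CertOneCheck
import Vale.Agent.P359.Mom.ThreeNull

/-!
# P359: the window operator against the three-particle channels below `15`
-/

noncomputable section

open Finset Filter
open scoped Topology Nat

namespace Vale.Agent.P359.Mom.Fock

open Sphere (exchEig)

/-! ### integer vectors -/

theorem getD_stepL (c d : ℤ) : ∀ (v : List ℤ) (prev : ℤ) (a : ℕ),
    (stepL c d prev v).getD a 0 = c * v.getD a 0 + d * (if a = 0 then prev else v.getD (a - 1) 0)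
  | [], prev, 0 => by simp [stepL]
  | [], prev, a + 1 => by simp [stepL]
  | x :: xs, prev, 0 => by simp [stepL]
  | x :: xs, prev, a + 1 => by
      rw [stepL, List.getD_cons_succ, getD_stepL c d xs x a]
      cases a <;> simp

theorem length_stepL (c d : ℤ) : ∀ (v : List ℤ) (prev : ℤ), (stepL c d prev v).length = v.length + 1
  | [], _ => rfl
  | x :: xs, _ => by simp [stepL, length_stepL c d xs]

theorem getD_lowZ : ∀ m a, (lowZ m).getD a 0 = (-1) ^ a * (m.choose a : ℤ)
  | 0, 0 => rfl
  | 0, a + 1 => by simp [lowZ]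
  | m + 1, a => by
      rw [lowZ, getD_stepL, getD_lowZ m a]
      cases a with
      | zero => simp
      | succ a =>
          simp only [Nat.succ_ne_zero, if_false, Nat.add_sub_cancel, getD_lowZ m a,
            Nat.choose_succ_succ', pow_succ]
          push_cast
          ring

theorem length_ladZ (m : ℕ) : ∀ t, (ladZ m t).length = m + 1 + t
  | 0 => by
      simp only [ladZ, add_zero]
      induction m with
      | zero => rfl
      | succ m ih => rw [lowZ, length_stepL, ih]
  | t + 1 => by rw [ladZ, length_stepL, length_ladZ m t]; omega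

/-- The planar ladder vector. -/
def vLim (m t : ℕ) (p : J1) : ℝ :=
  if p.1 + p.2 = m + 1 + t ∧ 1 ≤ p.1 then ((ladZ m t).getD p.2 0 : ℝ) else 0

theorem tendsto_vec1 : ∀ (m t : ℕ) (p : J1),
    Tendsto (fun Q => vec1 Q m t p) atTop (𝓝 (vLim m t p))
  | m, 0, (s, a) => by
      have : ∀ Q, vec1 Q m 0 (s, a) = vLim m 0 (s, a) := by
        intro Q
        simp only [vec1, Function.iterate_zero_apply, low1, vLim, ladZ, getD_lowZ, add_zero]
        by_cases h : 1 ≤ s ∧ s + a = m + 1
        · rw [if_pos h, if_pos ⟨h.2, h.1⟩]; push_cast; rfl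
        · rw [if_neg h, if_neg (by tauto)]
      simp only [this]
      exact tendsto_const_nhds
  | m, t + 1, (s, a) => by
      have hR : Tendsto (fun Q => uR Q s) atTop (𝓝 (if 2 ≤ s then 2 else 0)) := by
        unfold uR
        split_ifs with h
        · simpa using Sphere.tendsto_linear 2 s
        · exact tendsto_const_nhds
      have hO : Tendsto (fun Q => uO Q a) atTop (𝓝 (if 1 ≤ a then 1 else 0)) := by
        unfold uO
        split_ifs with h
        · have h1 := Sphere.tendsto_linear 1 (a - 1)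
          simp only [Nat.cast_one] at h1
          refine h1.congr fun Q => ?_
          rw [show 1 * Q - (a - 1) = Q + 1 - a by omega]
        · exact tendsto_const_nhds
      have h := (hR.mul (tendsto_vec1 m t (s - 1, a))).add (hO.mul (tendsto_vec1 m t (s, a - 1)))
      have hlim : (if 2 ≤ s then (2 : ℝ) else 0) * vLim m t (s - 1, a)
          + (if 1 ≤ a then (1 : ℝ) else 0) * vLim m t (s, a - 1) = vLim m (t + 1) (s, a) := by
        by_cases hg : s + a = m + 1 + (t + 1) ∧ 1 ≤ s
        · rw [show vLim m (t + 1) (s, a) = ((ladZ m (t + 1)).getD a 0 : ℝ) from if_pos hg, ladZ,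
            getD_stepL]
          have h1 : (if 2 ≤ s then (2 : ℝ) else 0) * vLim m t (s - 1, a)
              = 2 * ((ladZ m t).getD a 0 : ℝ) := by
            by_cases h2 : 2 ≤ s
            · rw [if_pos h2, vLim, if_pos (by dsimp only; omega)]
            · rw [if_neg h2, List.getD_eq_default _ _ (by rw [length_ladZ]; omega)]
              simp
          have h2 : (if 1 ≤ a then (1 : ℝ) else 0) * vLim m t (s, a - 1)
              = ((if a = 0 then 0 else (ladZ m t).getD (a - 1) 0 : ℤ) : ℝ) := by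
            by_cases h2 : a = 0
            · subst h2; simp
            · rw [if_pos (by omega), if_neg h2, one_mul, vLim, if_pos (by dsimp only; omega)]
          rw [h1, h2]
          push_cast
          ring
        · rw [show vLim m (t + 1) (s, a) = 0 from if_neg hg]
          have h1 : (if 2 ≤ s then (2 : ℝ) else 0) * vLim m t (s - 1, a) = 0 := by
            by_cases h2 : 2 ≤ s
            · rw [show vLim m t (s - 1, a) = 0 from if_neg (by dsimp only; omega), mul_zero]
            · rw [if_neg h2, zero_mul]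
          have h2 : (if 1 ≤ a then (1 : ℝ) else 0) * vLim m t (s, a - 1) = 0 := by
            by_cases h2 : 1 ≤ a
            · rw [show vLim m t (s, a - 1) = 0 from if_neg (by dsimp only; omega), mul_zero]
            · rw [if_neg h2, zero_mul]
          rw [h1, h2, add_zero]
      rw [← hlim]
      refine h.congr fun Q => ?_
      rw [vec1_succ]
      rfl

theorem tendsto_lad (m t : ℕ) :
    Tendsto (fun Q => lad Q (spin1 Q m) t) atTop (𝓝 ((t ! : ℝ) * 3 ^ t)) := by
  have h : ∀ i : ℕ, Tendsto (fun Q => ((i : ℝ) + 1) * ((spin1 Q m : ℝ) - i) / Q) atTop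
      (𝓝 (((i : ℝ) + 1) * (3 - 0))) := by
    intro i
    have h3 : Tendsto (fun Q => (spin1 Q m : ℝ) / Q) atTop (𝓝 3) := by
      have h1 := Sphere.tendsto_linear 3 (2 + 2 * m)
      simp only [Nat.cast_ofNat] at h1
      refine h1.congr fun Q => ?_
      rw [spin1, Nat.sub_sub]
    refine (tendsto_const_nhds.mul (h3.sub
      (tendsto_natCast_atTop_atTop.const_div_atTop (i : ℝ)))).congr fun Q => ?_
    ring
  have h2 := tendsto_finsetProd (range t) fun i _ => h i
  simp only [sub_zero, prod_mul_distrib, prod_const, card_range] at h2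
  rw [← prod_range_add_one_eq_factorial, Nat.cast_prod]
  push_cast
  exact h2

/-! ### the functionals on the vectors -/

theorem sum_look {α : Type} [BEq α] [LawfulBEq α] [DecidableEq α] (cs : List (α × ℤ))
    (F : Finset α) (f : α → ℝ) (h : ∀ e ∈ cs, e.1 ∈ F) :
    ∑ p ∈ F, (look cs p : ℝ) * f p = (cs.map fun e => (e.2 : ℝ) * f e.1).sum := by
  induction cs with
  | nil => simp [look]
  | cons e cs ih =>
      have hl : ∀ p, (look (e :: cs) p : ℝ) = (if e.1 = p then (e.2 : ℝ) else 0) + look cs p := by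
        intro p
        by_cases hp : e.1 = p <;> simp [look, hp]
      simp only [hl, add_mul, sum_add_distrib, ite_mul, zero_mul, sum_ite_eq,
        if_pos (h e List.mem_cons_self), List.map_cons, List.sum_cons,
        ih fun x hx => h x (List.mem_cons_of_mem _ hx)]

/-- Functional `a` applied to a vector. -/
def app (a : ℕ) (f : J1 → ℝ) : ℝ :=
  ((comb3.getD a ⟨0, 1, []⟩).cs.map fun e => (e.2 : ℝ) * f e.1).sum /
    (comb3.getD a ⟨0, 1, []⟩).den

theorem keys_one {a : ℕ} (ha : a < 48) :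
    (comb3.getD a ⟨0, 1, []⟩).grade ≤ 15 ∧ 0 < (comb3.getD a ⟨0, 1, []⟩).den ∧
    (comb3.getD a ⟨0, 1, []⟩).den ∣ denOne ∧
    ∀ e ∈ (comb3.getD a ⟨0, 1, []⟩).cs,
      1 ≤ e.1.1 ∧ e.1.1 + e.1.2 = (comb3.getD a ⟨0, 1, []⟩).grade := by
  have h := check_one
  simp only [checkOne, Bool.and_eq_true, List.all_eq_true, List.mem_range, decide_eq_true_eq] at h
  obtain ⟨⟨h1, h2, h3⟩, h4⟩ := h.1.2 a ha
  exact ⟨h1, h2, Nat.dvd_of_mod_eq_zero h3, h4⟩

theorem sum_c3 {Q a : ℕ} (ha : a < 48) (hQ : 15 ≤ Q) (f : J1 → ℝ) :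
    ∑ p ∈ I1 Q, c3 a p * f p = app a f := by
  obtain ⟨hg, -, -, hk⟩ := keys_one ha
  rw [app, ← sum_look _ (I1 Q) f fun e he => ?_, sum_div]
  · exact sum_congr rfl fun p _ => by rw [c3]; ring
  · have := hk e he
    simp only [I1, mem_product, mem_range]
    omega

theorem vec1_grade (Q m t : ℕ) : ∀ p : J1, p.1 + p.2 ≠ m + 1 + t → vec1 Q m t p = 0
  | (0, a), _ => vec1_zero_fst Q m t a
  | (i + 1, a), h => by
      rw [vec1_eq, Sphere.hasSum'_ladder Q m t i a (by dsimp only at h; omega), mul_zero, zero_div]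

theorem app_eq_zero {a : ℕ} (ha : a < 48) {f : J1 → ℝ} {g : ℕ}
    (hf : ∀ p : J1, p.1 + p.2 ≠ g → f p = 0) (h : (comb3.getD a ⟨0, 1, []⟩).grade ≠ g) :
    app a f = 0 := by
  rw [app, List.sum_eq_zero, zero_div]
  intro x hx
  obtain ⟨e, he, rfl⟩ := List.mem_map.1 hx
  have := ((keys_one ha).2.2.2 e he).2
  rw [hf e.1 (by omega), mul_zero]

theorem app_vLim {a : ℕ} (ha : a < 48) (m t : ℕ) :
    app a (vLim m t) * (denOne : ℝ) = (funZ m t a : ℝ) := by
  obtain ⟨-, hden, hdvd, hk⟩ := keys_one ha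
  by_cases hg : (comb3.getD a ⟨0, 1, []⟩).grade = m + 1 + t
  · have e : (comb3.getD a ⟨0, 1, []⟩).cs.map (fun e => (e.2 : ℝ) * vLim m t e.1)
        = (comb3.getD a ⟨0, 1, []⟩).cs.map
            fun e => ((e.2 * (ladZ m t).getD e.1.2 0 : ℤ) : ℝ) := by
      refine List.map_congr_left fun e he => ?_
      obtain ⟨h1, h2⟩ := hk e he
      rw [vLim, if_pos ⟨h2.trans hg, h1⟩, Int.cast_mul]
    simp only [app, funZ, if_pos hg, e, Int.cast_mul, Int.cast_natCast, Nat.cast_div hdvd
      (show ((comb3.getD a ⟨0, 1, []⟩).den : ℝ) ≠ 0 by exact_mod_cast hden.ne'),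
      Int.cast_list_sum, List.map_map, Function.comp_def]
    ring
  · rw [funZ]
    simp only [if_neg hg, Int.cast_zero]
    rw [app_eq_zero ha (g := m + 1 + t) (fun p hp => ?_) hg, zero_mul]
    rw [vLim, if_neg (by tauto)]

/-- The window operator on one vector. -/
def quad (f : J1 → ℝ) : ℝ :=
  ∑ a : Fin 48, app a f * ((sec3.yr.getD a []).map fun y => (y.2 : ℝ) * app y.1 f).sum / 100

theorem yr_lt {a : ℕ} : ∀ y ∈ sec3.yr.getD a [], y.1 < 48 := by
  intro y hy
  have hc := List.all_eq_true.1 check_sectors sec3 (by simp [sectors])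
  simp only [checkSector, Bool.and_eq_true, List.all_eq_true, decide_eq_true_eq] at hc
  by_cases hl : a < sec3.yr.length
  · rw [List.getD_eq_getElem _ _ hl] at hy
    exact hc.2 _ (List.getElem_mem hl) y hy
  · rw [List.getD_eq_default _ _ (not_lt.1 hl)] at hy; simp at hy

theorem quad_eq {Q : ℕ} (hQ : 15 ≤ Q) (f : J1 → ℝ) :
    ∑ a : Fin 48, ∑ b : Fin 48, coupling sec3 a b
      * ∑ p ∈ I1 Q, ∑ q ∈ I1 Q, c3 a p * c3 b q * (f p * f q) = quad f := by
  refine sum_congr rfl fun a _ => ?_
  rw [mul_div_assoc, ← sum_coupling sec3 (by simp [sectors]) 48 rfl a fun b => app b f, mul_sum]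
  refine sum_congr rfl fun b _ => ?_
  rw [← sum_c3 a.isLt hQ f, ← sum_c3 b.isLt hQ f, mul_left_comm, sum_mul_sum, mul_sum,
    mul_sum]
  exact sum_congr rfl fun p _ => by
    rw [mul_sum, mul_sum]
    exact sum_congr rfl fun q _ => by ring

theorem quad_eq_zero {f : J1 → ℝ} {g : ℕ} (hf : ∀ p : J1, p.1 + p.2 ≠ g → f p = 0) (hg : 15 < g) :
    quad f = 0 := by
  refine sum_eq_zero fun a _ => ?_
  have := (keys_one a.isLt).1
  rw [app_eq_zero a.isLt hf (by omega), zero_mul, zero_div]

theorem tendsto_app (a m t : ℕ) :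
    Tendsto (fun Q => app a (vec1 Q m t)) atTop (𝓝 (app a (vLim m t))) :=
  (tendsto_list_sum _ fun e _ => tendsto_const_nhds.mul (tendsto_vec1 m t e.1)).div_const _

/-- The window operator in channel `m`, per unit of the multiplier. -/
def winOne (Q m : ℕ) : ℝ := ∑ t ∈ range 15, quad (vec1 Q m t) / lad Q (spin1 Q m) t

/-- Its planar value. -/
def winOneLim (m : ℕ) : ℝ := ∑ t ∈ range 15, quad (vLim m t) / ((t ! : ℝ) * 3 ^ t)

theorem tendsto_winOne (m : ℕ) : Tendsto (fun Q => winOne Q m) atTop (𝓝 (winOneLim m)) := by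
  refine tendsto_finsetSum _ fun t _ => ?_
  refine Tendsto.div ?_ (tendsto_lad m t) (by positivity)
  refine tendsto_finsetSum _ fun a _ => ?_
  exact ((tendsto_app a m t).mul (tendsto_list_sum _ fun y _ =>
    tendsto_const_nhds.mul (tendsto_app y.1 m t))).div_const _

theorem quad_vLim (m t : ℕ) : quad (vLim m t) * (100 * (denOne : ℝ) ^ 2) = (winZ m t : ℝ) := by
  simp only [quad, winZ, sum_mul, Int.cast_list_sum, List.map_map, Function.comp_def, Int.cast_mul]
  rw [← List.sum_toFinset _ List.nodup_range, List.toFinset_range,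
    ← Fin.sum_univ_eq_sum_range]
  refine sum_congr rfl fun a _ => ?_
  have e : (sec3.yr.getD a []).map (fun y => (y.2 : ℝ) * (funZ m t y.1 : ℝ))
      = (sec3.yr.getD a []).map (fun y => (denOne : ℝ) * ((y.2 : ℝ) * app y.1 (vLim m t))) := by
    refine List.map_congr_left fun y hy => ?_
    rw [← app_vLim (yr_lt y hy)]
    ring
  rw [e, List.sum_map_mul_left, ← app_vLim a.isLt]
  ring

/-- The planar margin of channel `m`. -/
def margin (m : ℕ) : ℝ :=
  -2 * (3 / 4 * (1 - 3 * (m : ℝ)) * (-3 / 4 : ℝ) ^ m * (m ! : ℝ)) - 2 * winOneLim m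

theorem margin_pos {m : ℕ} (hm : m < 15) (h0 : m ≠ 0) (h1 : m ≠ 1) (h3 : m ≠ 3) :
    0 < margin m := by
  have h := check_one
  simp only [checkOne, Bool.and_eq_true, List.all_eq_true, List.mem_range, decide_eq_true_eq] at h
  have hz : 0 < marginZ m := ((h.2 m hm).resolve_left h0).resolve_left h1 |>.resolve_left h3
  set K : ℝ := 4 ^ (m + 1) * 100 * (denOne : ℝ) ^ 2 * ((15 ! : ℕ) : ℝ) * 3 ^ 15 with hK
  have hKpos : 0 < K := by rw [hK, denOne]; positivity
  have hW : (((List.range 15).map fun t =>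
      winZ m t * ((15 ! / t ! * 3 ^ (15 - t) : ℕ) : ℤ)).sum : ℝ)
      = winOneLim m * (100 * (denOne : ℝ) ^ 2 * ((15 ! : ℕ) : ℝ) * 3 ^ 15) := by
    rw [← List.sum_toFinset _ List.nodup_range, List.toFinset_range, winOneLim, sum_mul]
    rw [Int.cast_sum]
    refine sum_congr rfl fun t ht => ?_
    rw [mem_range] at ht
    rw [Int.cast_mul, Int.cast_natCast, Nat.cast_mul, Nat.cast_pow, Nat.cast_ofNat, Nat.cast_div (Nat.factorial_dvd_factorial (by omega)) (by positivity), ← quad_vLim]
    have h3 : (3 : ℝ) ^ 15 = 3 ^ (15 - t) * 3 ^ t := by rw [← pow_add]; congr 1; omega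
    rw [h3]
    field_simp
  have e : (marginZ m : ℝ) = margin m * K := by
    rw [marginZ, Int.cast_sub, Int.cast_mul (2 * 4 ^ (m + 1)), hW, margin, hK]
    push_cast
    rw [div_pow, pow_succ]
    field_simp
    ring
  have : (0 : ℝ) < (marginZ m : ℝ) := by exact_mod_cast hz
  rw [e] at this
  exact (mul_pos_iff_of_pos_right hKpos).1 this

theorem eventually_margin : ∀ᶠ Q : ℕ in atTop, ∀ m ∈ range 15, m = 0 ∨ m = 1 ∨ m = 3 ∨
    2 * (Q : ℝ) * winOne Q m ≤ -2 * (exchEig Q m * chan1 Q m) := by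
  rw [eventually_all_finset]
  intro m hm
  by_cases hex : m = 0 ∨ m = 1 ∨ m = 3
  · exact Eventually.of_forall fun Q => by tauto
  push Not at hex
  have h : Tendsto (fun Q => -2 * (exchEig Q m * chan1 Q m / Q) - 2 * winOne Q m) atTop
      (𝓝 (margin m)) :=
    ((tendsto_exchEig_chan1 m).const_mul (-2)).sub ((tendsto_winOne m).const_mul 2)
  filter_upwards [h.eventually_const_le (margin_pos (mem_range.1 hm) hex.1 hex.2.1 hex.2.2),
    eventually_ge_atTop 1] with Q hQ hQ1
  have hQ' : (0 : ℝ) < Q := by exact_mod_cast hQ1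
  refine Or.inr (Or.inr (Or.inr ?_))
  have := mul_nonneg hQ hQ'.le
  field_simp at this
  linarith

/-- **The three-particle channels below `15` dominate the window operator.** -/
theorem chanOne_ge : ∀ᶠ Q : ℕ in atTop, ∀ D : Data, IsMom Q D → ∀ γ : ℕ → ℝ, (∀ m, 0 ≤ γ m) →
    (∀ p ∈ I1 Q, ∀ q ∈ I1 Q, D.z1 p q = ∑ m ∈ range (Q + 1),
      ∑ t ∈ range (spin1 Q m + 1), γ m * vec1 Q m t p * vec1 Q m t q / lad Q (spin1 Q m) t) →
    2 * (Q : ℝ) * (∑ a, ∑ b, winData.q1 a b *
        ∑ p ∈ I1 Q, ∑ q ∈ I1 Q, winData.c1 a p * winData.c1 b q * D.z1 p q)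
      ≤ -2 * ∑ m ∈ range 15, γ m * exchEig Q m * chan1 Q m := by
  filter_upwards [eventually_margin, eventually_ge_atTop 32] with Q hQ hQ32 D hD γ hγ hexp
  have hkey : (∑ a, ∑ b, winData.q1 a b *
        ∑ p ∈ I1 Q, ∑ q ∈ I1 Q, winData.c1 a p * winData.c1 b q * D.z1 p q)
      = ∑ m ∈ range 15, γ m * winOne Q m := by
    change ∑ a : Fin 48, ∑ b : Fin 48, coupling sec3 a b *
        ∑ p ∈ I1 Q, ∑ q ∈ I1 Q, c3 a p * c3 b q * D.z1 p q = _
    have hz : ∀ a b : ℕ, coupling sec3 a b * ∑ p ∈ I1 Q, ∑ q ∈ I1 Q, c3 a p * c3 b q * D.z1 p q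
        = ∑ m ∈ range (Q + 1), ∑ t ∈ range (spin1 Q m + 1), γ m / lad Q (spin1 Q m) t
          * (coupling sec3 a b *
            ∑ p ∈ I1 Q, ∑ q ∈ I1 Q, c3 a p * c3 b q * (vec1 Q m t p * vec1 Q m t q)) := by
      intro a b
      rw [sum_congr rfl fun p hp => sum_congr rfl fun q hq => by rw [hexp p hp q hq]]
      simp only [mul_sum]
      conv_lhs => enter [2, p]; rw [sum_comm]
      rw [sum_comm]
      refine sum_congr rfl fun m _ => ?_
      conv_lhs => enter [2, p]; rw [sum_comm]
      rw [sum_comm]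
      exact sum_congr rfl fun t _ => sum_congr rfl fun p _ => sum_congr rfl fun q _ => by ring
    simp only [hz]
    conv_lhs => enter [2, a]; rw [sum_comm]
    rw [sum_comm]
    refine (sum_congr rfl fun m hm => ?_).trans
      (sum_subset (s₁ := range 15) (range_mono (by omega)) fun m _ hm => ?_).symm
    · conv_lhs => enter [2, a]; rw [sum_comm]
      rw [sum_comm]
      simp only [← mul_sum, quad_eq (show 15 ≤ Q by omega)]
      rw [mem_range] at hm
      rw [winOne, mul_sum]
      by_cases hm15 : m < 15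
      · refine (sum_subset (range_mono (by unfold spin1; omega)) fun t _ ht => ?_).symm.trans
          (sum_congr rfl fun t _ => by ring)
        rw [mem_range] at ht
        rw [quad_eq_zero (vec1_grade Q m t) (by omega), mul_zero]
      · rw [sum_eq_zero fun t _ => by rw [quad_eq_zero (vec1_grade Q m t) (by omega), mul_zero],
          sum_eq_zero fun t _ => by rw [quad_eq_zero (vec1_grade Q m t) (by omega), zero_div, mul_zero]]
    · rw [mem_range] at hm
      rw [winOne, sum_eq_zero fun t _ => by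
        rw [quad_eq_zero (vec1_grade Q m t) (by omega), zero_div], mul_zero]
  obtain ⟨g0, g1, g3⟩ := gamma_eq_zero (by omega) hD hγ hexp
  rw [hkey, mul_sum, mul_sum]
  refine sum_le_sum fun m hm => ?_
  rcases hQ m hm with rfl | rfl | rfl | h
  · simp [g0]
  · simp [g1]
  · simp [g3]
  · have := mul_le_mul_of_nonneg_left h (hγ m)
    linarith

end Vale.Agent.P359.Mom.Fock
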