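import Vale.Agent.P359.Mom.CertFockDefs

/-!
Generated tables of the P359 window certificate: the functionals on pairs, triples, quadruples in the
order of the certificate (the pair ones divided by their common divisor) and their coupling matrices,
one hundred times the rational ones.
-/

namespace Vale.Agent.P359.Mom.Fock

def sec2r0 : Row := [(3, 1)]
def sec2y0 : Row := [(0, 90)]
def sec2r1 : Row := [(5, 1)]
def sec2y1 : Row := [(1, 21)]
def sec2r2 : Row := [(9, 3), (6, 1)]
def sec2y2 : Row := [(2, 7)]
def sec2r3 : Row := [(17, 2), (10, 1)]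
def sec2y3 : Row := [(3, 34)]
def sec2r4 : Row := [(33, 5), (18, 3), (12, 1)]
def sec2y4 : Row := [(4, 32)]
def sec2r5 : Row := [(65, 3), (34, 2), (20, 1)]
def sec2y5 : Row := [(5, 282)]
def sec2r6 : Row := [(129, 7), (66, 5), (36, 3), (24, 1)]
def sec2y6 : Row := [(6, 83)]
def sec2r7 : Row := [(257, 4), (130, 3), (68, 2), (40, 1)]
def sec2y7 : Row := [(7, 2253)]

def sec2 : Sector where
  rows := [sec2r0, sec2r1, sec2r2, sec2r3, sec2r4, sec2r5, sec2r6, sec2r7]
  yr := [sec2y0, sec2y1, sec2y2, sec2y3, sec2y4, sec2y5, sec2y6, sec2y7]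

def sec3r0 : Row := [(7, 1)]
def sec3y0 : Row := [(0, -114)]
def sec3r1 : Row := [(11, 1)]
def sec3y1 : Row := [(1, -274)]
def sec3r2 : Row := [(19, 1)]
def sec3y2 : Row := [(2, -1048), (3, 353)]
def sec3r3 : Row := [(13, 1)]
def sec3y3 : Row := [(2, 353), (3, 233)]
def sec3r4 : Row := [(35, 1)]
def sec3y4 : Row := [(4, -4912), (5, 2393), (6, 129)]
def sec3r5 : Row := [(21, 1)]
def sec3y5 : Row := [(4, 2393), (5, 2194), (6, 380)]
def sec3r6 : Row := [(14, 1)]
def sec3y6 : Row := [(4, 129), (5, 380), (6, -11)]
def sec3r7 : Row := [(67, 1)]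
def sec3y7 : Row := [(7, -8536), (8, 15056), (9, 531), (10, -3130)]
def sec3r8 : Row := [(37, 1)]
def sec3y8 : Row := [(7, 15056), (8, 10874), (9, 5575), (10, 1963)]
def sec3r9 : Row := [(25, 1)]
def sec3y9 : Row := [(7, 531), (8, 5575), (9, 895), (10, 1596)]
def sec3r10 : Row := [(22, 1)]
def sec3y10 : Row := [(7, -3130), (8, 1963), (9, 1596), (10, 717)]
def sec3r11 : Row := [(131, 1)]
def sec3y11 : Row := [(11, 411208), (12, 115216), (13, 67661), (14, -73019), (15, 36546)]
def sec3r12 : Row := [(69, 1)]
def sec3y12 : Row := [(11, 115216), (12, 99439), (13, 46851), (14, 17742), (15, 1352)]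
def sec3r13 : Row := [(41, 1)]
def sec3y13 : Row := [(11, 67661), (12, 46851), (13, 28189), (14, 10074), (15, 9909)]
def sec3r14 : Row := [(38, 1)]
def sec3y14 : Row := [(11, -73019), (12, 17742), (13, 10074), (14, 14093), (15, -768)]
def sec3r15 : Row := [(26, 1)]
def sec3y15 : Row := [(11, 36546), (12, 1352), (13, 9909), (14, -768), (15, 4883)]
def sec3r16 : Row := [(259, 1)]
def sec3y16 : Row := [(16, 1588999), (17, 1843887), (18, -72672), (19, -216270), (20, -163696), (21,
    30391)]
def sec3r17 : Row := [(133, 1)]
def sec3y17 : Row := [(16, 1843887), (17, 956066), (18, 102001), (19, 33772), (20, 6709), (21,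
    3564)]
def sec3r18 : Row := [(73, 3), (49, 1)]
def sec3y18 : Row := [(16, -72672), (17, 102001), (18, 33285), (19, 50134), (20, 44810), (21, 7324)]
def sec3r19 : Row := [(73, 3), (70, 1)]
def sec3y19 : Row := [(16, -216270), (17, 33772), (18, 50134), (19, 48057), (20, 44887), (21, 3380)]
def sec3r20 : Row := [(73, -6), (42, 1)]
def sec3y20 : Row := [(16, -163696), (17, 6709), (18, 44810), (19, 44887), (20, 44477), (21, 4506)]
def sec3r21 : Row := [(73, 15), (28, 1)]
def sec3y21 : Row := [(16, 30391), (17, 3564), (18, 7324), (19, 3380), (20, 4506), (21, 431)]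
def sec3r22 : Row := [(261, 1)]
def sec3y22 : Row := [(22, 2570007), (23, 789862), (24, 796203), (25, 160326), (26, 300117), (27,
    -89286)]
def sec3r23 : Row := [(137, 2), (81, 1)]
def sec3y23 : Row := [(22, 789862), (23, 469221), (24, 345607), (25, 352824), (26, 183432), (27,
    85696)]
def sec3r24 : Row := [(137, 3), (134, 1)]
def sec3y24 : Row := [(22, 796203), (23, 345607), (24, 276567), (25, 194008), (26, 108107), (27,
    20780)]
def sec3r25 : Row := [(137, -4), (74, 1)]
def sec3y25 : Row := [(22, 160326), (23, 352824), (24, 194008), (25, 289367), (26, 130331), (27,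
    81204)]
def sec3r26 : Row := [(137, -3), (50, 1)]
def sec3y26 : Row := [(22, 300117), (23, 183432), (24, 108107), (25, 130331), (26, 46624), (27,
    23584)]
def sec3r27 : Row := [(137, 9), (44, 1)]
def sec3y27 : Row := [(22, -89286), (23, 85696), (24, 20780), (25, 81204), (26, 23584), (27, 22860)]
def sec3r28 : Row := [(265, 5), (145, 3), (97, 1)]
def sec3y28 : Row := [(28, 389107), (29, 591400), (30, 857750), (31, 683251), (32, 359103), (33,
    227638)]
def sec3r29 : Row := [(265, 3), (262, 1)]
def sec3y29 : Row := [(28, 591400), (29, 514048), (30, 816862), (31, 531582), (32, 290850), (33,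
    61284)]
def sec3r30 : Row := [(145, 2), (138, 1)]
def sec3y30 : Row := [(28, 857750), (29, 816862), (30, 1689575), (31, 1006951), (32, 558266), (33,
    224802)]
def sec3r31 : Row := [(265, -9), (145, -4), (82, 1)]
def sec3y31 : Row := [(28, 683251), (29, 531582), (30, 1006951), (31, 847653), (32, 434749), (33,
    216692)]
def sec3r32 : Row := [(265, 2), (145, -3), (76, 1)]
def sec3y32 : Row := [(28, 359103), (29, 290850), (30, 558266), (31, 434749), (32, 201673), (33,
    108161)]
def sec3r33 : Row := [(265, 15), (145, 9), (52, 1)]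
def sec3y33 : Row := [(28, 227638), (29, 61284), (30, 224802), (31, 216692), (32, 108161), (33,
    39663)]
def sec3r34 : Row := [(273, 2), (266, 1)]
def sec3y34 : Row := [(34, 4843853), (35, 267987), (36, 2660909), (37, 1347684), (38, 309978)]
def sec3r35 : Row := [(273, 4), (161, 7), (146, 3), (98, 1)]
def sec3y35 : Row := [(34, 267987), (35, 844419), (36, 463208), (37, 984567), (38, 245641)]
def sec3r36 : Row := [(161, 5), (146, 3), (140, 1)]
def sec3y36 : Row := [(34, 2660909), (35, 463208), (36, 1220809), (37, 857966), (38, 167664)]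
def sec3r37 : Row := [(273, -8), (161, -14), (146, -6), (84, 1)]
def sec3y37 : Row := [(34, 1347684), (35, 984567), (36, 857966), (37, 955381), (38, 157963)]
def sec3r38 : Row := [(273, 20), (161, 28), (146, 15), (56, 1)]
def sec3y38 : Row := [(34, 309978), (35, 245641), (36, 167664), (37, 157963), (38, 5508)]
def sec3r39 : Row := [(289, 5), (274, 3), (268, 1)]
def sec3y39 : Row := [(39, 1464309), (40, 2876896), (41, 516995), (42, 472101)]
def sec3r40 : Row := [(193, 3), (162, 2), (148, 1)]
def sec3y40 : Row := [(39, 2876896), (40, 5997613), (41, 1012088), (42, 917131)]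
def sec3r41 : Row := [(289, 4), (162, 3), (100, 2)]
def sec3y41 : Row := [(39, 516995), (40, 1012088), (41, 530211), (42, 217594)]
def sec3r42 : Row := [(289, -12), (193, -14), (162, -9), (88, 2)]
def sec3y42 : Row := [(39, 472101), (40, 917131), (41, 217594), (42, 139663)]
def sec3r43 : Row := [(321, 3), (290, 2), (276, 1)]
def sec3y43 : Row := [(43, 6152076), (44, 5419186), (45, 6086591)]
def sec3r44 : Row := [(194, 5), (164, 3), (152, 1)]
def sec3y44 : Row := [(43, 5419186), (44, 2047552), (45, 2198981)]
def sec3r45 : Row := [(321, -4), (194, -3), (104, 1)]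
def sec3y45 : Row := [(43, 6086591), (44, 2198981), (45, 1346595)]
def sec3r46 : Row := [(385, 7), (322, 5), (292, 3), (280, 1)]
def sec3y46 : Row := [(46, 8061239), (47, 10535796)]
def sec3r47 : Row := [(385, -4), (196, 2), (168, 1)]
def sec3y47 : Row := [(46, 10535796), (47, 12930936)]

def sec3 : Sector where
  rows := [sec3r0, sec3r1, sec3r2, sec3r3, sec3r4, sec3r5, sec3r6, sec3r7, sec3r8, sec3r9, sec3r10,
    sec3r11, sec3r12, sec3r13, sec3r14, sec3r15, sec3r16, sec3r17, sec3r18, sec3r19, sec3r20,
    sec3r21, sec3r22, sec3r23, sec3r24, sec3r25, sec3r26, sec3r27, sec3r28, sec3r29, sec3r30,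
    sec3r31, sec3r32, sec3r33, sec3r34, sec3r35, sec3r36, sec3r37, sec3r38, sec3r39, sec3r40,
    sec3r41, sec3r42, sec3r43, sec3r44, sec3r45, sec3r46, sec3r47]
  yr := [sec3y0, sec3y1, sec3y2, sec3y3, sec3y4, sec3y5, sec3y6, sec3y7, sec3y8, sec3y9, sec3y10,
    sec3y11, sec3y12, sec3y13, sec3y14, sec3y15, sec3y16, sec3y17, sec3y18, sec3y19, sec3y20,
    sec3y21, sec3y22, sec3y23, sec3y24, sec3y25, sec3y26, sec3y27, sec3y28, sec3y29, sec3y30,
    sec3y31, sec3y32, sec3y33, sec3y34, sec3y35, sec3y36, sec3y37, sec3y38, sec3y39, sec3y40,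
    sec3y41, sec3y42, sec3y43, sec3y44, sec3y45, sec3y46, sec3y47]

def sec4r0 : Row := [(15, 1)]
def sec4y0 : Row := [(0, 1672)]
def sec4r1 : Row := [(23, 1)]
def sec4y1 : Row := [(1, 4768)]
def sec4r2 : Row := [(39, 1)]
def sec4y2 : Row := [(2, 19788), (3, -6092)]
def sec4r3 : Row := [(27, 1)]
def sec4y3 : Row := [(2, -6092), (3, 21914)]
def sec4r4 : Row := [(71, 1)]
def sec4y4 : Row := [(4, 86042), (5, -66404), (6, -22514)]
def sec4r5 : Row := [(43, 1)]
def sec4y5 : Row := [(4, -66404), (5, 53038), (6, 11076)]
def sec4r6 : Row := [(29, 1)]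
def sec4y6 : Row := [(4, -22514), (5, 11076), (6, 7893)]
def sec4r7 : Row := [(135, 1)]
def sec4y7 : Row := [(7, -497496), (8, -233419), (9, -112816), (10, -20166), (11, 70513)]
def sec4r8 : Row := [(75, 1)]
def sec4y8 : Row := [(7, -233419), (8, 281102), (9, -192946), (10, 24013), (11, -3315)]
def sec4r9 : Row := [(51, 1)]
def sec4y9 : Row := [(7, -112816), (8, -192946), (9, 469324), (10, 54982), (11, 66933)]
def sec4r10 : Row := [(45, 1)]
def sec4y10 : Row := [(7, -20166), (8, 24013), (9, 54982), (10, 56837), (11, -11511)]
def sec4r11 : Row := [(30, 1)]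
def sec4y11 : Row := [(7, 70513), (8, -3315), (9, 66933), (10, -11511), (11, -3747)]
def sec4r12 : Row := [(263, 1)]
def sec4y12 : Row := [(12, 2218215), (13, 84450), (14, -212097), (15, -517038), (16, -499247), (17,
    -391451)]
def sec4r13 : Row := [(139, 1)]
def sec4y13 : Row := [(12, 84450), (13, 426274), (14, -1131951), (15, -2208), (16, -573796), (17,
    160806)]
def sec4r14 : Row := [(83, 1)]
def sec4y14 : Row := [(12, -212097), (13, -1131951), (14, 1132941), (15, -203091), (16, 332558),
    (17, 287805)]
def sec4r15 : Row := [(77, 1)]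
def sec4y15 : Row := [(12, -517038), (13, -2208), (14, -203091), (15, 156235), (16, 37985), (17,
    -191731)]
def sec4r16 : Row := [(53, 1)]
def sec4y16 : Row := [(12, -499247), (13, -573796), (14, 332558), (15, 37985), (16, 345699), (17,
    134120)]
def sec4r17 : Row := [(46, 1)]
def sec4y17 : Row := [(12, -391451), (13, 160806), (14, 287805), (15, -191731), (16, 134120), (17,
    -90838)]
def sec4r18 : Row := [(267, 1)]
def sec4y18 : Row := [(18, 18651688), (19, -2367846), (20, 1726798), (21, -1137193), (22, -2923935),
    (23, -3266151), (24, -200093), (25, 257194)]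
def sec4r19 : Row := [(147, 1)]
def sec4y19 : Row := [(18, -2367846), (19, 3692786), (20, -3076313), (21, -453316), (22, 98159),
    (23, 500983), (24, 2179692), (25, 167340)]
def sec4r20 : Row := [(99, 1)]
def sec4y20 : Row := [(18, 1726798), (19, -3076313), (20, 8795019), (21, -29963), (22, 859962), (23,
    -1040885), (24, -458394), (25, 1632294)]
def sec4r21 : Row := [(141, 1)]
def sec4y21 : Row := [(18, -1137193), (19, -453316), (20, -29963), (21, 3151714), (22, 658503), (23,
    -619395), (24, -741464), (25, -739231)]
def sec4r22 : Row := [(85, 1)]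
def sec4y22 : Row := [(18, -2923935), (19, 98159), (20, 859962), (21, 658503), (22, 1420056), (23,
    446998), (24, 524288), (25, 284421)]
def sec4r23 : Row := [(57, 1)]
def sec4y23 : Row := [(18, -3266151), (19, 500983), (20, -1040885), (21, -619395), (22, 446998),
    (23, 501759), (24, 928168), (25, -69455)]
def sec4r24 : Row := [(78, 1)]
def sec4y24 : Row := [(18, -200093), (19, 2179692), (20, -458394), (21, -741464), (22, 524288), (23,
    928168), (24, -271423), (25, -283529)]
def sec4r25 : Row := [(54, 1)]
def sec4y25 : Row := [(18, 257194), (19, 167340), (20, 1632294), (21, -739231), (22, 284421), (23,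
    -69455), (24, -283529), (25, 363476)]
def sec4r26 : Row := [(275, 1)]
def sec4y26 : Row := [(26, 63804792), (27, 6828896), (28, -7093197), (29, -9712852), (30,
    -12704048), (31, 3052685), (32, 16092807), (33, 610944), (34, -2211541)]
def sec4r27 : Row := [(163, 1)]
def sec4y27 : Row := [(26, 6828896), (27, 4207671), (28, -7312502), (29, 1692172), (30, 6193696),
    (31, -1144920), (32, -2556032), (33, 5582394), (34, 5516613)]
def sec4r28 : Row := [(269, 1)]
def sec4y28 : Row := [(26, -7093197), (27, -7312502), (28, 54996099), (29, 13938587), (30, 3130329),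
    (31, -7951288), (32, -9140964), (33, -5642600), (34, 47044)]
def sec4r29 : Row := [(149, 1)]
def sec4y29 : Row := [(26, -9712852), (27, 1692172), (28, 13938587), (29, 6750963), (30, 4456544),
    (31, 2496864), (32, 4416217), (33, 405314), (34, -1018651)]
def sec4r30 : Row := [(101, 1)]
def sec4y30 : Row := [(26, -12704048), (27, 6193696), (28, 3130329), (29, 4456544), (30, 1222034),
    (31, -1638362), (32, -3964823), (33, 3237092), (34, 2225542)]
def sec4r31 : Row := [(89, 1)]
def sec4y31 : Row := [(26, 3052685), (27, -1144920), (28, -7951288), (29, 2496864), (30, -1638362),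
    (31, 4759939), (32, 6383419), (33, 1808657), (34, -1192436)]
def sec4r32 : Row := [(142, 1)]
def sec4y32 : Row := [(26, 16092807), (27, -2556032), (28, -9140964), (29, 4416217), (30, -3964823),
    (31, 6383419), (32, -332630), (33, -2177336), (34, -560409)]
def sec4r33 : Row := [(86, 1)]
def sec4y33 : Row := [(26, 610944), (27, 5582394), (28, -5642600), (29, 405314), (30, 3237092), (31,
    1808657), (32, -2177336), (33, 343740), (34, 863333)]
def sec4r34 : Row := [(58, 1)]
def sec4y34 : Row := [(26, -2211541), (27, 5516613), (28, 47044), (29, -1018651), (30, 2225542),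
    (31, -1192436), (32, -560409), (33, 863333), (34, -37234)]
def sec4r35 : Row := [(291, 1)]
def sec4y35 : Row := [(35, 392547063), (36, -120422247), (37, 42832541), (38, -57027615), (39,
    -38173024), (40, 31136989), (41, -70337243), (42, 83662452), (43, -32583392), (44, 23733022),
    (45, -16903572)]
def sec4r36 : Row := [(195, 1)]
def sec4y36 : Row := [(35, -120422247), (36, 106843496), (37, -43550059), (38, 85296825), (39,
    38053145), (40, -9886506), (41, 31627183), (42, -48164928), (43, 44765787), (44, 16347046), (45,
    18882687)]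
def sec4r37 : Row := [(277, 1)]
def sec4y37 : Row := [(35, 42832541), (36, -43550059), (37, 160454120), (38, 29336761), (39,
    46125802), (40, 10217728), (41, 42672101), (42, 1978683), (43, -20481940), (44, -18575247), (45,
    -4052727)]
def sec4r38 : Row := [(165, 1)]
def sec4y38 : Row := [(35, -57027615), (36, 85296825), (37, 29336761), (38, 58534048), (39,
    8414975), (40, 2253257), (41, -19258305), (42, 14763226), (43, 27863711), (44, 16228986), (45,
    3578765)]
def sec4r39 : Row := [(153, 1)]
def sec4y39 : Row := [(35, -38173024), (36, 38053145), (37, 46125802), (38, 8414975), (39,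
    44423211), (40, 1785777), (41, 43713879), (42, 2722144), (43, 16109750), (44, -10878765), (45,
    2122572)]
def sec4r40 : Row := [(105, 1)]
def sec4y40 : Row := [(35, 31136989), (36, -9886506), (37, 10217728), (38, 2253257), (39, 1785777),
    (40, 7729881), (41, -11878687), (42, 28096037), (43, -9515320), (44, 6887729), (45, -3959337)]
def sec4r41 : Row := [(270, 1)]
def sec4y41 : Row := [(35, -70337243), (36, 31627183), (37, 42672101), (38, -19258305), (39,
    43713879), (40, -11878687), (41, 40597575), (42, -10178405), (43, 8731444), (44, -9740709), (45,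
    3582413)]
def sec4r42 : Row := [(150, 1)]
def sec4y42 : Row := [(35, 83662452), (36, -48164928), (37, 1978683), (38, 14763226), (39, 2722144),
    (40, 28096037), (41, -10178405), (42, 15086186), (43, -14033641), (44, 7789823), (45, -3256026)]
def sec4r43 : Row := [(102, 1)]
def sec4y43 : Row := [(35, -32583392), (36, 44765787), (37, -20481940), (38, 27863711), (39,
    16109750), (40, -9515320), (41, 8731444), (42, -14033641), (43, 15502057), (44, 5471196), (45,
    7135966)]
def sec4r44 : Row := [(90, 1)]
def sec4y44 : Row := [(35, 23733022), (36, 16347046), (37, -18575247), (38, 16228986), (39,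
    -10878765), (40, 6887729), (41, -9740709), (42, 7789823), (43, 5471196), (44, 3329671), (45,
    -547196)]
def sec4r45 : Row := [(60, 1)]
def sec4y45 : Row := [(35, -16903572), (36, 18882687), (37, -4052727), (38, 3578765), (39, 2122572),
    (40, -3959337), (41, 3582413), (42, -3256026), (43, 7135966), (44, -547196), (45, 1667844)]
def sec4r46 : Row := [(323, 1)]
def sec4y46 : Row := [(46, 626137739), (47, -231994445), (48, 73780560), (49, 109596175), (50,
    -1468692), (51, -212087143), (52, -285055713), (53, 307724524), (54, -109975846), (55,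
    71477340), (56, 93390668)]
def sec4r47 : Row := [(293, 1)]
def sec4y47 : Row := [(46, -231994445), (47, 672062227), (48, 68381334), (49, 15109124), (50,
    161372238), (51, 90406907), (52, 249150715), (53, -115211500), (54, 104460157), (55, -22664843),
    (56, -16970366)]
def sec4r48 : Row := [(197, 1)]
def sec4y48 : Row := [(46, 73780560), (47, 68381334), (48, -14948190), (49, -7078036), (50,
    -15545973), (51, -88068282), (52, -293356772), (53, 222449410), (54, -45360125), (55,
    101976552), (56, 71611840)]
def sec4r49 : Row := [(281, 1)]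
def sec4y49 : Row := [(46, 109596175), (47, 15109124), (48, -7078036), (49, 503920875), (50,
    93895604), (51, -40135438), (52, 75058941), (53, 32618266), (54, -62060713), (55, -16135392),
    (56, -13178635)]
def sec4r50 : Row := [(169, 1)]
def sec4y50 : Row := [(46, -1468692), (47, 161372238), (48, -15545973), (49, 93895604), (50,
    103385645), (51, 33300635), (52, 104298850), (53, 37616251), (54, 45671673), (55, 17190481),
    (56, -4133296)]
def sec4r51 : Row := [(113, 1)]
def sec4y51 : Row := [(46, -212087143), (47, 90406907), (48, -88068282), (49, -40135438), (50,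
    33300635), (51, 27299224), (52, 113921535), (53, -49953890), (54, 65113414), (55, -33859841),
    (56, -15160632)]
def sec4r52 : Row := [(278, 1)]
def sec4y52 : Row := [(46, -285055713), (47, 249150715), (48, -293356772), (49, 75058941), (50,
    104298850), (51, 113921535), (52, 280529148), (53, -102118532), (54, 91952953), (55, -53427093),
    (56, -52643059)]
def sec4r53 : Row := [(166, 1)]
def sec4y53 : Row := [(46, 307724524), (47, -115211500), (48, 222449410), (49, 32618266), (50,
    37616251), (51, -49953890), (52, -102118532), (53, 58040388), (54, 19186035), (55, 60519891),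
    (56, 32971391)]
def sec4r54 : Row := [(154, 1)]
def sec4y54 : Row := [(46, -109975846), (47, 104460157), (48, -45360125), (49, -62060713), (50,
    45671673), (51, 65113414), (52, 91952953), (53, 19186035), (54, 17660715), (55, 10366149), (56,
    -16275420)]
def sec4r55 : Row := [(106, 1)]
def sec4y55 : Row := [(46, 71477340), (47, -22664843), (48, 101976552), (49, -16135392), (50,
    17190481), (51, -33859841), (52, -53427093), (53, 60519891), (54, 10366149), (55, 15537555),
    (56, 17174805)]
def sec4r56 : Row := [(92, 1)]
def sec4y56 : Row := [(46, 93390668), (47, -16970366), (48, 71611840), (49, -13178635), (50,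
    -4133296), (51, -15160632), (52, -52643059), (53, 32971391), (54, -16275420), (55, 17174805),
    (56, 10972364)]
def sec4r57 : Row := [(387, 1)]
def sec4y57 : Row := [(57, 15796422741), (58, 9133242646), (59, 4700632461), (60, -3296647199), (61,
    -939250217), (62, -4248302487), (63, 8748537639), (64, -2595911164), (65, 660702131), (66,
    -1171104655), (67, -1165486732), (68, 3271168577)]
def sec4r58 : Row := [(325, 1)]
def sec4y58 : Row := [(57, 9133242646), (58, 6121062694), (59, 1649085638), (60, 827044329), (61,
    -261117550), (62, -519022019), (63, 3279857583), (64, -555816994), (65, 1321041032), (66,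
    123314257), (67, -50930348), (68, 1019104890)]
def sec4r59 : Row := [(297, 1)]
def sec4y59 : Row := [(57, 4700632461), (58, 1649085638), (59, 3082660950), (60, 21849804), (61,
    960166523), (62, -957132719), (63, 2035208698), (64, 331997151), (65, 525792731), (66,
    -457959256), (67, -272937300), (68, 526063313)]
def sec4r60 : Row := [(201, 1)]
def sec4y60 : Row := [(57, -3296647199), (58, 827044329), (59, 21849804), (60, 1388153359), (61,
    204959959), (62, 2075455483), (63, -1280626321), (64, 541545803), (65, 441070239), (66,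
    581091334), (67, 399500406), (68, -433960938)]
def sec4r61 : Row := [(177, 1)]
def sec4y61 : Row := [(57, -939250217), (58, -261117550), (59, 960166523), (60, 204959959), (61,
    386679198), (62, 254593034), (63, -221873413), (64, 404762042), (65, 60582313), (66, 7618671),
    (67, 39934275), (68, -81443165)]
def sec4r62 : Row := [(294, 1)]
def sec4y62 : Row := [(57, -4248302487), (58, -519022019), (59, -957132719), (60, 2075455483), (61,
    254593034), (62, 1619189871), (63, -1094628655), (64, 395551177), (65, 489879709), (66,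
    453757619), (67, 409600865), (68, -502765479)]
def sec4r63 : Row := [(198, 1)]
def sec4y63 : Row := [(57, 8748537639), (58, 3279857583), (59, 2035208698), (60, -1280626321), (61,
    -221873413), (62, -1094628655), (63, 2510440212), (64, -423903969), (65, 507151739), (66,
    -260257512), (67, -335024945), (68, 896328648)]
def sec4r64 : Row := [(282, 1)]
def sec4y64 : Row := [(57, -2595911164), (58, -555816994), (59, 331997151), (60, 541545803), (61,
    404762042), (62, 395551177), (63, -423903969), (64, 507787953), (65, 209429387), (66, 6665222),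
    (67, 196050467), (68, -142273506)]
def sec4r65 : Row := [(170, 1)]
def sec4y65 : Row := [(57, 660702131), (58, 1321041032), (59, 525792731), (60, 441070239), (61,
    60582313), (62, 489879709), (63, 507151739), (64, 209429387), (65, 552042361), (66, 141044221),
    (67, 147080799), (68, 168630357)]
def sec4r66 : Row := [(114, 1)]
def sec4y66 : Row := [(57, -1171104655), (58, 123314257), (59, -457959256), (60, 581091334), (61,
    7618671), (62, 453757619), (63, -260257512), (64, 6665222), (65, 141044221), (66, 134598479),
    (67, 123806283), (68, -127211850)]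
def sec4r67 : Row := [(156, 1)]
def sec4y67 : Row := [(57, -1165486732), (58, -50930348), (59, -272937300), (60, 399500406), (61,
    39934275), (62, 409600865), (63, -335024945), (64, 196050467), (65, 147080799), (66, 123806283),
    (67, 147746441), (68, -100732444)]
def sec4r68 : Row := [(108, 1)]
def sec4y68 : Row := [(57, 3271168577), (58, 1019104890), (59, 526063313), (60, -433960938), (61,
    -81443165), (62, -502765479), (63, 896328648), (64, -142273506), (65, 168630357), (66,
    -127211850), (67, -100732444), (68, 302647774)]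

def sec4 : Sector where
  rows := [sec4r0, sec4r1, sec4r2, sec4r3, sec4r4, sec4r5, sec4r6, sec4r7, sec4r8, sec4r9, sec4r10,
    sec4r11, sec4r12, sec4r13, sec4r14, sec4r15, sec4r16, sec4r17, sec4r18, sec4r19, sec4r20,
    sec4r21, sec4r22, sec4r23, sec4r24, sec4r25, sec4r26, sec4r27, sec4r28, sec4r29, sec4r30,
    sec4r31, sec4r32, sec4r33, sec4r34, sec4r35, sec4r36, sec4r37, sec4r38, sec4r39, sec4r40,
    sec4r41, sec4r42, sec4r43, sec4r44, sec4r45, sec4r46, sec4r47, sec4r48, sec4r49, sec4r50,
    sec4r51, sec4r52, sec4r53, sec4r54, sec4r55, sec4r56, sec4r57, sec4r58, sec4r59, sec4r60,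
    sec4r61, sec4r62, sec4r63, sec4r64, sec4r65, sec4r66, sec4r67, sec4r68]
  yr := [sec4y0, sec4y1, sec4y2, sec4y3, sec4y4, sec4y5, sec4y6, sec4y7, sec4y8, sec4y9, sec4y10,
    sec4y11, sec4y12, sec4y13, sec4y14, sec4y15, sec4y16, sec4y17, sec4y18, sec4y19, sec4y20,
    sec4y21, sec4y22, sec4y23, sec4y24, sec4y25, sec4y26, sec4y27, sec4y28, sec4y29, sec4y30,
    sec4y31, sec4y32, sec4y33, sec4y34, sec4y35, sec4y36, sec4y37, sec4y38, sec4y39, sec4y40,
    sec4y41, sec4y42, sec4y43, sec4y44, sec4y45, sec4y46, sec4y47, sec4y48, sec4y49, sec4y50,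
    sec4y51, sec4y52, sec4y53, sec4y54, sec4y55, sec4y56, sec4y57, sec4y58, sec4y59, sec4y60,
    sec4y61, sec4y62, sec4y63, sec4y64, sec4y65, sec4y66, sec4y67, sec4y68]

def sectors : List Sector := [sec2, sec3, sec4]

/-- The margin. -/
def marginS : ℤ := 16777216

end Vale.Agent.P359.Mom.Fock
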