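import Vale.Agent.P359.Mom.CertTwoForms

/-!
# P359: the window operator against the pair-plus-two channels
-/

noncomputable section

open Finset Filter
open scoped Topology Nat

namespace Vale.Agent.P359.Mom.Fock.Two

/-- A positive semidefinite pairing of two symmetric forms. -/
theorem pairing_nonneg {ι : Type*} [Fintype ι] [DecidableEq ι] (Y A : ι → ι → ℝ)
    (hsym : ∀ f h, Y f h = Y h f) (hY : ∀ x : ι → ℝ, 0 ≤ ∑ f, ∑ h, Y f h * x f * x h)
    (hA : ∀ x : ι → ℝ, 0 ≤ ∑ f, ∑ h, A f h * x f * x h) :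
    0 ≤ ∑ f, ∑ h, Y f h * A f h := by
  have hp : (Matrix.of Y : Matrix ι ι ℝ).PosSemidef := by
    refine Matrix.PosSemidef.of_dotProduct_mulVec_nonneg ?_ fun x => ?_
    · ext f h; simp [Matrix.conjTranspose_apply, hsym f h]
    · simp only [star_trivial, dotProduct, Matrix.mulVec, Matrix.of_apply, mul_sum]
      refine le_of_le_of_eq (hY x) (sum_congr rfl fun f _ => sum_congr rfl fun h _ => by ring)
  set U : Matrix ι ι ℝ := (hp.1.eigenvectorUnitary : Matrix ι ι ℝ) with hU
  have he : ∀ f h, Y f h = ∑ k, hp.1.eigenvalues k * (U f k * U h k) := by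
    intro f h
    have := congrFun (congrFun hp.1.spectral_theorem f) h
    simp only [Matrix.of_apply, Unitary.conjStarAlgAut_apply, Matrix.star_eq_conjTranspose,
      Matrix.mul_apply, Matrix.conjTranspose_apply, Matrix.diagonal_apply, mul_ite, mul_zero,
      sum_ite_eq', mem_univ, if_true, star_trivial, Function.comp_apply, RCLike.ofReal_real_eq_id,
      id_eq, ← hU] at this
    rw [this]
    exact sum_congr rfl fun k _ => by ring
  simp only [he, sum_mul]
  conv_rhs => enter [2, f]; rw [sum_comm]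
  rw [sum_comm]
  refine sum_nonneg fun k _ => ?_
  refine le_of_le_of_eq (mul_nonneg (hp.eigenvalues_nonneg k) (hA fun f => U f k)) ?_
  rw [mul_sum]
  refine sum_congr rfl fun f _ => ?_
  rw [mul_sum]
  exact sum_congr rfl fun h _ => by ring

theorem check_chan : ∀ c ∈ chans, checkCuts c = true ∧ checkVecs c = true ∧ checkVals c = true
    ∧ checkMat c = true := by
  intro c hc
  refine ⟨?_, List.all_eq_true.1 check_vecs c hc, List.all_eq_true.1 check_vals c hc,
    List.all_eq_true.1 check_mats c hc⟩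
  simp only [chans, List.mem_cons, List.not_mem_nil, or_false] at hc
  rcases hc with rfl | rfl | rfl | rfl | rfl | rfl | rfl | rfl | rfl | rfl | rfl | rfl | rfl | rfl |
    rfl | rfl
  exacts [check_cuts0, check_cuts1, check_cuts2, check_cuts3, check_cuts4, check_cuts5, check_cuts6,
    check_cuts7, check_cuts8, check_cuts9, check_cuts10, check_cuts11, check_cuts12, check_cuts13,
    check_cuts14, check_cuts15]

/-- The table of the channel `L`. -/
def chan (L : ℕ) : Chan := chans.getD L ch0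

theorem chan_mem (L : ℕ) : chan L ∈ chans := by
  by_cases h : L < chans.length
  · rw [chan, List.getD_eq_getElem _ _ h]; exact List.getElem_mem h
  · rw [chan, List.getD_eq_default _ _ (not_lt.1 h)]; simp [chans]

theorem chan_L : ∀ L < 16, (chan L).L = L := by
  intro L h
  interval_cases L <;> rfl

/-- A channel with null cuts lives on the free pairs. -/
theorem chan_nonneg (c : Chan) (hc : checkCuts c = true) {Q : ℕ} (hQ : 16 ≤ Q)
    (X : ℕ × ℕ → ℕ × ℕ → ℝ) (hsym : ∀ u v, X u v = X v u)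
    (hpsd : ∀ y : ℕ × ℕ → ℝ, 0 ≤ ∑ u ∈ pairs c.L, ∑ v ∈ pairs c.L, y u * y v * X u v)
    (hnull : ∀ k : J2 → ℝ, (∀ x : Fin 4 → ℕ, (∀ i, x i ≤ Q) → ev2 k x = 0) →
      ∀ v ∈ pairs c.L, ∑ u ∈ pairs c.L, (∑ p ∈ I2 Q, k p * low2 u p) * X u v = 0)
    (hA : ∀ x : Fin c.free.length → ℝ,
      0 ≤ ∑ f : Fin c.free.length, ∑ h : Fin c.free.length, red Q c f h * x f * x h) :
    0 ≤ ∑ u ∈ pairs c.L, ∑ v ∈ pairs c.L, X u v * chanMat Q c.L u v := by
  simp only [checkCuts, Bool.and_eq_true, List.all_eq_true, List.mem_range, beq_iff_eq,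
    decide_eq_true_eq] at hc
  obtain ⟨⟨⟨⟨⟨⟨⟨hL, hsc⟩, hlen⟩, hfree⟩, hkey⟩, hev⟩, hrow⟩, hid⟩ := hc
  set n := c.free.length with hn
  set m := c.L with hm
  have hpr : ∀ F : ℕ × ℕ → ℝ, ∑ u ∈ pairs m, F u = ∑ i ∈ range (m + 1), F (pr c i) :=
    fun F => Nat.sum_antidiagonal_eq_sum_range_succ_mk F m
  set fr : Fin n → ℕ × ℕ := fun f => pr c (c.free.getD f 0) with hfr
  have hrowz : ∀ u ≤ m, ∀ j ≤ m, ((c.cuts.getD u ⟨0, [], []⟩).mul : ℝ) *
      ∑ i ∈ range (m + 1), ((c.cuts.getD u ⟨0, [], []⟩).row.getD i 0 : ℝ) * X (pr c i) (pr c j)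
      = 0 := by
    intro u hu j hj
    have hk : c.cuts.getD u ⟨0, [], []⟩ ∈ c.cuts := by
      rw [List.getD_eq_getElem _ _ (show u < c.cuts.length by omega)]
      exact List.getElem_mem _
    generalize c.cuts.getD u ⟨0, [], []⟩ = k at hk ⊢
    refine mul_eq_zero_of_right _ ?_
    have hz : ∀ x : Fin 4 → ℕ, ev2 (fun p => (look k.cs p : ℝ)) x = 0 := by
      intro x
      have h4 := hev k hk
      have hg : (fun p : J2 => (look k.cs p : ℝ))
          = fun p => (look (Comb.mk (m + 1) 1 k.cs).cs p : ℝ) / (Comb.mk (m + 1) 1 k.cs).den := by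
        funext p; simp
      rw [hg, ev2_eq_asym]
      by_cases hi : Function.Injective x
      · have hmono : StrictMono (fun i => x (Tuple.sort x i)) :=
          (Tuple.monotone_sort x).strictMono_of_injective (hi.comp (Tuple.sort x).injective)
        have h := asym_comp (fun y : Fin 4 → ℕ => ((y 1 : ℝ) - y 0) *
          ((look (Comb.mk (m + 1) 1 k.cs).cs (y 0 + y 1, y 2, y 3) : ℝ)
            / (Comb.mk (m + 1) 1 k.cs).den)) x (Tuple.sort x)
        rw [← ev2_eq_asym (fun p => (look (Comb.mk (m + 1) 1 k.cs).cs p : ℝ)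
          / (Comb.mk (m + 1) 1 k.cs).den) (fun i => x (Tuple.sort x i)), ev2_eq_ev4Z] at h
        set y := fun i => x (Tuple.sort x i) with hy
        rw [show List.ofFn y = [y 0, y 1, y 2, y 3] from rfl,
          ev4Z_increasing h4 (hmono (by decide : (0 : Fin 4) < 1))
            (hmono (by decide : (1 : Fin 4) < 2)) (hmono (by decide : (2 : Fin 4) < 3))] at h
        simp only [Fock.coef, List.filter_nil, List.map_nil, List.sum_nil, mul_zero, ite_self,
          Int.cast_zero, zero_div] at h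
        refine (mul_eq_zero.1 h.symm).resolve_left ?_
        exact_mod_cast Units.ne_zero _
      · exact asym_eq_zero_of_not_injective _ x hi
    have h := hnull (fun p => (look k.cs p : ℝ)) (fun x _ => hz x) (pr c j) (by
      simp only [pairs, pr, HasAntidiagonal.mem_antidiagonal]; omega)
    rw [hpr] at h
    rw [← h]
    refine sum_congr rfl fun i hi => ?_
    rw [mem_range] at hi
    congr 1
    rw [hrow k hk i (by omega), Int.cast_list_sum, List.map_map, Function.comp_def,
      sum_look _ (I2 Q) _ fun e he => ?_]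
    · refine congrArg List.sum (List.map_congr_left fun e he => ?_)
      obtain ⟨h1, h2⟩ := hkey k hk e he
      rw [Int.cast_mul, low2Z_eq (by omega) (by omega) _ h1 (by omega)]
      rfl
    · obtain ⟨h1, h2⟩ := hkey k hk e he
      simp only [I2, mem_product, mem_range]
      omega
  have hexp : ∀ u ≤ m, ∀ j ≤ m, (c.scale : ℝ) * X (pr c u) (pr c j)
      = ∑ f : Fin n, (Cert.ent c.E u f : ℝ) * X (fr f) (pr c j) := by
    intro u hu j hj
    have h1 : ∑ i ∈ range (m + 1), (if u = i then (c.scale : ℝ) else 0) * X (pr c i) (pr c j)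
        = (c.scale : ℝ) * X (pr c u) (pr c j) := by
      simp [ite_mul, show u < m + 1 by omega]
    rw [← h1]
    have h2 : ∀ i ∈ range (m + 1), (if u = i then (c.scale : ℝ) else 0)
        = (∑ f : Fin n, if c.free.getD f 0 = i then (Cert.ent c.E u f : ℝ) else 0)
          + ((c.cuts.getD u ⟨0, [], []⟩).mul : ℝ)
            * ((c.cuts.getD u ⟨0, [], []⟩).row.getD i 0 : ℝ) := by
      intro i hi
      have h := congrArg (Int.cast : ℤ → ℝ) (hid u (by omega) i (mem_range.1 hi))
      rw [Cert.list_range_sum] at h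
      push_cast [apply_ite (Int.cast : ℤ → ℝ)] at h
      exact h
    rw [sum_congr rfl fun i hi => by rw [h2 i hi, add_mul, sum_mul, mul_assoc], sum_add_distrib,
      ← mul_sum, hrowz u hu j hj, add_zero, sum_comm]
    refine sum_congr rfl fun f _ => ?_
    have hfm : c.free.getD f 0 ≤ m := by
      rw [List.getD_eq_getElem _ _ f.isLt]
      exact hfree _ (List.getElem_mem _)
    simp only [ite_mul, zero_mul]
    rw [Finset.sum_ite_eq, if_pos (mem_range.2 (Nat.lt_succ_of_le hfm))]
  have hY : ∀ x : Fin n → ℝ, 0 ≤ ∑ f, ∑ h, X (fr f) (fr h) * x f * x h := by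
    intro x
    have hmem : ∀ f : Fin n, fr f ∈ pairs m := fun f => by
      have hfm : c.free.getD f 0 ≤ m := by
        rw [List.getD_eq_getElem _ _ f.isLt]
        exact hfree _ (List.getElem_mem _)
      simp only [hfr, pairs, pr, HasAntidiagonal.mem_antidiagonal]; omega
    set y : ℕ × ℕ → ℝ := fun u => ∑ f, if fr f = u then x f else 0 with hy
    have hcol : ∀ F : ℕ × ℕ → ℝ, ∑ u ∈ pairs m, y u * F u = ∑ f, x f * F (fr f) := by
      intro F
      simp only [hy, sum_mul, ite_mul, zero_mul]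
      rw [sum_comm]
      exact sum_congr rfl fun f _ => by rw [sum_ite_eq, if_pos (hmem f)]
    refine le_of_le_of_eq (hpsd y) ?_
    simp only [mul_assoc, ← mul_sum]
    rw [hcol fun u => ∑ v ∈ pairs m, y v * X u v]
    refine sum_congr rfl fun f _ => ?_
    rw [hcol fun v => X (fr f) v, mul_sum]
    exact sum_congr rfl fun h _ => by ring
  have hkey2 : (c.scale : ℝ) ^ 2 * ∑ u ∈ pairs m, ∑ v ∈ pairs m, X u v * chanMat Q m u v
      = ∑ f : Fin n, ∑ h : Fin n, X (fr f) (fr h) * red Q c f h := by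
    simp only [hpr, mul_sum, red, ← hm]
    have e : ∀ i ∈ range (m + 1), ∀ j ∈ range (m + 1),
        (c.scale : ℝ) ^ 2 * (X (pr c i) (pr c j) * chanMat Q m (pr c i) (pr c j))
        = ∑ f : Fin n, ∑ h : Fin n, X (fr f) (fr h) * ((Cert.ent c.E i f : ℝ) * Cert.ent c.E j h
            * chanMat Q m (pr c i) (pr c j)) := by
      intro i hi j hj
      rw [mem_range] at hi hj
      have hfm : ∀ f : Fin n, c.free.getD f 0 ≤ m := fun f => by
        rw [List.getD_eq_getElem _ _ f.isLt]
        exact hfree _ (List.getElem_mem _)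
      calc (c.scale : ℝ) ^ 2 * (X (pr c i) (pr c j) * chanMat Q m (pr c i) (pr c j))
          = (∑ f : Fin n, (Cert.ent c.E i f : ℝ) * ((c.scale : ℝ) * X (pr c j) (fr f)))
              * chanMat Q m (pr c i) (pr c j) := by
            rw [sum_congr rfl fun (f : Fin n) _ => by
              rw [show (c.scale : ℝ) * X (pr c j) (fr f) = (c.scale : ℝ) * X (fr f) (pr c j) by
                rw [hsym (pr c j)], mul_left_comm], ← mul_sum, ← hexp i (by omega) j (by omega)]
            ring
        _ = _ := by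
            rw [sum_mul]
            refine sum_congr rfl fun f _ => ?_
            rw [hexp j (by omega) _ (hfm f), mul_sum, sum_mul]
            refine sum_congr rfl fun h _ => ?_
            rw [show X (fr h) (pr c (c.free.getD f 0)) = X (fr f) (fr h) from hsym _ _]
            ring
    rw [sum_congr rfl fun i hi => sum_congr rfl (e i hi),
      sum_congr rfl fun i _ => sum_comm, sum_comm]
    refine sum_congr rfl fun f _ => ?_
    rw [sum_congr rfl fun i _ => sum_comm, sum_comm]
  have h0 : 0 ≤ ∑ f : Fin n, ∑ h : Fin n, X (fr f) (fr h) * red Q c f h :=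
    pairing_nonneg (fun f h : Fin n => X (fr f) (fr h)) (fun f h => red Q c f h)
      (fun f h => hsym _ _) hY hA
  rw [← hkey2] at h0
  exact nonneg_of_mul_nonneg_right h0 (by positivity)

/-- The four-particle part of the window operator. -/
def winTwo (Q : ℕ) (D : Data) : ℝ :=
  ∑ a, ∑ b, winData.q2 a b * ∑ p ∈ I2 Q, ∑ q ∈ I2 Q, winData.c2 a p * winData.c2 b q * D.z2 p q

theorem winTwo_eq {Q : ℕ} (hQ : 16 ≤ Q) (D : Data) (X : ℕ → ℕ × ℕ → ℕ × ℕ → ℝ)
    (hexp : ∀ p ∈ I2 Q, ∀ q ∈ I2 Q, grade2 p ≤ 15 + 1 → D.z2 p q =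
      ∑ L ∈ range (15 + 1), ∑ u ∈ pairs L, ∑ v ∈ pairs L,
        if grade2 p = grade2 q ∧ L + 1 ≤ grade2 p then
          X L u v * vec2 Q u (grade2 p - 1 - L) p * vec2 Q v (grade2 p - 1 - L) q
            / lad Q (spin2 Q L) (grade2 p - 1 - L)
        else 0) :
    winTwo Q D = ∑ L ∈ range 16, ∑ u ∈ pairs L, ∑ v ∈ pairs L, X L u v * w2 Q L u v := by
  have hab : ∀ a < 69, ∀ b < 69, (fn b).grade = (fn a).grade →
      ∑ p ∈ I2 Q, ∑ q ∈ I2 Q, c4 a p * c4 b q * D.z2 p q
      = ∑ L ∈ range 16, ∑ u ∈ pairs L, ∑ v ∈ pairs L, if L + 1 ≤ (fn a).grade then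
          X L u v * act a (vec2 Q u ((fn a).grade - 1 - L)) * act b (vec2 Q v ((fn a).grade - 1 - L))
            / lad Q (spin2 Q L) ((fn a).grade - 1 - L) else 0 := by
    intro a ha b hb hg
    have hgrade : ∀ {x : ℕ}, x < 69 → ∀ p, c4 x p ≠ 0 → grade2 p = (fn x).grade := by
      intro x hx p hp
      by_contra hne
      apply hp
      rw [c4, look_eq_zero, Int.cast_zero, zero_div]
      intro e he hep
      exact hne (by rw [← hep]; exact ((keys_two hx).2.2.2.2.1 e he).2)
    calc ∑ p ∈ I2 Q, ∑ q ∈ I2 Q, c4 a p * c4 b q * D.z2 p q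
        = ∑ p ∈ I2 Q, ∑ q ∈ I2 Q, ∑ L ∈ range 16, ∑ u ∈ pairs L, ∑ v ∈ pairs L,
            if L + 1 ≤ (fn a).grade then
              X L u v / lad Q (spin2 Q L) ((fn a).grade - 1 - L)
                * (c4 a p * vec2 Q u ((fn a).grade - 1 - L) p)
                * (c4 b q * vec2 Q v ((fn a).grade - 1 - L) q)
            else 0 := by
          refine sum_congr rfl fun p hp => sum_congr rfl fun q hq => ?_
          by_cases hpz : c4 a p = 0
          · simp [hpz]
          by_cases hqz : c4 b q = 0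
          · simp [hqz]
          have h1 := hgrade ha p hpz
          have h2 := hgrade hb q hqz
          have h16 := (keys_two ha).2.1
          rw [hexp p hp q hq (by omega)]
          simp only [mul_sum]
          refine sum_congr rfl fun L _ => sum_congr rfl fun u _ => sum_congr rfl fun v _ => ?_
          simp only [h1, h2, hg, true_and, mul_ite, mul_zero]
          split_ifs
          · ring
          · rfl
      _ = _ := by
          rw [sum_congr rfl fun p _ => sum_comm, sum_comm]
          refine sum_congr rfl fun L _ => ?_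
          rw [sum_congr rfl fun p _ => sum_comm, sum_comm]
          refine sum_congr rfl fun u _ => ?_
          rw [sum_congr rfl fun p _ => sum_comm, sum_comm]
          refine sum_congr rfl fun v _ => ?_
          by_cases hL : L + 1 ≤ (fn a).grade
          · simp only [if_pos hL, ← mul_sum, ← sum_mul]
            rw [sum_c4 ha hQ, sum_c4 hb hQ]
            ring
          · simp [hL]
  change ∑ a : Fin 69, ∑ b : Fin 69, coupling sec4 a b *
      ∑ p ∈ I2 Q, ∑ q ∈ I2 Q, c4 a p * c4 b q * D.z2 p q = _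
  have hswap : ∀ a : Fin 69, ∑ b : Fin 69, coupling sec4 a b *
      ∑ p ∈ I2 Q, ∑ q ∈ I2 Q, c4 a p * c4 b q * D.z2 p q
      = ∑ L ∈ range 16, ∑ u ∈ pairs L, ∑ v ∈ pairs L, X L u v *
        if L + 1 ≤ (fn a).grade then act a (vec2 Q u ((fn a).grade - 1 - L))
          * ((sec4.yr.getD a []).map fun t =>
              (t.2 : ℝ) * act t.1 (vec2 Q v ((fn a).grade - 1 - L))).sum
          / 100 / lad Q (spin2 Q L) ((fn a).grade - 1 - L) else 0 := by
    intro a
    rw [sum_coupling sec4 (by simp [sectors]) 69 rfl a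
      fun b => ∑ p ∈ I2 Q, ∑ q ∈ I2 Q, c4 a p * c4 b q * D.z2 p q]
    have hl := (keys_two a.isLt).2.2.2.2.2
    rw [List.map_congr_left (g := fun t : ℕ × ℤ => ∑ L ∈ range 16, ∑ u ∈ pairs L, ∑ v ∈ pairs L,
      (t.2 : ℝ) * if L + 1 ≤ (fn a).grade then
        X L u v * act a (vec2 Q u ((fn a).grade - 1 - L)) * act t.1 (vec2 Q v ((fn a).grade - 1 - L))
          / lad Q (spin2 Q L) ((fn a).grade - 1 - L) else 0) fun t ht => by
        obtain ⟨h1, h2⟩ := hl t ht
        rw [hab a a.isLt t.1 h1 h2]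
        simp only [mul_sum]]
    generalize sec4.yr.getD a [] = l
    induction l with
    | nil => simp
    | cons t l ih =>
        simp only [List.map_cons, List.sum_cons, add_div, ih, sum_div, ← sum_add_distrib]
        refine sum_congr rfl fun L _ => sum_congr rfl fun u _ => sum_congr rfl fun v _ => ?_
        split_ifs <;> ring
  simp only [hswap]
  rw [sum_comm]
  refine sum_congr rfl fun L _ => ?_
  rw [sum_comm]
  refine sum_congr rfl fun u _ => ?_
  rw [sum_comm]
  refine sum_congr rfl fun v _ => ?_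
  rw [w2, mul_sum, ← Fin.sum_univ_eq_sum_range]

/-- **The disjoint-pair form dominates the four-particle window operator.** -/
theorem chanTwo_ge (h2 : Dec2Pin) : ∀ᶠ Q : ℕ in atTop, ∀ D : Data, IsMom Q D →
    2 * (Q : ℝ) * winTwo Q D ≤ fourForm Q D / 2 := by
  have hev : ∀ᶠ Q in atTop, ∀ L ∈ range 16, ∀ x : Fin (chan L).free.length → ℝ,
      0 ≤ ∑ f : Fin (chan L).free.length, ∑ h : Fin (chan L).free.length,
        red Q (chan L) f h * x f * x h := by
    rw [eventually_all_finset]
    intro L hL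
    obtain ⟨-, hv, hval, hm⟩ := check_chan _ (chan_mem L)
    exact eventually_red _ (by rw [chan_L L (mem_range.1 hL)]; rw [mem_range] at hL; omega) hv hval hm
  filter_upwards [hev, eventually_ge_atTop 17] with Q hQ h17 D hD
  obtain ⟨X, hsym, hpsd, hnull, hexp, hbound⟩ := h2 15 Q D (by omega) hD
  have hQ' : (0 : ℝ) < Q := by exact_mod_cast (by omega : 0 < Q)
  rw [winTwo_eq (by omega) D X hexp]
  have hpos : ∀ L ∈ range 16, 0 ≤ ∑ u ∈ pairs L, ∑ v ∈ pairs L, X L u v * chanMat Q L u v := by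
    intro L hL
    rw [mem_range] at hL
    have h := chan_nonneg (chan L) (check_chan _ (chan_mem L)).1 (by omega : 16 ≤ Q) (X L)
      (hsym L) (by rw [chan_L L hL]; exact hpsd L)
      (by rw [chan_L L hL]; exact hnull L (by omega)) (hQ L (mem_range.2 hL))
    rwa [chan_L L hL] at h
  have hsum : 0 ≤ (Q : ℝ) * ∑ L ∈ range 16, ∑ u ∈ pairs L, ∑ v ∈ pairs L,
      X L u v * chanMat Q L u v := mul_nonneg hQ'.le (sum_nonneg hpos)
  have e : (Q : ℝ) * ∑ L ∈ range 16, ∑ u ∈ pairs L, ∑ v ∈ pairs L, X L u v * chanMat Q L u v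
      = (∑ L ∈ range 16, ((spin2 Q L : ℝ) + 1) * ∑ u ∈ pairs L, ∑ v ∈ pairs L,
          X L u v * k2 Q u v) / 2
        - 2 * (Q : ℝ) * ∑ L ∈ range 16, ∑ u ∈ pairs L, ∑ v ∈ pairs L, X L u v * w2 Q L u v := by
    simp only [mul_sum, sum_div, ← sum_sub_distrib, chanMat]
    refine sum_congr rfl fun L _ => sum_congr rfl fun u _ => sum_congr rfl fun v _ => ?_
    field_simp
  rw [e] at hsum
  have hb : ∑ L ∈ range 16, ((spin2 Q L : ℝ) + 1) * ∑ u ∈ pairs L, ∑ v ∈ pairs L,
      X L u v * k2 Q u v ≤ fourForm Q D := hbound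
  linarith

end Vale.Agent.P359.Mom.Fock.Two
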