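import Vale.Agent.P359.Mom.CertTwoTab

/-!
Kernel evaluation of the channel tables: binomials, grades, small cuts.
-/

namespace Vale.Agent.P359.Mom.Fock

theorem check_bin : checkBin = true := by decide +kernel

theorem check_tabFour : checkFour = true := by decide +kernel

theorem check_cuts0 : checkCuts ch0 = true := by decide +kernel
theorem check_cuts1 : checkCuts ch1 = true := by decide +kernel
theorem check_cuts2 : checkCuts ch2 = true := by decide +kernel
theorem check_cuts3 : checkCuts ch3 = true := by decide +kernel
theorem check_cuts4 : checkCuts ch4 = true := by decide +kernel
theorem check_cuts5 : checkCuts ch5 = true := by decide +kernel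
theorem check_cuts6 : checkCuts ch6 = true := by decide +kernel
theorem check_cuts7 : checkCuts ch7 = true := by decide +kernel
theorem check_cuts8 : checkCuts ch8 = true := by decide +kernel
theorem check_cuts9 : checkCuts ch9 = true := by decide +kernel
theorem check_cuts10 : checkCuts ch10 = true := by decide +kernel

end Vale.Agent.P359.Mom.Fock
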