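import Vale.Agent.P359.Mom.CertTwoSplit

/-!
Kernel evaluation of the cuts of the channel 12, piece 1.
-/

namespace Vale.Agent.P359.Mom.Fock

theorem check_cuts12_1 : cutPiece ch12 1 = true := by decide +kernel

end Vale.Agent.P359.Mom.Fock
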