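import Vale.Agent.P359.Mom.CertTwoCut11P0
import Vale.Agent.P359.Mom.CertTwoCut11P1
import Vale.Agent.P359.Mom.CertTwoCut11P2
import Vale.Agent.P359.Mom.CertTwoCut12P0
import Vale.Agent.P359.Mom.CertTwoCut12P1
import Vale.Agent.P359.Mom.CertTwoCut12P2
import Vale.Agent.P359.Mom.CertTwoCut12P3
import Vale.Agent.P359.Mom.CertTwoCut13P0
import Vale.Agent.P359.Mom.CertTwoCut13P1
import Vale.Agent.P359.Mom.CertTwoCut13P2
import Vale.Agent.P359.Mom.CertTwoCut13P3
import Vale.Agent.P359.Mom.CertTwoCut14P0
import Vale.Agent.P359.Mom.CertTwoCut14P1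
import Vale.Agent.P359.Mom.CertTwoCut14P2
import Vale.Agent.P359.Mom.CertTwoCut14P3
import Vale.Agent.P359.Mom.CertTwoCut15P0
import Vale.Agent.P359.Mom.CertTwoCut15P1
import Vale.Agent.P359.Mom.CertTwoCut15P2
import Vale.Agent.P359.Mom.CertTwoCut15P3

/-!
The large cuts, assembled from their pieces.
-/

namespace Vale.Agent.P359.Mom.Fock

theorem check_cuts11 : checkCuts ch11 = true :=
  checkCuts_of (by decide +kernel) (all_of_chunks _ _ 4 3 (by decide +kernel) fun j hj => by
    interval_cases j
    · exact check_cuts11_0
    · exact check_cuts11_1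
    · exact check_cuts11_2)

theorem check_cuts12 : checkCuts ch12 = true :=
  checkCuts_of (by decide +kernel) (all_of_chunks _ _ 4 4 (by decide +kernel) fun j hj => by
    interval_cases j
    · exact check_cuts12_0
    · exact check_cuts12_1
    · exact check_cuts12_2
    · exact check_cuts12_3)

theorem check_cuts13 : checkCuts ch13 = true :=
  checkCuts_of (by decide +kernel) (all_of_chunks _ _ 4 4 (by decide +kernel) fun j hj => by
    interval_cases j
    · exact check_cuts13_0
    · exact check_cuts13_1
    · exact check_cuts13_2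
    · exact check_cuts13_3)

theorem check_cuts14 : checkCuts ch14 = true :=
  checkCuts_of (by decide +kernel) (all_of_chunks _ _ 4 4 (by decide +kernel) fun j hj => by
    interval_cases j
    · exact check_cuts14_0
    · exact check_cuts14_1
    · exact check_cuts14_2
    · exact check_cuts14_3)

theorem check_cuts15 : checkCuts ch15 = true :=
  checkCuts_of (by decide +kernel) (all_of_chunks _ _ 4 4 (by decide +kernel) fun j hj => by
    interval_cases j
    · exact check_cuts15_0
    · exact check_cuts15_1
    · exact check_cuts15_2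
    · exact check_cuts15_3)

end Vale.Agent.P359.Mom.Fock
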