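import Mathlib

/-!
Generated table of the window functionals as combinations of pair-contraction coefficients:
grade, denominator, integer coefficients.
-/

namespace Vale.Agent.P359.Mom.Fock

structure Comb (α : Type) where
  grade : ℕ
  den : ℕ
  cs : List (α × ℤ)

def comb3c0 : Comb (ℕ × ℕ) :=
  ⟨3, 2, [((1, 2), 1)]⟩
def comb3c1 : Comb (ℕ × ℕ) :=
  ⟨4, 2, [((1, 3), 1)]⟩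
def comb3c2 : Comb (ℕ × ℕ) :=
  ⟨5, 2, [((1, 4), 1)]⟩
def comb3c3 : Comb (ℕ × ℕ) :=
  ⟨5, 4, [((2, 3), 1)]⟩
def comb3c4 : Comb (ℕ × ℕ) :=
  ⟨6, 2, [((1, 5), 1)]⟩
def comb3c5 : Comb (ℕ × ℕ) :=
  ⟨6, 4, [((2, 4), 1)]⟩
def comb3c6 : Comb (ℕ × ℕ) :=
  ⟨6, 2, [((3, 3), 1)]⟩
def comb3c7 : Comb (ℕ × ℕ) :=
  ⟨7, 2, [((1, 6), 1)]⟩
def comb3c8 : Comb (ℕ × ℕ) :=
  ⟨7, 4, [((2, 5), 1)]⟩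
def comb3c9 : Comb (ℕ × ℕ) :=
  ⟨7, 8, [((4, 3), -1)]⟩
def comb3c10 : Comb (ℕ × ℕ) :=
  ⟨7, 8, [((3, 4), 4), ((4, 3), 3)]⟩
def comb3c11 : Comb (ℕ × ℕ) :=
  ⟨8, 2, [((1, 7), 1)]⟩
def comb3c12 : Comb (ℕ × ℕ) :=
  ⟨8, 4, [((2, 6), 1)]⟩
def comb3c13 : Comb (ℕ × ℕ) :=
  ⟨8, 20, [((4, 4), -3), ((5, 3), -2)]⟩
def comb3c14 : Comb (ℕ × ℕ) :=
  ⟨8, 20, [((3, 5), 10), ((4, 4), 9), ((5, 3), 6)]⟩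
def comb3c15 : Comb (ℕ × ℕ) :=
  ⟨8, 4, [((4, 4), 1)]⟩
def comb3c16 : Comb (ℕ × ℕ) :=
  ⟨9, 2, [((1, 8), 1)]⟩
def comb3c17 : Comb (ℕ × ℕ) :=
  ⟨9, 4, [((2, 7), 1)]⟩
def comb3c18 : Comb (ℕ × ℕ) :=
  ⟨9, 4, [((4, 5), -2), ((5, 4), -2), ((6, 3), -1)]⟩
def comb3c19 : Comb (ℕ × ℕ) :=
  ⟨9, 2, [((3, 6), 1)]⟩
def comb3c20 : Comb (ℕ × ℕ) :=
  ⟨9, 4, [((4, 5), 5), ((5, 4), 4), ((6, 3), 2)]⟩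
def comb3c21 : Comb (ℕ × ℕ) :=
  ⟨9, 4, [((4, 5), -10), ((5, 4), -8), ((6, 3), -5)]⟩
def comb3c22 : Comb (ℕ × ℕ) :=
  ⟨10, 4, [((2, 8), 1)]⟩
def comb3c23 : Comb (ℕ × ℕ) :=
  ⟨10, 28, [((4, 6), -10), ((5, 5), -12), ((6, 4), -9), ((7, 3), -4)]⟩
def comb3c24 : Comb (ℕ × ℕ) :=
  ⟨10, 2, [((3, 7), 1)]⟩
def comb3c25 : Comb (ℕ × ℕ) :=
  ⟨10, 28, [((4, 6), 27), ((5, 5), 24), ((6, 4), 18), ((7, 3), 8)]⟩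
def comb3c26 : Comb (ℕ × ℕ) :=
  ⟨10, 28, [((4, 6), 15), ((5, 5), 18), ((6, 4), 10), ((7, 3), 6)]⟩
def comb3c27 : Comb (ℕ × ℕ) :=
  ⟨10, 28, [((4, 6), -45), ((5, 5), -40), ((6, 4), -30), ((7, 3), -18)]⟩
def comb3c28 : Comb (ℕ × ℕ) :=
  ⟨11, 16, [((4, 7), -15), ((5, 6), -20), ((6, 5), -18), ((7, 4), -12), ((8, 3), -5)]⟩
def comb3c29 : Comb (ℕ × ℕ) :=
  ⟨11, 2, [((3, 8), 1)]⟩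
def comb3c30 : Comb (ℕ × ℕ) :=
  ⟨11, 4, [((4, 7), 1)]⟩
def comb3c31 : Comb (ℕ × ℕ) :=
  ⟨11, 16, [((4, 7), 27), ((5, 6), 36), ((6, 5), 30), ((7, 4), 20), ((8, 3), 9)]⟩
def comb3c32 : Comb (ℕ × ℕ) :=
  ⟨11, 8, [((4, 7), -3), ((8, 3), -1)]⟩
def comb3c33 : Comb (ℕ × ℕ) :=
  ⟨11, 16, [((4, 7), -45), ((5, 6), -60), ((6, 5), -50), ((7, 4), -36), ((8, 3), -15)]⟩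
def comb3c34 : Comb (ℕ × ℕ) :=
  ⟨12, 4, [((4, 8), 1)]⟩
def comb3c35 : Comb (ℕ × ℕ) :=
  ⟨12, 4, [((6, 6), -2), ((7, 5), -2), ((8, 4), -1)]⟩
def comb3c36 : Comb (ℕ × ℕ) :=
  ⟨12, 2, [((5, 7), 1)]⟩
def comb3c37 : Comb (ℕ × ℕ) :=
  ⟨12, 4, [((6, 6), 5), ((7, 5), 4), ((8, 4), 2)]⟩
def comb3c38 : Comb (ℕ × ℕ) :=
  ⟨12, 4, [((6, 6), -10), ((7, 5), -8), ((8, 4), -5)]⟩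
def comb3c39 : Comb (ℕ × ℕ) :=
  ⟨13, 2, [((5, 8), 1)]⟩
def comb3c40 : Comb (ℕ × ℕ) :=
  ⟨13, 4, [((6, 7), 1)]⟩
def comb3c41 : Comb (ℕ × ℕ) :=
  ⟨13, 4, [((8, 5), -1)]⟩
def comb3c42 : Comb (ℕ × ℕ) :=
  ⟨13, 4, [((7, 6), 4), ((8, 5), 3)]⟩
def comb3c43 : Comb (ℕ × ℕ) :=
  ⟨14, 4, [((6, 8), 1)]⟩
def comb3c44 : Comb (ℕ × ℕ) :=
  ⟨14, 2, [((7, 7), 1)]⟩
def comb3c45 : Comb (ℕ × ℕ) :=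
  ⟨14, 4, [((8, 6), 1)]⟩
def comb3c46 : Comb (ℕ × ℕ) :=
  ⟨15, 2, [((7, 8), 1)]⟩
def comb3c47 : Comb (ℕ × ℕ) :=
  ⟨15, 4, [((8, 7), 1)]⟩

def comb3 : List (Comb (ℕ × ℕ)) :=
  [comb3c0, comb3c1, comb3c2, comb3c3, comb3c4, comb3c5, comb3c6, comb3c7,
   comb3c8, comb3c9, comb3c10, comb3c11, comb3c12, comb3c13, comb3c14, comb3c15,
   comb3c16, comb3c17, comb3c18, comb3c19, comb3c20, comb3c21, comb3c22, comb3c23,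
   comb3c24, comb3c25, comb3c26, comb3c27, comb3c28, comb3c29, comb3c30, comb3c31,
   comb3c32, comb3c33, comb3c34, comb3c35, comb3c36, comb3c37, comb3c38, comb3c39,
   comb3c40, comb3c41, comb3c42, comb3c43, comb3c44, comb3c45, comb3c46, comb3c47]

def comb4c0 : Comb (ℕ × ℕ × ℕ) :=
  ⟨6, 2, [((1, 2, 3), 1)]⟩
def comb4c1 : Comb (ℕ × ℕ × ℕ) :=
  ⟨7, 2, [((1, 2, 4), 1)]⟩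
def comb4c2 : Comb (ℕ × ℕ × ℕ) :=
  ⟨8, 2, [((1, 2, 5), 1)]⟩
def comb4c3 : Comb (ℕ × ℕ × ℕ) :=
  ⟨8, 2, [((1, 3, 4), 1)]⟩
def comb4c4 : Comb (ℕ × ℕ × ℕ) :=
  ⟨9, 2, [((1, 2, 6), 1)]⟩
def comb4c5 : Comb (ℕ × ℕ × ℕ) :=
  ⟨9, 2, [((1, 3, 5), 1)]⟩
def comb4c6 : Comb (ℕ × ℕ × ℕ) :=
  ⟨9, 4, [((2, 3, 4), 1)]⟩
def comb4c7 : Comb (ℕ × ℕ × ℕ) :=
  ⟨10, 2, [((1, 2, 7), 1)]⟩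
def comb4c8 : Comb (ℕ × ℕ × ℕ) :=
  ⟨10, 2, [((1, 3, 6), 1)]⟩
def comb4c9 : Comb (ℕ × ℕ × ℕ) :=
  ⟨10, 2, [((1, 4, 5), 1)]⟩
def comb4c10 : Comb (ℕ × ℕ × ℕ) :=
  ⟨10, 4, [((2, 3, 5), 1)]⟩
def comb4c11 : Comb (ℕ × ℕ × ℕ) :=
  ⟨10, 2, [((3, 3, 4), 1)]⟩
def comb4c12 : Comb (ℕ × ℕ × ℕ) :=
  ⟨11, 2, [((1, 2, 8), 1)]⟩
def comb4c13 : Comb (ℕ × ℕ × ℕ) :=
  ⟨11, 2, [((1, 3, 7), 1)]⟩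
def comb4c14 : Comb (ℕ × ℕ × ℕ) :=
  ⟨11, 2, [((1, 4, 6), 1)]⟩
def comb4c15 : Comb (ℕ × ℕ × ℕ) :=
  ⟨11, 4, [((2, 3, 6), 1)]⟩
def comb4c16 : Comb (ℕ × ℕ × ℕ) :=
  ⟨11, 4, [((2, 4, 5), 1)]⟩
def comb4c17 : Comb (ℕ × ℕ × ℕ) :=
  ⟨11, 2, [((3, 3, 5), 1)]⟩
def comb4c18 : Comb (ℕ × ℕ × ℕ) :=
  ⟨12, 2, [((1, 3, 8), 1)]⟩
def comb4c19 : Comb (ℕ × ℕ × ℕ) :=
  ⟨12, 2, [((1, 4, 7), 1)]⟩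
def comb4c20 : Comb (ℕ × ℕ × ℕ) :=
  ⟨12, 2, [((1, 5, 6), 1)]⟩
def comb4c21 : Comb (ℕ × ℕ × ℕ) :=
  ⟨12, 4, [((2, 3, 7), 1)]⟩
def comb4c22 : Comb (ℕ × ℕ × ℕ) :=
  ⟨12, 4, [((2, 4, 6), 1)]⟩
def comb4c23 : Comb (ℕ × ℕ × ℕ) :=
  ⟨12, 8, [((4, 3, 5), -1)]⟩
def comb4c24 : Comb (ℕ × ℕ × ℕ) :=
  ⟨12, 2, [((3, 3, 6), 1)]⟩
def comb4c25 : Comb (ℕ × ℕ × ℕ) :=
  ⟨12, 8, [((3, 4, 5), 4), ((4, 3, 5), 3)]⟩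
def comb4c26 : Comb (ℕ × ℕ × ℕ) :=
  ⟨13, 2, [((1, 4, 8), 1)]⟩
def comb4c27 : Comb (ℕ × ℕ × ℕ) :=
  ⟨13, 2, [((1, 5, 7), 1)]⟩
def comb4c28 : Comb (ℕ × ℕ × ℕ) :=
  ⟨13, 4, [((2, 3, 8), 1)]⟩
def comb4c29 : Comb (ℕ × ℕ × ℕ) :=
  ⟨13, 4, [((2, 4, 7), 1)]⟩
def comb4c30 : Comb (ℕ × ℕ × ℕ) :=
  ⟨13, 4, [((2, 5, 6), 1)]⟩
def comb4c31 : Comb (ℕ × ℕ × ℕ) :=
  ⟨13, 8, [((4, 3, 6), -1)]⟩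
def comb4c32 : Comb (ℕ × ℕ × ℕ) :=
  ⟨13, 2, [((3, 3, 7), 1)]⟩
def comb4c33 : Comb (ℕ × ℕ × ℕ) :=
  ⟨13, 8, [((3, 4, 6), 4), ((4, 3, 6), 3)]⟩
def comb4c34 : Comb (ℕ × ℕ × ℕ) :=
  ⟨13, 4, [((4, 4, 5), 1)]⟩
def comb4c35 : Comb (ℕ × ℕ × ℕ) :=
  ⟨14, 2, [((1, 5, 8), 1)]⟩
def comb4c36 : Comb (ℕ × ℕ × ℕ) :=
  ⟨14, 2, [((1, 6, 7), 1)]⟩
def comb4c37 : Comb (ℕ × ℕ × ℕ) :=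
  ⟨14, 4, [((2, 4, 8), 1)]⟩
def comb4c38 : Comb (ℕ × ℕ × ℕ) :=
  ⟨14, 4, [((2, 5, 7), 1)]⟩
def comb4c39 : Comb (ℕ × ℕ × ℕ) :=
  ⟨14, 8, [((4, 3, 7), -1)]⟩
def comb4c40 : Comb (ℕ × ℕ × ℕ) :=
  ⟨14, 20, [((4, 4, 6), -3), ((5, 3, 6), -2)]⟩
def comb4c41 : Comb (ℕ × ℕ × ℕ) :=
  ⟨14, 2, [((3, 3, 8), 1)]⟩
def comb4c42 : Comb (ℕ × ℕ × ℕ) :=
  ⟨14, 8, [((3, 4, 7), 4), ((4, 3, 7), 3)]⟩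
def comb4c43 : Comb (ℕ × ℕ × ℕ) :=
  ⟨14, 20, [((3, 5, 6), 10), ((4, 4, 6), 9), ((5, 3, 6), 6)]⟩
def comb4c44 : Comb (ℕ × ℕ × ℕ) :=
  ⟨14, 4, [((4, 4, 6), 1)]⟩
def comb4c45 : Comb (ℕ × ℕ × ℕ) :=
  ⟨14, 2, [((5, 4, 5), 1)]⟩
def comb4c46 : Comb (ℕ × ℕ × ℕ) :=
  ⟨15, 2, [((1, 6, 8), 1)]⟩
def comb4c47 : Comb (ℕ × ℕ × ℕ) :=
  ⟨15, 4, [((2, 5, 8), 1)]⟩
def comb4c48 : Comb (ℕ × ℕ × ℕ) :=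
  ⟨15, 4, [((2, 6, 7), 1)]⟩
def comb4c49 : Comb (ℕ × ℕ × ℕ) :=
  ⟨15, 8, [((4, 3, 8), -1)]⟩
def comb4c50 : Comb (ℕ × ℕ × ℕ) :=
  ⟨15, 20, [((4, 4, 7), -3), ((5, 3, 7), -2)]⟩
def comb4c51 : Comb (ℕ × ℕ × ℕ) :=
  ⟨15, 4, [((4, 5, 6), -2), ((5, 4, 6), -2), ((6, 3, 6), -1)]⟩
def comb4c52 : Comb (ℕ × ℕ × ℕ) :=
  ⟨15, 8, [((3, 4, 8), 4), ((4, 3, 8), 3)]⟩
def comb4c53 : Comb (ℕ × ℕ × ℕ) :=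
  ⟨15, 20, [((3, 5, 7), 10), ((4, 4, 7), 9), ((5, 3, 7), 6)]⟩
def comb4c54 : Comb (ℕ × ℕ × ℕ) :=
  ⟨15, 4, [((4, 4, 7), 1)]⟩
def comb4c55 : Comb (ℕ × ℕ × ℕ) :=
  ⟨15, 4, [((4, 5, 6), 5), ((5, 4, 6), 4), ((6, 3, 6), 2)]⟩
def comb4c56 : Comb (ℕ × ℕ × ℕ) :=
  ⟨15, 4, [((4, 5, 6), -10), ((5, 4, 6), -8), ((6, 3, 6), -5)]⟩
def comb4c57 : Comb (ℕ × ℕ × ℕ) :=
  ⟨16, 2, [((1, 7, 8), 1)]⟩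
def comb4c58 : Comb (ℕ × ℕ × ℕ) :=
  ⟨16, 4, [((2, 6, 8), 1)]⟩
def comb4c59 : Comb (ℕ × ℕ × ℕ) :=
  ⟨16, 20, [((4, 4, 8), -3), ((5, 3, 8), -2)]⟩
def comb4c60 : Comb (ℕ × ℕ × ℕ) :=
  ⟨16, 56, [((5, 5, 6), 12), ((6, 4, 6), 9), ((7, 3, 6), 4)]⟩
def comb4c61 : Comb (ℕ × ℕ × ℕ) :=
  ⟨16, 56, [((4, 5, 7), -28), ((5, 4, 7), -28), ((5, 5, 6), -36), ((6, 3, 7), -14),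
    ((6, 4, 6), -27), ((7, 3, 6), -12)]⟩
def comb4c62 : Comb (ℕ × ℕ × ℕ) :=
  ⟨16, 20, [((3, 5, 8), 10), ((4, 4, 8), 9), ((5, 3, 8), 6)]⟩
def comb4c63 : Comb (ℕ × ℕ × ℕ) :=
  ⟨16, 56, [((3, 6, 7), 28), ((5, 5, 6), -36), ((6, 4, 6), -27), ((7, 3, 6), -12)]⟩
def comb4c64 : Comb (ℕ × ℕ × ℕ) :=
  ⟨16, 4, [((4, 4, 8), 1)]⟩
def comb4c65 : Comb (ℕ × ℕ × ℕ) :=
  ⟨16, 28, [((4, 5, 7), 35), ((5, 4, 7), 28), ((5, 5, 6), 36), ((6, 3, 7), 14), ((6, 4, 6), 27),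
    ((7, 3, 6), 12)]⟩
def comb4c66 : Comb (ℕ × ℕ × ℕ) :=
  ⟨16, 8, [((6, 4, 6), -1)]⟩
def comb4c67 : Comb (ℕ × ℕ × ℕ) :=
  ⟨16, 56, [((4, 5, 7), -140), ((5, 4, 7), -112), ((5, 5, 6), -180), ((6, 3, 7), -70),
    ((6, 4, 6), -135), ((7, 3, 6), -60)]⟩
def comb4c68 : Comb (ℕ × ℕ × ℕ) :=
  ⟨16, 8, [((5, 5, 6), 4), ((6, 4, 6), 3)]⟩

def comb4 : List (Comb (ℕ × ℕ × ℕ)) :=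
  [comb4c0, comb4c1, comb4c2, comb4c3, comb4c4, comb4c5, comb4c6, comb4c7,
   comb4c8, comb4c9, comb4c10, comb4c11, comb4c12, comb4c13, comb4c14, comb4c15,
   comb4c16, comb4c17, comb4c18, comb4c19, comb4c20, comb4c21, comb4c22, comb4c23,
   comb4c24, comb4c25, comb4c26, comb4c27, comb4c28, comb4c29, comb4c30, comb4c31,
   comb4c32, comb4c33, comb4c34, comb4c35, comb4c36, comb4c37, comb4c38, comb4c39,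
   comb4c40, comb4c41, comb4c42, comb4c43, comb4c44, comb4c45, comb4c46, comb4c47,
   comb4c48, comb4c49, comb4c50, comb4c51, comb4c52, comb4c53, comb4c54, comb4c55,
   comb4c56, comb4c57, comb4c58, comb4c59, comb4c60, comb4c61, comb4c62, comb4c63,
   comb4c64, comb4c65, comb4c66, comb4c67, comb4c68]

end Vale.Agent.P359.Mom.Fock
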