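import Vale.Agent.P359.Mom.CertTab
import Vale.Agent.P359.Mom.CertWinTab

/-!
# P359: evaluation of the window functionals on increasing tuples
-/

namespace Vale.Agent.P359.Mom.Fock

/-- The permutations of three slots with their signs. -/
def perm3 : List ((ℕ × ℕ × ℕ) × ℤ) :=
  [((0, 1, 2), 1), ((0, 2, 1), -1), ((1, 0, 2), -1), ((1, 2, 0), 1), ((2, 0, 1), 1), ((2, 1, 0), -1)]

/-- The permutations of four slots with their signs. -/
def perm4 : List ((ℕ × ℕ × ℕ × ℕ) × ℤ) :=
  [((0, 1, 2, 3), 1), ((0, 1, 3, 2), -1), ((0, 2, 1, 3), -1), ((0, 2, 3, 1), 1),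
   ((0, 3, 1, 2), 1), ((0, 3, 2, 1), -1), ((1, 0, 2, 3), -1), ((1, 0, 3, 2), 1),
   ((1, 2, 0, 3), 1), ((1, 2, 3, 0), -1), ((1, 3, 0, 2), -1), ((1, 3, 2, 0), 1),
   ((2, 0, 1, 3), 1), ((2, 0, 3, 1), -1), ((2, 1, 0, 3), -1), ((2, 1, 3, 0), 1),
   ((2, 3, 0, 1), 1), ((2, 3, 1, 0), -1), ((3, 0, 1, 2), -1), ((3, 0, 2, 1), 1),
   ((3, 1, 0, 2), 1), ((3, 1, 2, 0), -1), ((3, 2, 0, 1), -1), ((3, 2, 1, 0), 1)]

def look {α : Type} [BEq α] (cs : List (α × ℤ)) (p : α) : ℤ :=
  ((cs.filter fun e => e.1 == p).map Prod.snd).sum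

/-- Numerator of the antisymmetrised coefficient on a triple. -/
def ev3Z (C : Comb (ℕ × ℕ)) (x : List ℕ) : ℤ :=
  (perm3.map fun π => π.2 * ((x.getD π.1.2.1 0 : ℤ) - x.getD π.1.1 0) *
    look C.cs (x.getD π.1.1 0 + x.getD π.1.2.1 0, x.getD π.1.2.2 0)).sum

/-- Numerator of the antisymmetrised coefficient on a quadruple. -/
def ev4Z (C : Comb (ℕ × ℕ × ℕ)) (x : List ℕ) : ℤ :=
  (perm4.map fun π => π.2 * ((x.getD π.1.2.1 0 : ℤ) - x.getD π.1.1 0) *
    look C.cs (x.getD π.1.1 0 + x.getD π.1.2.1 0, x.getD π.1.2.2.1 0, x.getD π.1.2.2.2 0)).sum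

def check3 (C : Comb (ℕ × ℕ)) (r : Row) : Bool :=
  decide (0 < C.den) && (C.cs.all fun e => e.1.1 + e.1.2 == C.grade) &&
  (r.all fun e => (bitsL e.1).length == 3 && (bitsL e.1).sum == C.grade) &&
  ((List.range (C.grade + 1)).all fun i => (List.range (C.grade + 1)).all fun j =>
    !(decide (i < j ∧ i + 2 * j < C.grade)) ||
      ev3Z C [i, j, C.grade - i - j] ==
        (if C.grade - i - j < 9 then (C.den : ℤ) * coef r (2 ^ i + 2 ^ j + 2 ^ (C.grade - i - j))
         else 0))

def check4 (C : Comb (ℕ × ℕ × ℕ)) (r : Row) : Bool :=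
  decide (0 < C.den) && (C.cs.all fun e => e.1.1 + e.1.2.1 + e.1.2.2 == C.grade) &&
  (r.all fun e => (bitsL e.1).length == 4 && (bitsL e.1).sum == C.grade) &&
  ((List.range (C.grade + 1)).all fun i => (List.range (C.grade + 1)).all fun j =>
    !(decide (i < j ∧ i + 3 * j + 3 ≤ C.grade)) ||
      (List.range (C.grade + 1)).all fun k =>
        !(decide (j < k ∧ i + j + 2 * k < C.grade)) ||
          ev4Z C [i, j, k, C.grade - i - j - k] ==
            (if C.grade - i - j - k < 9 then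
              (C.den : ℤ) * coef r (2 ^ i + 2 ^ j + 2 ^ k + 2 ^ (C.grade - i - j - k))
             else 0))

/-- Common divisor of the pair differences of sum `s`. -/
def pairDiv (s : ℕ) : ℕ := if s % 2 = 0 then 2 else 1

/-- On pairs: the tabulated functional is the difference divided by `pairDiv`; diagonal coupling. -/
def check2 (T : Sector) : Bool :=
  T.rows.length == 8 &&
  ((List.range 8).all fun a => (T.yr.getD a []).all fun t => t.1 == a) &&
  ((List.range 8).all fun a => (T.rows.getD a []).all fun e => (bitsL e.1).length == 2) &&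
  ((List.range 8).all fun a => (List.range 9).all fun i => (List.range 9).all fun j =>
    !(decide (i < j)) ||
      (pairDiv (a + 1) : ℤ) * coef (T.rows.getD a []) (2 ^ i + 2 ^ j) ==
        (if i + j = a + 1 then (j : ℤ) - i else 0))

def checkWin : Bool :=
  check2 sec2 &&
  (comb3.length == sec3.rows.length) && ((List.zip comb3 sec3.rows).all fun z => check3 z.1 z.2) &&
  (comb4.length == sec4.rows.length) && ((List.zip comb4 sec4.rows).all fun z => check4 z.1 z.2)

/-- A mask is the sum of the powers of two of its elements. -/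
def checkPow : Bool :=
  (List.range 512).all fun P => ((bitsL P).map fun i => 2 ^ i).sum == P

end Vale.Agent.P359.Mom.Fock
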