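import Vale.Agent.P359.Cert.Psd
import Vale.Agent.P359.Mom.CertWinDefs

/-!
# P359: integer tables for the channels of the pair-plus-two moment

For each `L ≤ 15`: null combinations that cut the channel down to the free pairs (columns of `E`), the
planar ladder vectors over those columns as triangular tables indexed by `(s, a)`, their pairings with
the window functionals and the scaled planar channel matrix with its certificate.
-/

namespace Vale.Agent.P359.Mom.Fock

open Cert

/-- A null combination with its multiplier and its row on the lowest vectors. -/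
structure Cut where
  mul : ℤ
  cs : List ((ℕ × ℕ × ℕ) × ℤ)
  row : List ℤ

structure Chan where
  L : ℕ
  scale : ℕ
  free : List ℕ
  E : List (List ℤ)
  cuts : List Cut
  V : List (List (List (List ℤ)))
  val : List (List ℤ)
  M : List (List ℤ)
  M' : List (List ℤ)
  C : List (List ℤ)

def getV (V : List (List ℤ)) (s a : ℕ) : ℤ := (V.getD s []).getD a 0

def addL : List ℤ → List ℤ → List ℤ
  | [], l => l
  | a :: k, [] => a :: k
  | a :: k, b :: l => (a + b) :: addL k l

/-- Row `s` after multiplication by `2 w + z₁ + z₂`. -/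
def stepRow (V : List (List ℤ)) (s : ℕ) : List ℤ :=
  if s = 0 then [] else
    addL ((V.getD (s - 1) []).map fun x => 2 * x) (addL (0 :: V.getD s []) (V.getD s []))

def binT : List (List ℤ) :=
  [[1], [1, 1], [1, 2, 1], [1, 3, 3, 1], [1, 4, 6, 4, 1], [1, 5, 10, 10, 5, 1],
   [1, 6, 15, 20, 15, 6, 1], [1, 7, 21, 35, 35, 21, 7, 1], [1, 8, 28, 56, 70, 56, 28, 8, 1],
   [1, 9, 36, 84, 126, 126, 84, 36, 9, 1], [1, 10, 45, 120, 210, 252, 210, 120, 45, 10, 1],
   [1, 11, 55, 165, 330, 462, 462, 330, 165, 55, 11, 1],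
   [1, 12, 66, 220, 495, 792, 924, 792, 495, 220, 66, 12, 1],
   [1, 13, 78, 286, 715, 1287, 1716, 1716, 1287, 715, 286, 78, 13, 1],
   [1, 14, 91, 364, 1001, 2002, 3003, 3432, 3003, 2002, 1001, 364, 91, 14, 1],
   [1, 15, 105, 455, 1365, 3003, 5005, 6435, 6435, 5005, 3003, 1365, 455, 105, 15, 1]]

/-- The table is the binomial table below sixteen. -/
def checkBin : Bool :=
  (List.range 16).all fun i => (List.range 16).all fun a =>
    (binT.getD i []).getD a 0 == ((i.descFactorial a / Nat.factorial a : ℕ) : ℤ)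

/-- Coefficient of the lowest vector `(i, k)` at `(s, a, b)` of grade `i + k + 1`. -/
def low2Z (i k : ℕ) (p : ℕ × ℕ × ℕ) : ℤ :=
  if p.2.1 ≤ i ∧ p.2.2 ≤ k then
    (if p.1 % 2 = 1 then 1 else -1) * ((binT.getD i []).getD p.2.1 0 * (binT.getD k []).getD p.2.2 0)
  else 0

def checkCuts (c : Chan) : Bool :=
  decide (c.L ≤ 15) && decide (0 < c.scale) && (c.cuts.length == c.L + 1) &&
  (c.free.all fun f => decide (f ≤ c.L)) &&
  (c.cuts.all fun k => k.cs.all fun e => decide (1 ≤ e.1.1) && e.1.1 + e.1.2.1 + e.1.2.2 == c.L + 1) &&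
  (c.cuts.all fun k => check4 ⟨c.L + 1, 1, k.cs⟩ []) &&
  (c.cuts.all fun k => (List.range (c.L + 1)).all fun i =>
    k.row.getD i 0 == (k.cs.map fun e => e.2 * low2Z i (c.L - i) e.1).sum) &&
  ((List.range (c.L + 1)).all fun u => (List.range (c.L + 1)).all fun i =>
    (if u = i then (c.scale : ℤ) else 0) ==
      ((List.range c.free.length).map fun j =>
          if c.free.getD j 0 = i then ent c.E u j else 0).sum
        + (c.cuts.getD u ⟨0, [], []⟩).mul * (c.cuts.getD u ⟨0, [], []⟩).row.getD i 0)

def checkVecs (c : Chan) : Bool :=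
  ((List.range c.free.length).all fun f =>
    let W := c.V.getD f []
    (W.length == 16 - c.L) &&
    ((List.range (16 - c.L)).all fun t =>
      ((W.getD t []).length == c.L + 2 + t) && ((W.getD t []).getD 0 [] == []) &&
      (List.range (c.L + 2 + t)).all fun s =>
        decide (((W.getD t []).getD s []).length ≤ c.L + 2 + t - s)) &&
    ((List.range (c.L + 1)).all fun s => (List.range (c.L + 1 - s)).all fun a =>
      getV (W.getD 0 []) (s + 1) a ==
        ((List.range (c.L + 1)).map fun i =>
          if ent c.E i f = 0 then 0 else ent c.E i f * low2Z i (c.L - i) (s + 1, a, c.L - s - a)).sum) &&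
    ((List.range (15 - c.L)).all fun t =>
      (List.range (c.L + 3 + t)).all fun s =>
        (W.getD (t + 1) []).getD s [] == stepRow (W.getD t []) s))

/-- Least common multiple of the denominators of the four-particle functionals. -/
def den4 : ℕ := 280

def checkVals (c : Chan) : Bool :=
  (List.range 69).all fun a =>
    let K := comb4.getD a ⟨0, 1, []⟩
    (List.range c.free.length).all fun f =>
      ent c.val a f ==
        if K.grade ≤ c.L then 0 else
          ((den4 / K.den : ℕ) : ℤ) *
            (K.cs.map fun e => e.2 * getV ((c.V.getD f []).getD (K.grade - 1 - c.L) []) e.1.1 e.1.2.1).sum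

/-- `∑ₐ (b - a) v(s, a, b)` over a table of grade `L + 1`. -/
def slot (c : Chan) (f s : ℕ) : ℤ :=
  ((List.range (c.L + 2 - s)).map fun a =>
    ((c.L + 1 - s - a : ℕ) - (a : ℤ)) * getV ((c.V.getD f []).getD 0 []) s a).sum

/-- Planar pairing of the two disjoint pairs. -/
def kInt (c : Chan) (f h : ℕ) : ℤ :=
  ((List.range c.L).map fun i =>
    slot c f (i + 1) * slot c h (i + 1) * (Nat.factorial i * Nat.factorial (c.L - 1 - i) : ℕ)).sum

/-- Planar window term. -/
def wInt (c : Chan) (f h : ℕ) : ℤ :=
  ((List.range 69).map fun a =>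
    if (comb4.getD a ⟨0, 1, []⟩).grade ≤ c.L then 0 else
      let t := (comb4.getD a ⟨0, 1, []⟩).grade - 1 - c.L
      ((Nat.factorial (15 - c.L) * 4 ^ (15 - c.L) / (Nat.factorial t * 4 ^ t) : ℕ) : ℤ) *
        (ent c.val a f * ((sec4.yr.getD a []).map fun e => e.2 * ent c.val e.1 h).sum)).sum

def checkMat (c : Chan) : Bool :=
  ((List.range c.free.length).all fun f => (List.range c.free.length).all fun h =>
    (ent c.M f h ==
      2 * (100 * (den4 : ℤ) ^ 2 * (Nat.factorial (15 - c.L) * 4 ^ (15 - c.L) : ℕ)) * kInt c f h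
        - 2 * 2 ^ (c.L + 1) * wInt c f h) &&
    (ent c.M' f h == ent c.M f h - if f = h then 1 else 0)) &&
  checkPsd c.free.length c.M' c.C

/-- Grades and denominators of the four-particle functionals. -/
def checkFour : Bool :=
  (List.range 69).all fun a =>
    let K := comb4.getD a ⟨0, 1, []⟩
    decide (1 ≤ K.grade ∧ K.grade ≤ 16 ∧ 0 < K.den) && (den4 % K.den == 0) &&
    (K.cs.all fun e => decide (1 ≤ e.1.1) && e.1.1 + e.1.2.1 + e.1.2.2 == K.grade) &&
    ((sec4.yr.getD a []).all fun t =>
      decide (t.1 < 69) && (comb4.getD t.1 ⟨0, 1, []⟩).grade == K.grade)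

end Vale.Agent.P359.Mom.Fock
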