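import Vale.Agent.P359.Mom.CertTwoLim
import Mathlib.Analysis.Matrix.PosDef

/-!
# P359: the pair-plus-two channel matrices at every large flux
-/

noncomputable section

open Finset Filter
open scoped Topology Nat

namespace Vale.Agent.P359.Mom.Fock.Two

/-- The four-particle functional `a`. -/
def fn (a : ℕ) : Comb (ℕ × ℕ × ℕ) := comb4.getD a ⟨0, 1, []⟩

theorem keys_two {a : ℕ} (ha : a < 69) :
    1 ≤ (fn a).grade ∧ (fn a).grade ≤ 16 ∧ 0 < (fn a).den ∧ (fn a).den ∣ den4 ∧
    (∀ e ∈ (fn a).cs, 1 ≤ e.1.1 ∧ e.1.1 + e.1.2.1 + e.1.2.2 = (fn a).grade) ∧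
    ∀ t ∈ sec4.yr.getD a [], t.1 < 69 ∧ (fn t.1).grade = (fn a).grade := by
  have h := check_tabFour
  simp only [checkFour, Bool.and_eq_true, List.all_eq_true, List.mem_range, decide_eq_true_eq,
    beq_iff_eq] at h
  obtain ⟨⟨⟨⟨h1, h2, h3⟩, h4⟩, h5⟩, h6⟩ := h a ha
  exact ⟨h1, h2, h3, Nat.dvd_of_mod_eq_zero h4, h5, h6⟩

/-- Functional `a` applied to a vector. -/
def act (a : ℕ) (f : J2 → ℝ) : ℝ :=
  ((fn a).cs.map fun e => (e.2 : ℝ) * f e.1).sum / (fn a).den

theorem sum_c4 {Q a : ℕ} (ha : a < 69) (hQ : 16 ≤ Q) (f : J2 → ℝ) :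
    ∑ p ∈ I2 Q, c4 a p * f p = act a f := by
  obtain ⟨-, hg, -, -, hk, -⟩ := keys_two ha
  rw [act, ← sum_look _ (I2 Q) f fun e he => ?_, sum_div]
  · exact sum_congr rfl fun p _ => by rw [c4, fn]; ring
  · have := hk e he
    simp only [I2, mem_product, mem_range]
    omega

theorem act_sum {ι : Type*} (a : ℕ) (F : Finset ι) (c : ι → ℝ) (f : ι → J2 → ℝ) :
    act a (fun p => ∑ i ∈ F, c i * f i p) = ∑ i ∈ F, c i * act a (f i) := by
  simp only [act]
  induction (fn a).cs with
  | nil => simp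
  | cons e l ih =>
      simp only [List.map_cons, List.sum_cons, add_div, mul_add, sum_add_distrib, ih]
      congr 1
      rw [mul_sum, sum_div]
      exact sum_congr rfl fun i _ => by ring

/-- The window operator between the vectors over two lowest vectors of the channel `L`. -/
def w2 (Q L : ℕ) (u v : ℕ × ℕ) : ℝ :=
  ∑ a ∈ range 69, if L + 1 ≤ (fn a).grade then
    act a (vec2 Q u ((fn a).grade - 1 - L))
      * ((sec4.yr.getD a []).map fun t =>
          (t.2 : ℝ) * act t.1 (vec2 Q v ((fn a).grade - 1 - L))).sum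
      / 100 / lad Q (spin2 Q L) ((fn a).grade - 1 - L)
  else 0

/-- The two pairs of a vector. -/
def slotR (f : J2 → ℝ) (s t : ℕ) : ℝ :=
  ∑ x ∈ range (t + 1), (((t - x : ℕ) : ℝ) - x) * f (s, x, t - x)

/-- The disjoint-pair form between two lowest vectors. -/
def k2 (Q : ℕ) (u v : ℕ × ℕ) : ℝ :=
  ∑ s ∈ I0 Q, ∑ t ∈ I0 Q, slotR (low2 u) s t * slotR (low2 v) s t / (pn Q s * pn Q t)

theorem slotR_sum {ι : Type*} (F : Finset ι) (c : ι → ℝ) (f : ι → J2 → ℝ) (s t : ℕ) :
    slotR (fun p => ∑ i ∈ F, c i * f i p) s t = ∑ i ∈ F, c i * slotR (f i) s t := by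
  simp only [slotR, mul_sum]
  rw [sum_comm]
  exact sum_congr rfl fun i _ => sum_congr rfl fun x _ => by ring

theorem slotR_low2 (u : ℕ × ℕ) {s t : ℕ} (h : ¬(1 ≤ s ∧ 1 ≤ t ∧ s + t = u.1 + u.2 + 1)) :
    slotR (low2 u) s t = 0 := by
  rcases Nat.eq_zero_or_pos t with rfl | ht
  · simp [slotR]
  · refine sum_eq_zero fun x hx => ?_
    rw [mem_range] at hx
    rw [low2, if_neg (by dsimp only; omega), mul_zero]

theorem k2_eq {Q : ℕ} {u v : ℕ × ℕ} (hu : u.1 + u.2 + 1 ≤ Q) :
    k2 Q u v = ∑ i ∈ range (u.1 + u.2),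
      slotR (low2 u) (i + 1) (u.1 + u.2 - i) * slotR (low2 v) (i + 1) (u.1 + u.2 - i)
        / (pn Q (i + 1) * pn Q (u.1 + u.2 - i)) := by
  rw [k2]
  refine (sum_subset (s₁ := (range (u.1 + u.2)).image (· + 1)) (fun s hs => ?_)
    (fun s _ hs => ?_)).symm.trans ?_
  · obtain ⟨i, hi, rfl⟩ := mem_image.1 hs
    rw [mem_range] at hi
    exact mem_range.2 (by omega)
  · refine sum_eq_zero fun t _ => ?_
    rw [slotR_low2 u (fun h => hs (mem_image.2 ⟨s - 1, mem_range.2 (by omega), by omega⟩))]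
    simp
  · rw [sum_image fun a _ b _ h => Nat.add_right_cancel h]
    refine sum_congr rfl fun i hi => ?_
    rw [mem_range] at hi
    rw [sum_eq_single (u.1 + u.2 - i)]
    · intro t _ ht
      rw [slotR_low2 u (by omega)]
      simp
    · intro h
      exact absurd (mem_range.2 (by omega)) h

theorem tendsto_pn (i : ℕ) :
    Tendsto (fun Q => pn Q (i + 1)) atTop (𝓝 (2 ^ (i + 1) / (i ! : ℝ))) := by
  have hC := Sphere.tendsto_choose_div (f := fun Q => 2 * Q - 2) (a := 2)
    (by simpa using Sphere.tendsto_linear 2 2) i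
  have h := hC.const_mul (2 : ℝ)
  rw [show (2 : ℝ) * (2 ^ i / (i ! : ℝ)) = 2 ^ (i + 1) / (i ! : ℝ) by rw [pow_succ]; ring] at h
  refine h.congr' ?_
  filter_upwards [eventually_ge_atTop 1] with Q hQ
  rw [pn_eq Q i hQ, Sphere.cP]
  ring

/-- Planar `k2`. -/
def k2Lim (u v : ℕ × ℕ) : ℝ :=
  ∑ i ∈ range (u.1 + u.2),
    slotR (low2 u) (i + 1) (u.1 + u.2 - i) * slotR (low2 v) (i + 1) (u.1 + u.2 - i)
      / ((2 ^ (i + 1) / (i ! : ℝ)) * (2 ^ (u.1 + u.2 - i) / ((u.1 + u.2 - i - 1) ! : ℝ)))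

theorem tendsto_k2 (u v : ℕ × ℕ) : Tendsto (fun Q => k2 Q u v) atTop (𝓝 (k2Lim u v)) := by
  have h : Tendsto (fun Q => ∑ i ∈ range (u.1 + u.2),
      slotR (low2 u) (i + 1) (u.1 + u.2 - i) * slotR (low2 v) (i + 1) (u.1 + u.2 - i)
        / (pn Q (i + 1) * pn Q (u.1 + u.2 - i))) atTop (𝓝 (k2Lim u v)) := by
    refine tendsto_finsetSum _ fun i hi => tendsto_const_nhds.div ?_ (by positivity)
    rw [mem_range] at hi
    have h2 := tendsto_pn (u.1 + u.2 - i - 1)
    rw [show u.1 + u.2 - i - 1 + 1 = u.1 + u.2 - i by omega] at h2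
    exact (tendsto_pn i).mul h2
  refine h.congr' ?_
  filter_upwards [eventually_ge_atTop (u.1 + u.2 + 1)] with Q hQ
  rw [k2_eq hQ]

/-- Planar `w2`. -/
def w2Lim (L : ℕ) (u v : ℕ × ℕ) : ℝ :=
  ∑ a ∈ range 69, if L + 1 ≤ (fn a).grade then
    act a (upLim^[(fn a).grade - 1 - L] (low2 u))
      * ((sec4.yr.getD a []).map fun t =>
          (t.2 : ℝ) * act t.1 (upLim^[(fn a).grade - 1 - L] (low2 v))).sum
      / 100 / ((((fn a).grade - 1 - L) ! : ℝ) * 4 ^ ((fn a).grade - 1 - L))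
  else 0

theorem tendsto_act (a : ℕ) (u : ℕ × ℕ) (t : ℕ) :
    Tendsto (fun Q => act a (vec2 Q u t)) atTop (𝓝 (act a (upLim^[t] (low2 u)))) :=
  (tendsto_list_sum _ fun e _ => tendsto_const_nhds.mul (tendsto_vec2 u t e.1)).div_const _

theorem tendsto_w2 (L : ℕ) (u v : ℕ × ℕ) :
    Tendsto (fun Q => w2 Q L u v) atTop (𝓝 (w2Lim L u v)) := by
  refine tendsto_finsetSum _ fun a _ => ?_
  by_cases h : L + 1 ≤ (fn a).grade
  · simp only [if_pos h]
    exact (((tendsto_act a u _).mul (tendsto_list_sum _ fun t _ =>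
      tendsto_const_nhds.mul (tendsto_act t.1 v _))).div_const _).div (tendsto_lad L _)
        (by positivity)
  · simp [h]

/-- The channel matrix at flux `Q`, per unit of `Q`. -/
def chanMat (Q L : ℕ) (u v : ℕ × ℕ) : ℝ :=
  ((spin2 Q L : ℝ) + 1) / Q / 2 * k2 Q u v - 2 * w2 Q L u v

theorem tendsto_chanMat (L : ℕ) (u v : ℕ × ℕ) :
    Tendsto (fun Q => chanMat Q L u v) atTop (𝓝 (2 * k2Lim u v - 2 * w2Lim L u v)) := by
  have h4 : Tendsto (fun Q => ((spin2 Q L : ℝ) + 1) / Q) atTop (𝓝 4) := by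
    have h1 := (Sphere.tendsto_linear 4 (2 + 2 * L)).add
      (tendsto_natCast_atTop_atTop.const_div_atTop (1 : ℝ))
    simp only [Nat.cast_ofNat, add_zero] at h1
    refine h1.congr fun Q => ?_
    rw [spin2, Nat.sub_sub, add_div]
  have h := ((h4.div_const 2).mul (tendsto_k2 u v)).sub ((tendsto_w2 L u v).const_mul 2)
  rwa [show (4 : ℝ) / 2 = 2 by norm_num] at h

/-! ### the restriction to the free pairs -/

/-- The pair `(i, L - i)`. -/
def pr (c : Chan) (i : ℕ) : ℕ × ℕ := (i, c.L - i)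

/-- The channel matrix between two free directions. -/
def red (Q : ℕ) (c : Chan) (f h : ℕ) : ℝ :=
  ∑ i ∈ range (c.L + 1), ∑ j ∈ range (c.L + 1),
    (Cert.ent c.E i f : ℝ) * Cert.ent c.E j h * chanMat Q c.L (pr c i) (pr c j)

/-- Its planar value. -/
def redLim (c : Chan) (f h : ℕ) : ℝ :=
  ∑ i ∈ range (c.L + 1), ∑ j ∈ range (c.L + 1),
    (Cert.ent c.E i f : ℝ) * Cert.ent c.E j h
      * (2 * k2Lim (pr c i) (pr c j) - 2 * w2Lim c.L (pr c i) (pr c j))

theorem tendsto_red (c : Chan) (f h : ℕ) :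
    Tendsto (fun Q => red Q c f h) atTop (𝓝 (redLim c f h)) :=
  tendsto_finsetSum _ fun i _ => tendsto_finsetSum _ fun j _ =>
    (tendsto_chanMat c.L _ _).const_mul _

theorem slot_eq (c : Chan) (hL : c.L ≤ 15) (hv : checkVecs c = true) {f : ℕ}
    (hf : f < c.free.length) {i : ℕ} (hi : i < c.L) :
    slotR (base c f) (i + 1) (c.L - i) = (slot c f (i + 1) : ℝ) := by
  rw [slot, range_map_sum, Int.cast_sum, slotR, show c.L + 2 - (i + 1) = c.L - i + 1 by omega]
  refine sum_congr rfl fun x hx => ?_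
  rw [mem_range] at hx
  rw [base_eq c hL hv hf, semV, if_pos (by dsimp only; omega),
    show c.L + 1 - (i + 1) - x = c.L - i - x by omega]
  unfold tab
  push_cast
  rfl

theorem k2_red (c : Chan) (hL : c.L ≤ 15) (hv : checkVecs c = true) {f h : ℕ}
    (hf : f < c.free.length) (hh : h < c.free.length) :
    ∑ i ∈ range (c.L + 1), ∑ j ∈ range (c.L + 1),
      (Cert.ent c.E i f : ℝ) * Cert.ent c.E j h * k2Lim (pr c i) (pr c j)
      = (kInt c f h : ℝ) / 2 ^ (c.L + 1) := by
  have e : ∀ i ∈ range (c.L + 1), (pr c i).1 + (pr c i).2 = c.L := fun i hi => by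
    rw [mem_range] at hi; simp only [pr]; omega
  calc ∑ i ∈ range (c.L + 1), ∑ j ∈ range (c.L + 1),
      (Cert.ent c.E i f : ℝ) * Cert.ent c.E j h * k2Lim (pr c i) (pr c j)
      = ∑ x ∈ range c.L, slotR (base c f) (x + 1) (c.L - x) * slotR (base c h) (x + 1) (c.L - x)
          / ((2 ^ (x + 1) / (x ! : ℝ)) * (2 ^ (c.L - x) / ((c.L - x - 1) ! : ℝ))) := by
        have hb : ∀ f, base c f = fun p =>
            ∑ i ∈ range (c.L + 1), (Cert.ent c.E i f : ℝ) * low2 (pr c i) p := fun _ => rfl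
        simp only [hb, slotR_sum, sum_mul_sum, sum_div]
        rw [sum_comm (s := range c.L)]
        refine sum_congr rfl fun i hi => ?_
        rw [sum_comm (s := range c.L)]
        refine sum_congr rfl fun j hj => ?_
        rw [k2Lim, e i hi, mul_sum]
        exact sum_congr rfl fun x _ => by simp only [pr]; ring
    _ = _ := by
        rw [kInt, range_map_sum, Int.cast_sum, sum_div]
        refine sum_congr rfl fun x hx => ?_
        rw [mem_range] at hx
        rw [slot_eq c hL hv hf hx, slot_eq c hL hv hh hx,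
          show c.L - 1 - x = c.L - x - 1 by omega]
        have hp : (2 : ℝ) ^ (c.L + 1) = 2 ^ (x + 1) * 2 ^ (c.L - x) := by
          rw [← pow_add]; congr 1; omega
        rw [hp]
        push_cast
        field_simp

theorem val_eq (c : Chan) (hL : c.L ≤ 15) (hv : checkVecs c = true) (hval : checkVals c = true)
    {a : ℕ} (ha : a < 69) {f : ℕ} (hf : f < c.free.length) (hg : c.L + 1 ≤ (fn a).grade) :
    ∑ i ∈ range (c.L + 1), (Cert.ent c.E i f : ℝ)
        * act a (upLim^[(fn a).grade - 1 - c.L] (low2 (pr c i)))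
      = (Cert.ent c.val a f : ℝ) / den4 := by
  obtain ⟨-, hg16, hden, hdvd, hk, -⟩ := keys_two ha
  rw [← act_sum, show (fun p => ∑ i ∈ range (c.L + 1), (Cert.ent c.E i f : ℝ)
      * upLim^[(fn a).grade - 1 - c.L] (low2 (pr c i)) p)
      = upLim^[(fn a).grade - 1 - c.L] (base c f) from funext fun p => (upLim_sum _ _ _ _ p).symm,
    upLim_base c hL hv hf _ (by omega)]
  simp only [checkVals, List.all_eq_true, List.mem_range, beq_iff_eq] at hval
  have h := hval a ha f hf
  change Cert.ent c.val a f = if (fn a).grade ≤ c.L then 0 else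
    ((den4 / (fn a).den : ℕ) : ℤ) * ((fn a).cs.map fun e =>
      e.2 * getV ((c.V.getD f []).getD ((fn a).grade - 1 - c.L) []) e.1.1 e.1.2.1).sum at h
  rw [if_neg (by omega)] at h
  have hsum : ((fn a).cs.map fun e => (e.2 : ℝ)
        * semV (c.L + 1 + ((fn a).grade - 1 - c.L)) (tab c f ((fn a).grade - 1 - c.L)) e.1).sum
      = ((((fn a).cs.map fun e =>
          e.2 * getV ((c.V.getD f []).getD ((fn a).grade - 1 - c.L) []) e.1.1 e.1.2.1).sum : ℤ) : ℝ) := by
    rw [Int.cast_list_sum, List.map_map, Function.comp_def]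
    refine congrArg List.sum (List.map_congr_left fun e he => ?_)
    obtain ⟨h1, h2⟩ := hk e he
    rw [semV, if_pos ⟨h1, by omega⟩, Int.cast_mul]
    rfl
  have hd : ((fn a).den : ℝ) ≠ 0 := by exact_mod_cast hden.ne'
  rw [act, hsum, h, Int.cast_mul, Int.cast_natCast, Nat.cast_div hdvd hd]
  have : (den4 : ℝ) ≠ 0 := by simp [den4]
  field_simp

theorem w2_red (c : Chan) (hL : c.L ≤ 15) (hv : checkVecs c = true) (hval : checkVals c = true)
    {f h : ℕ} (hf : f < c.free.length) (hh : h < c.free.length) :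
    ∑ i ∈ range (c.L + 1), ∑ j ∈ range (c.L + 1),
      (Cert.ent c.E i f : ℝ) * Cert.ent c.E j h * w2Lim c.L (pr c i) (pr c j)
      = (wInt c f h : ℝ) / (100 * (den4 : ℝ) ^ 2
          * (((15 - c.L) ! * 4 ^ (15 - c.L) : ℕ) : ℝ)) := by
  simp only [w2Lim, mul_sum]
  conv_lhs => enter [2, i]; rw [sum_comm]
  rw [sum_comm, wInt, range_map_sum, Int.cast_sum, sum_div]
  refine sum_congr rfl fun a ha => ?_
  rw [mem_range] at ha
  obtain ⟨-, hg16, -, -, -, hy⟩ := keys_two ha
  change _ = (((if (fn a).grade ≤ c.L then 0 else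
    (((15 - c.L) ! * 4 ^ (15 - c.L)
      / (((fn a).grade - 1 - c.L) ! * 4 ^ ((fn a).grade - 1 - c.L)) : ℕ) : ℤ) *
      (Cert.ent c.val a f * ((sec4.yr.getD a []).map fun e => e.2 * Cert.ent c.val e.1 h).sum)
      : ℤ) : ℝ)) / _
  by_cases hg : c.L + 1 ≤ (fn a).grade
  · simp only [if_pos hg, if_neg (show ¬(fn a).grade ≤ c.L by omega)]
    set t := (fn a).grade - 1 - c.L with ht
    have hb : ((sec4.yr.getD a []).map fun e =>
          (e.2 : ℝ) * ((Cert.ent c.val e.1 h : ℝ) / den4)).sum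
        = ∑ j ∈ range (c.L + 1), (Cert.ent c.E j h : ℝ) * ((sec4.yr.getD a []).map fun e =>
          (e.2 : ℝ) * act e.1 (upLim^[t] (low2 (pr c j)))).sum := by
      generalize sec4.yr.getD a [] = l at hy ⊢
      induction l with
      | nil => simp
      | cons e l ih =>
          simp only [List.map_cons, List.sum_cons, mul_add, sum_add_distrib]
          rw [ih fun x hx => hy x (List.mem_cons_of_mem _ hx)]
          obtain ⟨he, heg⟩ := hy e List.mem_cons_self
          have hv' := val_eq c hL hv hval he hh (by omega)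
          rw [heg, ← ht] at hv'
          rw [← hv', mul_sum]
          congr 1
          exact sum_congr rfl fun j _ => by ring
    have ha' := val_eq c hL hv hval ha hf hg
    rw [← ht] at ha'
    calc ∑ i ∈ range (c.L + 1), ∑ j ∈ range (c.L + 1), (Cert.ent c.E i f : ℝ) * Cert.ent c.E j h
        * (act a (upLim^[t] (low2 (pr c i))) * ((sec4.yr.getD a []).map fun e =>
            (e.2 : ℝ) * act e.1 (upLim^[t] (low2 (pr c j)))).sum / 100 / ((t ! : ℝ) * 4 ^ t))
        = (∑ i ∈ range (c.L + 1), (Cert.ent c.E i f : ℝ) * act a (upLim^[t] (low2 (pr c i))))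
          * (∑ j ∈ range (c.L + 1), (Cert.ent c.E j h : ℝ) * ((sec4.yr.getD a []).map fun e =>
            (e.2 : ℝ) * act e.1 (upLim^[t] (low2 (pr c j)))).sum) / 100 / ((t ! : ℝ) * 4 ^ t) := by
          simp only [sum_mul_sum, sum_div]
          exact sum_congr rfl fun i _ => sum_congr rfl fun j _ => by ring
      _ = _ := by
          rw [ha', ← hb]
          simp only [div_eq_mul_inv, ← mul_assoc, List.sum_map_mul_right]
          rw [Int.cast_mul, Int.cast_mul, Int.cast_natCast, Int.cast_list_sum, List.map_map,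
            Function.comp_def]
          simp only [Int.cast_mul]
          have hdvd : t ! * 4 ^ t ∣ (15 - c.L) ! * 4 ^ (15 - c.L) :=
            Nat.mul_dvd_mul (Nat.factorial_dvd_factorial (by omega)) (pow_dvd_pow 4 (by omega))
          rw [Nat.cast_div hdvd (by positivity)]
          have : (den4 : ℝ) ≠ 0 := by simp [den4]
          push_cast
          field_simp
  · simp only [if_neg hg, if_pos (show (fn a).grade ≤ c.L by omega)]
    simp

/-- Positivity of the channel on the free pairs. -/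
theorem eventually_red (c : Chan) (hL : c.L ≤ 15) (hv : checkVecs c = true)
    (hval : checkVals c = true) (hm : checkMat c = true) :
    ∀ᶠ Q in atTop, ∀ x : Fin c.free.length → ℝ,
      0 ≤ ∑ f : Fin c.free.length, ∑ h : Fin c.free.length, red Q c f h * x f * x h := by
  simp only [checkMat, Bool.and_eq_true, List.all_eq_true, List.mem_range, beq_iff_eq] at hm
  obtain ⟨hent, hpsd⟩ := hm
  set P : ℝ := 100 * (den4 : ℝ) ^ 2 * (((15 - c.L) ! * 4 ^ (15 - c.L) : ℕ) : ℝ) with hP
  have hP0 : 0 < P := by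
    have : (0 : ℝ) < den4 := by simp [den4]
    positivity
  have hM : ∀ f h : Fin c.free.length,
      redLim c f h = (Cert.ent c.M f h : ℝ) / (P * 2 ^ (c.L + 1)) := by
    intro f h
    rw [(hent f f.isLt h h.isLt).1]
    simp only [redLim, mul_sub, sum_sub_distrib]
    have e1 : ∀ i j : ℕ, (Cert.ent c.E i f : ℝ) * Cert.ent c.E j h * (2 * k2Lim (pr c i) (pr c j))
        = 2 * ((Cert.ent c.E i f : ℝ) * Cert.ent c.E j h * k2Lim (pr c i) (pr c j)) :=
      fun i j => by ring
    have e2 : ∀ i j : ℕ, (Cert.ent c.E i f : ℝ) * Cert.ent c.E j h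
          * (2 * w2Lim c.L (pr c i) (pr c j))
        = 2 * ((Cert.ent c.E i f : ℝ) * Cert.ent c.E j h * w2Lim c.L (pr c i) (pr c j)) :=
      fun i j => by ring
    simp only [e1, e2, ← mul_sum]
    rw [k2_red c hL hv f.isLt h.isLt, w2_red c hL hv hval f.isLt h.isLt, ← hP]
    simp only [Int.cast_sub, Int.cast_mul, Int.cast_pow, Int.cast_ofNat, Int.cast_natCast, ← hP]
    field_simp
  refine Sphere.eventually_form_nonneg (fun Q (f h : Fin c.free.length) => red Q c f h)
    (fun f h => redLim c f h)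
    (1 / (P * 2 ^ (c.L + 1))) (by positivity) (fun f h => tendsto_red c f h) fun x => ?_
  have hm' := Cert.psd_margin_of_check (M := c.M) (e := 1)
    (fun f h => by simpa [Fin.ext_iff] using (hent f f.isLt h h.isLt).2) hpsd x
  simp only [hM, div_mul_eq_mul_div, ← sum_div, one_mul, Int.cast_one] at hm' ⊢
  gcongr

end Vale.Agent.P359.Mom.Fock.Two
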