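import Vale.Agent.P359.Mom.CertOne
import Vale.Agent.P359.Mom.CertTwoCheckA
import Vale.Agent.P359.Mom.CertTwoCheckB
import Vale.Agent.P359.Mom.CertTwoCheckC
import Vale.Agent.P359.Mom.CertTwoCheckD
import Vale.Agent.P359.Mom.CertTwoCheckE

/-!
# P359: planar limits in the pair-plus-two channels
-/

noncomputable section

open Finset Filter
open scoped Topology Nat

namespace Vale.Agent.P359.Mom.Fock.Two

/-- The planar ladder: multiplication by `2 w + z₁ + z₂`. -/
def upLim (f : J2 → ℝ) (p : J2) : ℝ :=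
  (if 2 ≤ p.1 then 2 else 0) * f (p.1 - 1, p.2.1, p.2.2)
    + (if 1 ≤ p.2.1 then 1 else 0) * f (p.1, p.2.1 - 1, p.2.2)
    + (if 1 ≤ p.2.2 then 1 else 0) * f (p.1, p.2.1, p.2.2 - 1)

theorem tendsto_uR (s : ℕ) :
    Tendsto (fun Q => uR Q s) atTop (𝓝 (if 2 ≤ s then 2 else 0)) := by
  unfold uR
  split_ifs with h
  · simpa using Sphere.tendsto_linear 2 s
  · exact tendsto_const_nhds

theorem tendsto_uO (a : ℕ) :
    Tendsto (fun Q => uO Q a) atTop (𝓝 (if 1 ≤ a then 1 else 0)) := by
  unfold uO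
  split_ifs with h
  · have h1 := Sphere.tendsto_linear 1 (a - 1)
    simp only [Nat.cast_one] at h1
    refine h1.congr fun Q => ?_
    rw [show 1 * Q - (a - 1) = Q + 1 - a by omega]
  · exact tendsto_const_nhds

theorem tendsto_vec2 (u : ℕ × ℕ) : ∀ (t : ℕ) (p : J2),
    Tendsto (fun Q => vec2 Q u t p) atTop (𝓝 (upLim^[t] (low2 u) p))
  | 0, p => tendsto_const_nhds
  | t + 1, p => by
      simp only [vec2, Function.iterate_succ_apply']
      exact (((tendsto_uR p.1).mul (tendsto_vec2 u t _)).add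
        ((tendsto_uO p.2.1).mul (tendsto_vec2 u t _))).add
        ((tendsto_uO p.2.2).mul (tendsto_vec2 u t _))

theorem tendsto_lad (L t : ℕ) :
    Tendsto (fun Q => lad Q (spin2 Q L) t) atTop (𝓝 ((t ! : ℝ) * 4 ^ t)) := by
  have h4 : Tendsto (fun Q => (spin2 Q L : ℝ) / Q) atTop (𝓝 4) := by
    have h1 := Sphere.tendsto_linear 4 (2 + 2 * L)
    simp only [Nat.cast_ofNat] at h1
    refine h1.congr fun Q => ?_
    rw [spin2, Nat.sub_sub]
  have h : ∀ i : ℕ, Tendsto (fun Q => ((i : ℝ) + 1) * ((spin2 Q L : ℝ) - i) / Q) atTop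
      (𝓝 (((i : ℝ) + 1) * (4 - 0))) := by
    intro i
    refine (tendsto_const_nhds.mul (h4.sub
      (tendsto_natCast_atTop_atTop.const_div_atTop (i : ℝ)))).congr fun Q => ?_
    ring
  have h2 := tendsto_finsetProd (range t) fun i _ => h i
  simp only [sub_zero, prod_mul_distrib, prod_const, card_range] at h2
  rw [← prod_range_add_one_eq_factorial, Nat.cast_prod]
  push_cast
  exact h2

theorem upLim_sum {ι : Type*} (F : Finset ι) (c : ι → ℝ) (f : ι → J2 → ℝ) :
    ∀ (t : ℕ) (p : J2), upLim^[t] (fun q => ∑ i ∈ F, c i * f i q) p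
      = ∑ i ∈ F, c i * upLim^[t] (f i) p
  | 0, p => rfl
  | t + 1, p => by
      simp only [Function.iterate_succ_apply']
      simp only [upLim, upLim_sum F c f t, mul_sum, ← sum_add_distrib]
      exact sum_congr rfl fun i _ => by ring

/-! ### the tables -/

theorem getD_addL : ∀ (k l : List ℤ) (i : ℕ), (addL k l).getD i 0 = k.getD i 0 + l.getD i 0
  | [], l, i => by simp [addL]
  | a :: k, [], i => by simp [addL]
  | a :: k, b :: l, 0 => by simp [addL]
  | a :: k, b :: l, i + 1 => by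
      rw [addL, List.getD_cons_succ, List.getD_cons_succ, List.getD_cons_succ, getD_addL k l i]

theorem getD_stepRow (V : List (List ℤ)) (s a : ℕ) :
    (stepRow V s).getD a 0 = if s = 0 then 0 else
      2 * getV V (s - 1) a + ((if a = 0 then 0 else getV V s (a - 1)) + getV V s a) := by
  unfold stepRow
  split_ifs with hs ha
  · simp
  · subst ha
    rw [getD_addL, getD_addL, ← mul_zero (2 : ℤ), List.getD_map]
    simp [getV]
  · obtain ⟨b, rfl⟩ : ∃ b, a = b + 1 := ⟨a - 1, by omega⟩
    rw [getD_addL, getD_addL, List.getD_cons_succ, ← mul_zero (2 : ℤ), List.getD_map]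
    simp [getV]

/-- The table of `f` after `t` steps. -/
def tab (c : Chan) (f t : ℕ) : List (List ℤ) := (c.V.getD f []).getD t []

/-- The vector of a table of grade `g`. -/
def semV (g : ℕ) (V : List (List ℤ)) (p : J2) : ℝ :=
  if 1 ≤ p.1 ∧ p.1 + p.2.1 + p.2.2 = g then (getV V p.1 p.2.1 : ℝ) else 0

theorem semV_step (g : ℕ) (V W : List (List ℤ)) (h0 : V.getD 0 [] = [])
    (hlen : ∀ s, (V.getD s []).length ≤ g + 1 - s)
    (hW : ∀ s < g + 2, W.getD s [] = stepRow V s) :
    upLim (semV g V) = semV (g + 1) W := by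
  funext ⟨s, a, b⟩
  simp only [upLim, semV]
  by_cases hp : 1 ≤ s ∧ s + a + b = g + 1
  · rw [if_pos hp]
    have e : (getV W s a : ℝ) = 2 * (getV V (s - 1) a : ℝ)
        + ((if a = 0 then 0 else (getV V s (a - 1) : ℝ)) + (getV V s a : ℝ)) := by
      have : getV W s a = (stepRow V s).getD a 0 := by rw [getV, hW s (by omega)]
      rw [this, getD_stepRow, if_neg (by omega)]
      push_cast
      split_ifs <;> simp
    rw [e]
    have h1 : (if 2 ≤ s then (2 : ℝ) else 0) *
        (if 1 ≤ s - 1 ∧ s - 1 + a + b = g then (getV V (s - 1) a : ℝ) else 0)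
        = 2 * (getV V (s - 1) a : ℝ) := by
      by_cases h2 : 2 ≤ s
      · rw [if_pos h2, if_pos (by omega)]
      · rw [if_neg h2, show s - 1 = 0 by omega, show getV V 0 a = 0 by rw [getV, h0]; simp]
        simp
    have h2 : (if 1 ≤ a then (1 : ℝ) else 0) *
        (if 1 ≤ s ∧ s + (a - 1) + b = g then (getV V s (a - 1) : ℝ) else 0)
        = if a = 0 then 0 else (getV V s (a - 1) : ℝ) := by
      by_cases h2 : a = 0
      · simp [h2]
      · rw [if_pos (by omega), if_neg h2, if_pos (by omega), one_mul]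
    have h3 : (if 1 ≤ b then (1 : ℝ) else 0) *
        (if 1 ≤ s ∧ s + a + (b - 1) = g then (getV V s a : ℝ) else 0) = (getV V s a : ℝ) := by
      by_cases h2 : 1 ≤ b
      · rw [if_pos h2, if_pos (by omega), one_mul]
      · rw [if_neg h2, zero_mul,
          show getV V s a = 0 from List.getD_eq_default _ _ (by have := hlen s; omega)]
        simp
    rw [h1, h2, h3]
    ring
  · rw [if_neg hp]
    have h1 : (if 2 ≤ s then (2 : ℝ) else 0) *
        (if 1 ≤ s - 1 ∧ s - 1 + a + b = g then (getV V (s - 1) a : ℝ) else 0) = 0 := by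
      by_cases h2 : 2 ≤ s
      · rw [if_neg (show ¬(1 ≤ s - 1 ∧ s - 1 + a + b = g) by omega), mul_zero]
      · rw [if_neg h2, zero_mul]
    have h2 : (if 1 ≤ a then (1 : ℝ) else 0) *
        (if 1 ≤ s ∧ s + (a - 1) + b = g then (getV V s (a - 1) : ℝ) else 0) = 0 := by
      by_cases h2 : 1 ≤ a
      · rw [if_neg (show ¬(1 ≤ s ∧ s + (a - 1) + b = g) by omega), mul_zero]
      · rw [if_neg h2, zero_mul]
    have h3 : (if 1 ≤ b then (1 : ℝ) else 0) *
        (if 1 ≤ s ∧ s + a + (b - 1) = g then (getV V s a : ℝ) else 0) = 0 := by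
      by_cases h2 : 1 ≤ b
      · rw [if_neg (show ¬(1 ≤ s ∧ s + a + (b - 1) = g) by omega), mul_zero]
      · rw [if_neg h2, zero_mul]
    rw [h1, h2, h3, add_zero, add_zero]

theorem binT_eq {i a : ℕ} (hi : i < 16) (ha : a < 16) :
    (binT.getD i []).getD a 0 = (i.choose a : ℤ) := by
  have h := check_bin
  simp only [checkBin, List.all_eq_true, List.mem_range, beq_iff_eq] at h
  rw [h i hi a ha, ← Nat.choose_eq_descFactorial_div_factorial]

theorem low2Z_eq {i k : ℕ} (hi : i < 16) (hk : k < 16) (p : J2) (hs : 1 ≤ p.1)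
    (hg : p.1 + p.2.1 + p.2.2 = i + k + 1) : (low2Z i k p : ℝ) = low2 (i, k) p := by
  by_cases h : p.2.1 ≤ i ∧ p.2.2 ≤ k
  · rw [low2Z, if_pos h, low2, if_pos (show 1 ≤ p.1 ∧ _ from ⟨hs, hg, h.1, h.2⟩),
      binT_eq hi (by omega), binT_eq hk (by omega)]
    obtain ⟨n, hn⟩ : ∃ n, p.1 = n + 1 := ⟨p.1 - 1, by omega⟩
    rw [hn, Nat.add_sub_cancel, neg_one_pow_eq_ite]
    simp only [Nat.even_iff]
    by_cases h2 : n % 2 = 0
    · rw [if_pos h2, if_pos (show (n + 1) % 2 = 1 by omega)]; push_cast; ring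
    · rw [if_neg h2, if_neg (show ¬(n + 1) % 2 = 1 by omega)]; push_cast; ring
  · rw [low2Z, if_neg h, low2, if_neg (fun hc => h ⟨hc.2.2.1, hc.2.2.2⟩)]
    simp

/-- The `f`-th free direction over the lowest vectors. -/
def base (c : Chan) (f : ℕ) (p : J2) : ℝ :=
  ∑ i ∈ range (c.L + 1), (Cert.ent c.E i f : ℝ) * low2 (i, c.L - i) p

theorem base_eq (c : Chan) (hL : c.L ≤ 15) (hv : checkVecs c = true) {f : ℕ}
    (hf : f < c.free.length) : base c f = semV (c.L + 1) (tab c f 0) := by
  simp only [checkVecs, Bool.and_eq_true, List.all_eq_true, List.mem_range, beq_iff_eq,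
    decide_eq_true_eq] at hv
  have hb := (hv f hf).1.2
  funext ⟨s, a, b⟩
  simp only [semV, base]
  by_cases hp : 1 ≤ s ∧ s + a + b = c.L + 1
  · obtain ⟨r, rfl⟩ : ∃ r, s = r + 1 := ⟨s - 1, by omega⟩
    rw [if_pos hp]
    have h := hb r (by omega) a (by omega)
    unfold tab
    rw [h, range_map_sum, Int.cast_sum]
    refine sum_congr rfl fun i hi => ?_
    rw [mem_range] at hi
    rw [show c.L - r - a = b by omega]
    by_cases he : Cert.ent c.E i f = 0
    · simp [he]
    · rw [if_neg he, Int.cast_mul, low2Z_eq (by omega) (by omega) _ hp.1 (by dsimp only; omega)]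
  · rw [if_neg hp]
    refine sum_eq_zero fun i hi => ?_
    rw [mem_range] at hi
    rw [low2, if_neg (by dsimp only; omega), mul_zero]

theorem upLim_base (c : Chan) (hL : c.L ≤ 15) (hv : checkVecs c = true) {f : ℕ}
    (hf : f < c.free.length) :
    ∀ t, t < 16 - c.L → upLim^[t] (base c f) = semV (c.L + 1 + t) (tab c f t)
  | 0, _ => by simpa using base_eq c hL hv hf
  | t + 1, ht => by
      rw [Function.iterate_succ_apply', upLim_base c hL hv hf t (by omega)]
      simp only [checkVecs, Bool.and_eq_true, List.all_eq_true, List.mem_range, beq_iff_eq,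
        decide_eq_true_eq] at hv
      obtain ⟨⟨⟨hlenW, hshape⟩, -⟩, hstep⟩ := hv f hf
      obtain ⟨⟨hl, h0⟩, hrows⟩ := hshape t (by omega)
      refine semV_step _ _ _ h0 (fun s => ?_) fun s hs => ?_
      · unfold tab
        by_cases hs : s < c.L + 2 + t
        · have := hrows s hs; omega
        · rw [List.getD_eq_default _ _ (by omega : ((c.V.getD f []).getD t []).length ≤ s)]; simp
      · exact hstep t (by omega) s (by omega)

end Vale.Agent.P359.Mom.Fock.Two
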