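import Vale.Agent.P359.Mom.CertTwoTab
import Vale.Agent.P359.Mom.CertChunk

/-!
# P359: the cut check in pieces
-/

namespace Vale.Agent.P359.Mom.Fock

open Cert

/-- `checkCuts` without the evaluations on quadruples. -/
def checkCutsLite (c : Chan) : Bool :=
  decide (c.L ≤ 15) && decide (0 < c.scale) && (c.cuts.length == c.L + 1) &&
  (c.free.all fun f => decide (f ≤ c.L)) &&
  (c.cuts.all fun k => k.cs.all fun e => decide (1 ≤ e.1.1) && e.1.1 + e.1.2.1 + e.1.2.2 == c.L + 1) &&
  (c.cuts.all fun k => (List.range (c.L + 1)).all fun i =>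
    k.row.getD i 0 == (k.cs.map fun e => e.2 * low2Z i (c.L - i) e.1).sum) &&
  ((List.range (c.L + 1)).all fun u => (List.range (c.L + 1)).all fun i =>
    (if u = i then (c.scale : ℤ) else 0) ==
      ((List.range c.free.length).map fun j =>
          if c.free.getD j 0 = i then ent c.E u j else 0).sum
        + (c.cuts.getD u ⟨0, [], []⟩).mul * (c.cuts.getD u ⟨0, [], []⟩).row.getD i 0)

theorem checkCuts_of {c : Chan} (h : checkCutsLite c = true)
    (h4 : (c.cuts.all fun k => check4 ⟨c.L + 1, 1, k.cs⟩ []) = true) : checkCuts c = true := by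
  simp only [checkCutsLite, checkCuts, Bool.and_eq_true] at h ⊢
  exact ⟨⟨⟨h.1.1, h4⟩, h.1.2⟩, h.2⟩

/-- The piece `j` of the evaluations on quadruples. -/
def cutPiece (c : Chan) (j : ℕ) : Bool :=
  ((c.cuts.drop (j * 4)).take 4).all fun k => check4 ⟨c.L + 1, 1, k.cs⟩ []

end Vale.Agent.P359.Mom.Fock
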