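import Vale.Agent.P359.Mom.Pins
import Vale.Agent.P359.Mom.CertWinDefs

/-!
# P359: antisymmetrised coefficients of the window functionals
-/

noncomputable section

open Finset

namespace Vale.Agent.P359.Mom.Fock

/-- Antisymmetrisation. -/
def asym {n : ℕ} (g : (Fin n → ℕ) → ℝ) (x : Fin n → ℕ) : ℝ :=
  ∑ π : Equiv.Perm (Fin n), ((π.sign : ℤ) : ℝ) * g fun i => x (π i)

theorem asym_comp {n : ℕ} (g : (Fin n → ℕ) → ℝ) (x : Fin n → ℕ) (σ : Equiv.Perm (Fin n)) :
    asym g (fun i => x (σ i)) = ((σ.sign : ℤ) : ℝ) * asym g x := by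
  rw [asym, asym, mul_sum,
    ← Equiv.sum_comp (Equiv.mulLeft σ) fun τ : Equiv.Perm (Fin n) =>
      ((σ.sign : ℤ) : ℝ) * (((τ.sign : ℤ) : ℝ) * g fun i => x (τ i))]
  refine sum_congr rfl fun π _ => ?_
  have hs : ((σ.sign : ℤ) : ℝ) * ((σ.sign : ℤ) : ℝ) = 1 := by
    rw [← Int.cast_mul, ← Units.val_mul, Int.units_mul_self, Units.val_one, Int.cast_one]
  simp only [Equiv.coe_mulLeft, Equiv.Perm.sign_mul, Units.val_mul, Int.cast_mul,
    Equiv.Perm.mul_apply]
  rw [← mul_assoc, ← mul_assoc, hs, one_mul]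

theorem asym_eq_zero_of_not_injective {n : ℕ} (g : (Fin n → ℕ) → ℝ) (x : Fin n → ℕ)
    (h : ¬ Function.Injective x) : asym g x = 0 := by
  obtain ⟨i, j, hx, hij⟩ : ∃ i j, x i = x j ∧ i ≠ j := by
    simpa [Function.Injective] using h
  have h1 := asym_comp g x (Equiv.swap i j)
  have h2 : (fun k => x (Equiv.swap i j k)) = x := by
    funext k
    rcases eq_or_ne k i with rfl | hi
    · rw [Equiv.swap_apply_left, hx]
    rcases eq_or_ne k j with rfl | hj
    · rw [Equiv.swap_apply_right, hx]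
    rw [Equiv.swap_apply_of_ne_of_ne hi hj]
  rw [h2, Equiv.Perm.sign_swap hij] at h1
  push_cast at h1
  linarith

/-- An antisymmetrisation vanishes beyond `W` if it does on increasing tuples. -/
theorem asym_eq_zero_of_sorted {n W : ℕ} (g : (Fin n → ℕ) → ℝ)
    (h : ∀ y : Fin n → ℕ, StrictMono y → (∃ i, W ≤ y i) → asym g y = 0)
    (x : Fin n → ℕ) (hx : ∃ i, W ≤ x i) : asym g x = 0 := by
  by_cases hi : Function.Injective x
  · set σ := Tuple.sort x with hσ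
    have hmono : StrictMono (fun i => x (σ i)) :=
      (Tuple.monotone_sort x).strictMono_of_injective (hi.comp σ.injective)
    obtain ⟨i, hiW⟩ := hx
    have := h _ hmono ⟨σ.symm i, by simpa using hiW⟩
    rw [asym_comp] at this
    refine (mul_eq_zero.1 this).resolve_left ?_
    exact_mod_cast Units.ne_zero σ.sign
  · exact asym_eq_zero_of_not_injective g x hi

theorem ev1_eq_asym (c : J1 → ℝ) (x : Fin 3 → ℕ) :
    ev1 c x = asym (fun y => ((y 1 : ℝ) - y 0) * c (y 0 + y 1, y 2)) x := by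
  simp [ev1, asym, mul_assoc]

theorem ev2_eq_asym (c : J2 → ℝ) (x : Fin 4 → ℕ) :
    ev2 c x = asym (fun y => ((y 1 : ℝ) - y 0) * c (y 0 + y 1, y 2, y 3)) x := by
  simp [ev2, asym, mul_assoc]

theorem perm3_spec :
    (univ : Finset (Equiv.Perm (Fin 3))).val.map
      (fun π => (((π 0 : ℕ), (π 1 : ℕ), (π 2 : ℕ)), (π.sign : ℤ))) = ↑perm3 := by
  decide +kernel

theorem perm4_spec :
    (univ : Finset (Equiv.Perm (Fin 4))).val.map
      (fun π => (((π 0 : ℕ), (π 1 : ℕ), (π 2 : ℕ), (π 3 : ℕ)), (π.sign : ℤ))) = ↑perm4 := by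
  decide +kernel

theorem sum_perm_list {n : ℕ} {β : Type} (φ : Equiv.Perm (Fin n) → β) (l : List β)
    (hl : (univ : Finset (Equiv.Perm (Fin n))).val.map φ = ↑l) (F : β → ℝ) :
    ∑ π, F (φ π) = (l.map F).sum := by
  rw [← Multiset.sum_coe, ← Multiset.map_coe, ← hl, Multiset.map_map]
  rfl

theorem ofFn_getD {n : ℕ} (x : Fin n → ℕ) (i : Fin n) : (List.ofFn x).getD i.val 0 = x i := by
  rw [List.getD_eq_getElem _ _ (by simp)]
  simp

theorem ev1_eq_ev3Z (C : Comb (ℕ × ℕ)) (x : Fin 3 → ℕ) :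
    ev1 (fun p => (look C.cs p : ℝ) / C.den) x = (ev3Z C (List.ofFn x) : ℝ) / C.den := by
  have h := sum_perm_list _ _ perm3_spec fun π : (ℕ × ℕ × ℕ) × ℤ =>
    ((π.2 * (((List.ofFn x).getD π.1.2.1 0 : ℤ) - (List.ofFn x).getD π.1.1 0) *
      look C.cs ((List.ofFn x).getD π.1.1 0 + (List.ofFn x).getD π.1.2.1 0,
        (List.ofFn x).getD π.1.2.2 0) : ℤ) : ℝ)
  simp only [ofFn_getD] at h
  rw [ev3Z, Int.cast_list_sum, List.map_map, Function.comp_def, ← h, ev1, sum_div]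
  refine sum_congr rfl fun π _ => ?_
  push_cast
  ring

theorem ev2_eq_ev4Z (C : Comb (ℕ × ℕ × ℕ)) (x : Fin 4 → ℕ) :
    ev2 (fun p => (look C.cs p : ℝ) / C.den) x = (ev4Z C (List.ofFn x) : ℝ) / C.den := by
  have h := sum_perm_list _ _ perm4_spec fun π : (ℕ × ℕ × ℕ × ℕ) × ℤ =>
    ((π.2 * (((List.ofFn x).getD π.1.2.1 0 : ℤ) - (List.ofFn x).getD π.1.1 0) *
      look C.cs ((List.ofFn x).getD π.1.1 0 + (List.ofFn x).getD π.1.2.1 0,
        (List.ofFn x).getD π.1.2.2.1 0, (List.ofFn x).getD π.1.2.2.2 0) : ℤ) : ℝ)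
  simp only [ofFn_getD] at h
  rw [ev4Z, Int.cast_list_sum, List.map_map, Function.comp_def, ← h, ev2, sum_div]
  refine sum_congr rfl fun π _ => ?_
  push_cast
  ring

end Vale.Agent.P359.Mom.Fock
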