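import Vale.Agent.P359.Mom.CertWinPart0
import Vale.Agent.P359.Mom.CertWinPart1
import Vale.Agent.P359.Mom.CertWinPart2
import Vale.Agent.P359.Mom.CertWinPart3

/-!
Kernel evaluation of the functional identities of the window certificate.
-/

namespace Vale.Agent.P359.Mom.Fock

theorem check_winHead : (check2 sec2 && (comb3.length == sec3.rows.length) &&
    ((List.zip comb3 sec3.rows).all fun z => check3 z.1 z.2) &&
    (comb4.length == sec4.rows.length)) = true := by decide +kernel

theorem check_win : checkWin = true := by
  rw [checkWin, check_winHead, Bool.true_and]
  refine all_of_chunks _ _ 18 4 (by decide +kernel) fun j hj => ?_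
  interval_cases j
  · exact check_win4_0
  · exact check_win4_1
  · exact check_win4_2
  · exact check_win4_3

theorem check_pow : checkPow = true := by decide +kernel

end Vale.Agent.P359.Mom.Fock
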