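import Vale.Agent.P359.Mom.CertFock
import Vale.Agent.P359.Mom.CertWinAsym
import Vale.Agent.P359.Mom.CertWinCheck

/-!
# P359: the certified window operator

`winData` is the window operator of the certificate. It is local and its form on the window Fock space
is nonnegative at every large flux.
-/

noncomputable section

open Finset Filter

namespace Vale.Agent.P359.Mom.Fock

/-- Coefficients of the three-particle functional `a`. -/
def c3 (a : ℕ) (p : J1) : ℝ :=
  (look (comb3.getD a ⟨0, 1, []⟩).cs p : ℝ) / (comb3.getD a ⟨0, 1, []⟩).den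

/-- Coefficients of the four-particle functional `a`. -/
def c4 (a : ℕ) (p : J2) : ℝ :=
  (look (comb4.getD a ⟨0, 1, []⟩).cs p : ℝ) / (comb4.getD a ⟨0, 1, []⟩).den

/-- The coupling of a sector, rescaled to rational size. -/
def coupling (T : Sector) (a b : ℕ) : ℝ := (coef (T.yr.getD a []) b : ℝ) / 100

/-- The window operator of the certificate. -/
def winData : WinData where
  W := 9
  n1 := 48
  n2 := 69
  q0 s := if s = 0 then 0 else coupling sec2 (s - 1) (s - 1) / (pairDiv s : ℝ) ^ 2
  c1 a := c3 a
  q1 a b := coupling sec3 a b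
  c2 a := c4 a
  q2 a b := coupling sec4 a b

/-! ### masks -/

theorem bitsL_pairwise (P : ℕ) : (bitsL P).Pairwise (· < ·) :=
  List.pairwise_lt_range.filter _

theorem mem_bitsL_lt {P i : ℕ} (h : i ∈ bitsL P) : i < 9 := by
  simp [bitsL] at h; exact h.1

theorem card_bitSet (P : ℕ) : (bitSet P).card = (bitsL P).length := by
  rw [bitSet_eq, List.card_toFinset, (bitsL_nodup P).dedup]

theorem bitSet_injOn : Set.InjOn bitSet (range 512 : Finset ℕ) := by
  intro P hP R hR h
  simp only [coe_range, Set.mem_Iio] at hP hR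
  refine Nat.eq_of_testBit_eq fun i => ?_
  by_cases hi : i < 9
  · have h2 := Finset.ext_iff.1 h i
    simp only [bitSet, mem_filter, mem_range, hi, true_and] at h2
    exact Bool.eq_iff_iff.2 h2
  · have h9 : (2 : ℕ) ^ 9 ≤ 2 ^ i := Nat.pow_le_pow_right (by norm_num) (not_lt.1 hi)
    rw [Nat.testBit_lt_two_pow (by omega), Nat.testBit_lt_two_pow (by omega)]

theorem powerset_eq_image : (range 9).powerset = (range 512).image bitSet := by
  symm
  refine eq_of_subset_of_card_le ?_ ?_
  · intro A hA
    obtain ⟨P, -, rfl⟩ := mem_image.1 hA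
    exact mem_powerset.2 (filter_subset _ _)
  · rw [card_image_of_injOn bitSet_injOn, card_powerset, card_range, card_range]
    norm_num

theorem bitSet_union (a m : ℕ) : bitSet a ∪ bitSet m = bitSet (a ||| m) := by
  ext i
  simp only [bitSet, mem_union, mem_filter, mem_range, Nat.testBit_or, Bool.or_eq_true]
  tauto

theorem disjoint_bitSet {a m : ℕ} (ha : a < 512) :
    bitSet a ⊆ range 9 \ bitSet m ↔ a &&& m = 0 := by
  simp only [subset_iff, Finset.mem_sdiff, bitSet, mem_filter, mem_range]
  constructor
  · intro h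
    refine Nat.eq_of_testBit_eq fun i => ?_
    rw [Nat.testBit_and, Nat.zero_testBit]
    by_cases hi : i < 9
    · cases h1 : a.testBit i with
      | false => simp
      | true =>
          have := (h ⟨hi, h1⟩).2
          simp [hi] at this
          simp [this]
    · have h9 : (2 : ℕ) ^ 9 ≤ 2 ^ i := Nat.pow_le_pow_right (by norm_num) (not_lt.1 hi)
      rw [Nat.testBit_lt_two_pow (by omega), Bool.false_and]
  · intro h i hi
    refine ⟨hi.1, fun hm => ?_⟩
    have := Nat.testBit_and a m i
    rw [h, Nat.zero_testBit, hi.2, hm.2] at this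
    simp at this

theorem setSign_bitSet (a m : ℕ) : setSign (bitSet a) (bitSet m) = (sgn a m : ℝ) := by
  have hc : ((bitSet a ×ˢ bitSet m).filter fun z => z.2 < z.1).card = invN a m := by
    rw [card_filter, sum_product]
    simp only [← card_filter, invN]
    rw [bitSet_eq a, List.sum_toFinset _ (bitsL_nodup a)]
    congr 1
    refine List.map_congr_left fun i _ => ?_
    have hf : (bitSet m).filter (fun j => j < i)
        = ((bitsL m).filter fun j => decide (j < i)).toFinset := by
      ext j; simp [bitSet_eq]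
    rw [hf, List.card_toFinset, ((bitsL_nodup m).filter _).dedup]
  rw [setSign, hc, sgn, neg_one_pow_eq_ite]
  simp only [Nat.even_iff]
  split <;> simp

/-! ### the value of a functional application -/

theorem sum_coef_mul (r : Row) (F : Finset ℕ) (h : ℕ → ℝ) :
    ∑ P ∈ F, (coef r P : ℝ) * h P
      = (r.map fun e => if e.1 ∈ F then (e.2 : ℝ) * h e.1 else 0).sum := by
  induction r with
  | nil => simp [coef]
  | cons e r ih =>
      simp only [coef_cons, Int.cast_add, add_mul, sum_add_distrib, ih, List.map_cons,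
        List.sum_cons]
      congr 1
      simp only [apply_ite (Int.cast : ℤ → ℝ), Int.cast_zero, ite_mul, zero_mul, sum_ite_eq]

theorem setApply_eq (k : ℕ) (g : Finset ℕ → ℝ) (κ : ℝ) (r : Row)
    (hr : ∀ e ∈ r, e.1 < 512 ∧ (bitsL e.1).length = k)
    (hg : ∀ P < 512, (bitsL P).length = k → g (bitSet P) = κ * coef r P)
    (v : Finset ℕ → ℝ) (m : ℕ) :
    setApply 9 k g v (bitSet m) = κ * lin (frow r m) (fun P => v (bitSet P)) := by
  set F := (range 512).filter fun P => (bitsL P).length = k ∧ P &&& m = 0 with hF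
  have hpow : (range 9 \ bitSet m).powersetCard k = F.image bitSet := by
    ext A
    simp only [mem_powersetCard, mem_image, hF, mem_filter, mem_range]
    constructor
    · intro hA
      have : A ∈ (range 512).image bitSet := by
        rw [← powerset_eq_image, mem_powerset]
        exact hA.1.trans sdiff_subset
      obtain ⟨P, hP, rfl⟩ := mem_image.1 this
      rw [mem_range] at hP
      exact ⟨P, ⟨hP, by rw [← card_bitSet, hA.2], (disjoint_bitSet hP).1 hA.1⟩, rfl⟩
    · rintro ⟨P, ⟨hP, hk, hd⟩, rfl⟩
      exact ⟨(disjoint_bitSet hP).2 hd, by rw [card_bitSet, hk]⟩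
  have hsub : Set.InjOn bitSet (F : Set ℕ) :=
    bitSet_injOn.mono (by intro P hP; exact (mem_filter.1 (mem_coe.1 hP)).1)
  rw [setApply, hpow, sum_image hsub]
  calc ∑ P ∈ F, setSign (bitSet P) (bitSet m) * g (bitSet P) * v (bitSet P ∪ bitSet m)
      = κ * ∑ P ∈ F, (coef r P : ℝ) * ((sgn P m : ℝ) * v (bitSet (P ||| m))) := by
        rw [mul_sum]
        refine sum_congr rfl fun P hP => ?_
        obtain ⟨hP, hk, -⟩ := mem_filter.1 hP
        rw [mem_range] at hP
        rw [setSign_bitSet, bitSet_union, hg P hP hk]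
        ring
    _ = κ * lin (frow r m) (fun P => v (bitSet P)) := by
        rw [sum_coef_mul, lin_frow]
        refine congrArg (κ * List.sum ·) (List.map_congr_left fun e he => ?_)
        obtain ⟨h1, h2⟩ := hr e he
        by_cases hd : e.1 &&& m = 0
        · rw [if_pos hd, if_pos (mem_filter.2 ⟨mem_range.2 h1, h2, hd⟩)]
          push_cast; ring
        · rw [if_neg hd, if_neg fun hm => hd (mem_filter.1 hm).2.2]

theorem onSet_bitSet {k : ℕ} (h : (Fin k → ℕ) → ℝ) {P : ℕ} (hk : (bitsL P).length = k) :
    onSet h (bitSet P) = h fun i => (bitsL P).getD i 0 := by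
  have hc : (bitSet P).card = k := by rw [card_bitSet, hk]
  rw [onSet, dif_pos hc]
  congr 1
  symm
  refine Finset.orderEmbOfFin_unique hc (fun i => ?_) fun i j hij => ?_
  · rw [bitSet_eq, List.mem_toFinset, List.getD_eq_getElem _ _ (by omega)]
    exact List.getElem_mem _
  · rw [List.getD_eq_getElem _ _ (by omega), List.getD_eq_getElem _ _ (by omega)]
    exact List.pairwise_iff_getElem.1 (bitsL_pairwise P) _ _ _ _ hij

theorem pow_bitsL {P : ℕ} (hP : P < 512) : ((bitsL P).map fun i => 2 ^ i).sum = P := by
  have h := check_pow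
  simp only [checkPow, List.all_eq_true, List.mem_range, beq_iff_eq] at h
  exact h P hP

theorem coef_eq_zero (r : Row) (P : ℕ) (h : ∀ e ∈ r, e.1 ≠ P) : coef r P = 0 := by
  induction r with
  | nil => rfl
  | cons e r ih =>
      rw [coef_cons, if_neg (h e List.mem_cons_self),
        ih fun x hx => h x (List.mem_cons_of_mem _ hx), add_zero]

theorem look_eq_zero {α : Type} [BEq α] [LawfulBEq α] (cs : List (α × ℤ)) (p : α)
    (h : ∀ e ∈ cs, e.1 ≠ p) : look cs p = 0 := by
  have : cs.filter (fun e => e.1 == p) = [] :=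
    List.filter_eq_nil_iff.2 fun e he => by simpa using h e he
  rw [look, this]; rfl

/-! ### triples -/

theorem ev3Z_increasing {C : Comb (ℕ × ℕ)} {r : Row} (h : check3 C r = true) {i j k : ℕ}
    (hij : i < j) (hjk : j < k) :
    ev3Z C [i, j, k] = if i + j + k = C.grade then
      (if k < 9 then (C.den : ℤ) * coef r (2 ^ i + 2 ^ j + 2 ^ k) else 0) else 0 := by
  simp only [check3, Bool.and_eq_true, List.all_eq_true, List.mem_range, beq_iff_eq,
    decide_eq_true_eq, Bool.or_eq_true, Bool.not_eq_true', decide_eq_false_iff_not] at h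
  obtain ⟨⟨⟨-, hcs⟩, -⟩, hev⟩ := h
  by_cases hL : i + j + k = C.grade
  · rw [if_pos hL]
    have h1 := (hev i (by omega) j (by omega)).resolve_left (not_not.2 ⟨hij, by omega⟩)
    rwa [show C.grade - i - j = k by omega] at h1
  · rw [if_neg hL]
    have hz : ∀ a b, a + b ≠ C.grade → look C.cs (a, b) = 0 := fun a b hab =>
      look_eq_zero _ _ fun e he hea => hab (by have := hcs e he; rw [hea] at this; exact this)
    simp only [ev3Z, perm3, List.map_cons, List.map_nil, List.sum_cons, List.sum_nil,
      List.getD_cons_zero, List.getD_cons_succ]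
    repeat rw [hz _ _ (by omega)]
    ring

theorem ev1_value {C : Comb (ℕ × ℕ)} {r : Row} (h : check3 C r = true) {P : ℕ} (hP : P < 512)
    (hk : (bitsL P).length = 3) :
    ev1 (fun p => (look C.cs p : ℝ) / C.den) (fun i : Fin 3 => (bitsL P).getD i 0) = coef r P := by
  have hpw := bitsL_pairwise P
  have hp := pow_bitsL hP
  have hlt : ∀ x ∈ bitsL P, x < 9 := fun x => mem_bitsL_lt
  have h' := h
  simp only [check3, Bool.and_eq_true, List.all_eq_true, beq_iff_eq, decide_eq_true_eq] at h'
  obtain ⟨⟨⟨hden, -⟩, hrow⟩, -⟩ := h'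
  match hb : bitsL P, hk with
  | [i, j, k], _ =>
      simp only [hb, List.pairwise_cons, List.mem_cons, List.not_mem_nil, or_false,
        forall_eq_or_imp, forall_eq] at hpw hlt hp
      rw [ev1_eq_ev3Z, show List.ofFn (fun x : Fin 3 => [i, j, k].getD x 0) = [i, j, k] from rfl,
        ev3Z_increasing h hpw.1.1 hpw.2.1]
      simp only [List.map_cons, List.map_nil, List.sum_cons, List.sum_nil, add_zero] at hp
      rw [← add_assoc] at hp
      rw [if_pos hlt.2.2, hp]
      by_cases hL : i + j + k = C.grade
      · rw [if_pos hL]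
        have : (C.den : ℝ) ≠ 0 := by exact_mod_cast hden.ne'
        push_cast; field_simp
      · rw [if_neg hL, coef_eq_zero r P fun e he hep => hL ?_]
        · simp
        · have := (hrow e he).2
          rw [hep, hb] at this
          simpa [add_assoc] using this

theorem ev1_outside {C : Comb (ℕ × ℕ)} {r : Row} (h : check3 C r = true) (x : Fin 3 → ℕ)
    (hx : ∃ i, 9 ≤ x i) : ev1 (fun p => (look C.cs p : ℝ) / C.den) x = 0 := by
  rw [ev1_eq_asym]
  refine asym_eq_zero_of_sorted _ (fun y hy hW => ?_) x hx
  rw [← ev1_eq_asym fun p => (look C.cs p : ℝ) / C.den, ev1_eq_ev3Z,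
    show List.ofFn y = [y 0, y 1, y 2] from rfl,
    ev3Z_increasing h (hy (by decide : (0 : Fin 3) < 1)) (hy (by decide : (1 : Fin 3) < 2))]
  have h2 : ¬ y 2 < 9 := by
    obtain ⟨i, hi⟩ := hW
    have := hy.monotone (Fin.le_last i)
    have h2' : Fin.last 2 = (2 : Fin 3) := rfl
    rw [h2'] at this
    omega
  simp [h2]

/-! ### quadruples -/

theorem ev4Z_increasing {C : Comb (ℕ × ℕ × ℕ)} {r : Row} (h : check4 C r = true) {i j k l : ℕ}
    (hij : i < j) (hjk : j < k) (hkl : k < l) :
    ev4Z C [i, j, k, l] = if i + j + k + l = C.grade then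
      (if l < 9 then (C.den : ℤ) * coef r (2 ^ i + 2 ^ j + 2 ^ k + 2 ^ l) else 0) else 0 := by
  simp only [check4, Bool.and_eq_true, List.all_eq_true, List.mem_range, beq_iff_eq,
    decide_eq_true_eq, Bool.or_eq_true, Bool.not_eq_true', decide_eq_false_iff_not] at h
  obtain ⟨⟨⟨-, hcs⟩, -⟩, hev⟩ := h
  by_cases hL : i + j + k + l = C.grade
  · rw [if_pos hL]
    have h1 := ((hev i (by omega) j (by omega)).resolve_left (not_not.2 ⟨hij, by omega⟩))
      k (by omega)
    have h2 := h1.resolve_left (not_not.2 ⟨hjk, by omega⟩)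
    rwa [show C.grade - i - j - k = l by omega] at h2
  · rw [if_neg hL]
    have hz : ∀ a b c, a + b + c ≠ C.grade → look C.cs (a, b, c) = 0 := fun a b c hab =>
      look_eq_zero _ _ fun e he hea => hab (by have := hcs e he; rw [hea] at this; exact this)
    simp only [ev4Z, perm4, List.map_cons, List.map_nil, List.sum_cons, List.sum_nil,
      List.getD_cons_zero, List.getD_cons_succ]
    repeat rw [hz _ _ _ (by omega)]
    ring

theorem ev2_value {C : Comb (ℕ × ℕ × ℕ)} {r : Row} (h : check4 C r = true) {P : ℕ}
    (hP : P < 512) (hk : (bitsL P).length = 4) :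
    ev2 (fun p => (look C.cs p : ℝ) / C.den) (fun i : Fin 4 => (bitsL P).getD i 0) = coef r P := by
  have hpw := bitsL_pairwise P
  have hp := pow_bitsL hP
  have hlt : ∀ x ∈ bitsL P, x < 9 := fun x => mem_bitsL_lt
  have h' := h
  simp only [check4, Bool.and_eq_true, List.all_eq_true, beq_iff_eq, decide_eq_true_eq] at h'
  obtain ⟨⟨⟨hden, -⟩, hrow⟩, -⟩ := h'
  match hb : bitsL P, hk with
  | [i, j, k, l], _ =>
      simp only [hb, List.pairwise_cons, List.mem_cons, List.not_mem_nil, or_false,
        forall_eq_or_imp, forall_eq] at hpw hlt hp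
      rw [ev2_eq_ev4Z,
        show List.ofFn (fun x : Fin 4 => [i, j, k, l].getD x 0) = [i, j, k, l] from rfl,
        ev4Z_increasing h hpw.1.1 hpw.2.1.1 hpw.2.2.1]
      simp only [List.map_cons, List.map_nil, List.sum_cons, List.sum_nil, add_zero] at hp
      simp only [← add_assoc] at hp
      rw [if_pos hlt.2.2.2, hp]
      by_cases hL : i + j + k + l = C.grade
      · rw [if_pos hL]
        have : (C.den : ℝ) ≠ 0 := by exact_mod_cast hden.ne'
        push_cast; field_simp
      · rw [if_neg hL, coef_eq_zero r P fun e he hep => hL ?_]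
        · simp
        · have := (hrow e he).2
          rw [hep, hb] at this
          simpa [add_assoc] using this

theorem ev2_outside {C : Comb (ℕ × ℕ × ℕ)} {r : Row} (h : check4 C r = true) (x : Fin 4 → ℕ)
    (hx : ∃ i, 9 ≤ x i) : ev2 (fun p => (look C.cs p : ℝ) / C.den) x = 0 := by
  rw [ev2_eq_asym]
  refine asym_eq_zero_of_sorted _ (fun y hy hW => ?_) x hx
  rw [← ev2_eq_asym fun p => (look C.cs p : ℝ) / C.den, ev2_eq_ev4Z,
    show List.ofFn y = [y 0, y 1, y 2, y 3] from rfl,
    ev4Z_increasing h (hy (by decide : (0 : Fin 4) < 1)) (hy (by decide : (1 : Fin 4) < 2))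
      (hy (by decide : (2 : Fin 4) < 3))]
  have h3 : ¬ y 3 < 9 := by
    obtain ⟨i, hi⟩ := hW
    have := hy.monotone (Fin.le_last i)
    have h3' : Fin.last 3 = (3 : Fin 4) := rfl
    rw [h3'] at this
    omega
  simp [h3]

/-! ### the data of the certificate -/

theorem check_pairs : check2 sec2 = true := by
  have h := check_win
  simp only [checkWin, Bool.and_eq_true] at h
  exact h.1.1.1.1

theorem check_three (a : ℕ) (ha : a < 48) :
    check3 (comb3.getD a ⟨0, 1, []⟩) (sec3.rows.getD a []) = true := by
  have h := check_win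
  simp only [checkWin, Bool.and_eq_true, List.all_eq_true] at h
  have h1 : a < comb3.length := ha
  have h2 : a < sec3.rows.length := ha
  rw [List.getD_eq_getElem _ _ h1, List.getD_eq_getElem _ _ h2]
  exact h.1.1.2 (comb3[a], sec3.rows[a])
    (List.mem_iff_getElem.2 ⟨a, by rw [List.length_zip]; omega, List.getElem_zip⟩)

theorem check_four (a : ℕ) (ha : a < 69) :
    check4 (comb4.getD a ⟨0, 1, []⟩) (sec4.rows.getD a []) = true := by
  have h := check_win
  simp only [checkWin, Bool.and_eq_true, List.all_eq_true] at h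
  have h1 : a < comb4.length := ha
  have h2 : a < sec4.rows.length := ha
  rw [List.getD_eq_getElem _ _ h1, List.getD_eq_getElem _ _ h2]
  exact h.2 (comb4[a], sec4.rows[a])
    (List.mem_iff_getElem.2 ⟨a, by rw [List.length_zip]; omega, List.getElem_zip⟩)

/-- The functionals live in the window. -/
theorem winData_local {Q : ℕ} (hQ : 9 ≤ Q) : winData.Local Q where
  le := hQ
  local1 a x _ hx := ev1_outside (check_three a a.isLt) x hx
  local2 a x _ hx := ev2_outside (check_four a a.isLt) x hx

theorem rows_lt {T : Sector} (hT : T ∈ sectors) {a : ℕ} :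
    ∀ e ∈ T.rows.getD a [], e.1 < 512 := by
  intro e he
  have hc := List.all_eq_true.1 check_sectors T hT
  simp only [checkSector, Bool.and_eq_true, List.all_eq_true, decide_eq_true_eq] at hc
  by_cases hl : a < T.rows.length
  · rw [List.getD_eq_getElem _ _ hl] at he
    exact hc.1 _ (List.getElem_mem hl) e he
  · rw [List.getD_eq_default _ _ (not_lt.1 hl)] at he; simp at he

theorem setApply_three (a : ℕ) (ha : a < 48) (v : Finset ℕ → ℝ) (m : ℕ) :
    setApply 9 3 (onSet (ev1 (c3 a))) v (bitSet m)
      = lin (frow (sec3.rows.getD a []) m) fun P => v (bitSet P) := by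
  have h := check_three a ha
  refine (setApply_eq 3 _ 1 (sec3.rows.getD a []) (fun e he => ⟨rows_lt (by simp [sectors]) e he, ?_⟩)
    (fun P hP hk => ?_) v m).trans (one_mul _)
  · simp only [check3, Bool.and_eq_true, List.all_eq_true, beq_iff_eq] at h
    exact (h.1.2 e he).1
  · rw [onSet_bitSet _ hk, one_mul]
    exact ev1_value h hP hk

theorem setApply_four (a : ℕ) (ha : a < 69) (v : Finset ℕ → ℝ) (m : ℕ) :
    setApply 9 4 (onSet (ev2 (c4 a))) v (bitSet m)
      = lin (frow (sec4.rows.getD a []) m) fun P => v (bitSet P) := by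
  have h := check_four a ha
  refine (setApply_eq 4 _ 1 (sec4.rows.getD a []) (fun e he => ⟨rows_lt (by simp [sectors]) e he, ?_⟩)
    (fun P hP hk => ?_) v m).trans (one_mul _)
  · simp only [check4, Bool.and_eq_true, List.all_eq_true, beq_iff_eq] at h
    exact (h.1.2 e he).1
  · rw [onSet_bitSet _ hk, one_mul]
    exact ev2_value h hP hk

theorem setApply_two (a : ℕ) (ha : a < 8) (v : Finset ℕ → ℝ) (m : ℕ) :
    setApply 9 2 (onSet (pairFun (a + 1))) v (bitSet m)
      = pairDiv (a + 1) * lin (frow (sec2.rows.getD a []) m) fun P => v (bitSet P) := by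
  have h := check_pairs
  simp only [check2, Bool.and_eq_true, List.all_eq_true, List.mem_range, beq_iff_eq,
    Bool.or_eq_true, Bool.not_eq_true', decide_eq_false_iff_not] at h
  refine setApply_eq 2 _ _ (sec2.rows.getD a [])
    (fun e he => ⟨rows_lt (by simp [sectors]) e he, h.1.2 a ha e he⟩) (fun P hP hk => ?_) v m
  rw [onSet_bitSet _ hk]
  have hpw := bitsL_pairwise P
  have hlt : ∀ x ∈ bitsL P, x < 9 := fun x => mem_bitsL_lt
  have hp := pow_bitsL hP
  match hb : bitsL P, hk with
  | [i, j], _ =>
      simp only [hb, List.pairwise_cons, List.mem_cons, List.not_mem_nil, or_false,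
        forall_eq_or_imp, forall_eq] at hpw hlt hp
      simp only [List.map_cons, List.map_nil, List.sum_cons, List.sum_nil, add_zero] at hp
      have hv := (h.2 a ha i hlt.1 j hlt.2).resolve_left (not_not.2 hpw.1)
      rw [hp] at hv
      have hv' : (pairDiv (a + 1) : ℝ) * (coef (sec2.rows.getD a []) P : ℝ)
          = if i + j = a + 1 then (j : ℝ) - i else 0 := by
        have := congrArg (Int.cast : ℤ → ℝ) hv
        push_cast [apply_ite (Int.cast : ℤ → ℝ)] at this
        exact this
      rw [hv']
      simp [pairFun]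

/-- The quadratic form of a sector through the full coupling matrix. -/
theorem sum_coupling (T : Sector) (hT : T ∈ sectors) (n : ℕ) (hn : T.rows.length = n) (a : ℕ)
    (X : ℕ → ℝ) :
    ∑ b : Fin n, coupling T a b * X b
      = ((T.yr.getD a []).map fun t => (t.2 : ℝ) * X t.1).sum / 100 := by
  have hc := List.all_eq_true.1 check_sectors T hT
  simp only [checkSector, Bool.and_eq_true, List.all_eq_true, decide_eq_true_eq] at hc
  have hkeys : ∀ t ∈ T.yr.getD a [], t.1 ∈ List.range n := by
    intro t ht
    by_cases hl : a < T.yr.length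
    · rw [List.getD_eq_getElem _ _ hl] at ht
      exact List.mem_range.2 (hn ▸ hc.2 _ (List.getElem_mem hl) t ht)
    · rw [List.getD_eq_default _ _ (not_lt.1 hl)] at ht; simp at ht
  have hl : lin (T.yr.getD a []) X = ∑ b ∈ range n, (coef (T.yr.getD a []) b : ℝ) * X b := by
    rw [lin_eq_coef X List.nodup_range _ hkeys, List.toFinset_range]
  rw [← lin, hl, Fin.sum_univ_eq_sum_range fun b => coupling T a b * X b, sum_div]
  exact sum_congr rfl fun b _ => by rw [coupling]; ring

/-- The window form is the tabulated form. -/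
theorem fockForm_winData (Q : ℕ) (v : Finset ℕ → ℝ) :
    fockForm Q winData v = tabForm sectors (omega Q) (fun P => v (bitSet P)) / 100 := by
  set u : ℕ → ℝ := fun P => v (bitSet P) with hu
  have hform : ∀ T, sectorForm T (omega Q) u = ∑ m ∈ range 512, omega Q m *
      ∑ a ∈ range T.rows.length, lin (frow (T.rows.getD a []) m) u *
        ((T.yr.getD a []).map fun t => (t.2 : ℝ) * lin (frow (T.rows.getD t.1 []) m) u).sum :=
    fun T => rfl
  have hsum : tabForm sectors (omega Q) u
      = sectorForm sec2 (omega Q) u + (sectorForm sec3 (omega Q) u + sectorForm sec4 (omega Q) u) := by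
    simp [tabForm, sectors]
  rw [hsum, hform, hform, hform]
  have hr2 : sec2.rows.length = 8 := rfl
  have hr3 : sec3.rows.length = 48 := rfl
  have hr4 : sec4.rows.length = 69 := rfl
  rw [fockForm, show winData.W = 9 from rfl, powerset_eq_image, sum_image bitSet_injOn]
  rw [← sum_add_distrib, ← sum_add_distrib, sum_div]
  refine sum_congr rfl fun m _ => ?_
  rw [omega, ← mul_add, ← mul_add, mul_div_assoc]
  refine congrArg ((∏ k ∈ bitSet m, cw Q k)⁻¹ * ·) ?_
  rw [add_div, add_div, hr2, hr3, hr4, ← add_assoc]
  refine congrArg₂ (· + ·) (congrArg₂ (· + ·) ?_ ?_) ?_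
  · rw [sum_range_succ', sum_div]
    simp only [winData, if_pos, zero_mul, add_zero, Nat.succ_ne_zero, if_false, Nat.add_sub_cancel]
    refine sum_congr rfl fun a ha => ?_
    rw [mem_range] at ha
    rw [setApply_two a ha]
    have hy : ((sec2.yr.getD a []).map fun t => (t.2 : ℝ) * lin (frow (sec2.rows.getD t.1 []) m) u).sum
        = coef (sec2.yr.getD a []) a * lin (frow (sec2.rows.getD a []) m) u := by
      have hkeys : ∀ t ∈ sec2.yr.getD a [], t.1 ∈ [a] := by
        have h := check_pairs
        simp only [check2, Bool.and_eq_true, List.all_eq_true, List.mem_range, beq_iff_eq] at h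
        intro t ht
        simp [h.1.1.2 a ha t ht]
      change lin (sec2.yr.getD a []) (fun b => lin (frow (sec2.rows.getD b []) m) u) = _
      rw [lin_eq_coef (fun b => lin (frow (sec2.rows.getD b []) m) u)
        (List.nodup_singleton a) _ hkeys]
      simp
    rw [hy, coupling]
    have : (pairDiv (a + 1) : ℝ) ≠ 0 := by
      simp only [pairDiv]; split <;> norm_num
    field_simp
    ring
  · rw [sum_div, ← Fin.sum_univ_eq_sum_range]
    refine sum_congr rfl fun a _ => ?_
    rw [mul_div_assoc, ← sum_coupling sec3 (by simp [sectors]) 48 hr3 a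
      fun b => lin (frow (sec3.rows.getD b []) m) u, mul_sum]
    refine sum_congr rfl fun b _ => ?_
    simp only [winData]
    rw [setApply_three a a.isLt, setApply_three b b.isLt]
    ring
  · rw [sum_div, ← Fin.sum_univ_eq_sum_range]
    refine sum_congr rfl fun a _ => ?_
    rw [mul_div_assoc, ← sum_coupling sec4 (by simp [sectors]) 69 hr4 a
      fun b => lin (frow (sec4.rows.getD b []) m) u, mul_sum]
    refine sum_congr rfl fun b _ => ?_
    simp only [winData]
    rw [setApply_four a a.isLt, setApply_four b b.isLt]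
    ring

/-- The window form is nonnegative at every large flux. -/
theorem eventually_fockForm_nonneg :
    ∀ᶠ Q in atTop, winData.Local Q ∧ ∀ v : Finset ℕ → ℝ, 0 ≤ fockForm Q winData v := by
  filter_upwards [eventually_tabForm_nonneg, eventually_ge_atTop 9] with Q hQ h9
  refine ⟨winData_local h9, fun v => ?_⟩
  rw [fockForm_winData]
  exact div_nonneg (hQ _) (by norm_num)

end Vale.Agent.P359.Mom.Fock
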