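import Vale.Agent.P359.Mom.CertWinDefs
import Vale.Agent.P359.Mom.CertChunk

/-!
# P359: the functional identities in pieces
-/

namespace Vale.Agent.P359.Mom.Fock

/-- The piece `j` of the identities on quadruples. -/
def winPiece (j : ℕ) : Bool :=
  (((List.zip comb4 sec4.rows).drop (j * 18)).take 18).all fun z => check4 z.1 z.2

end Vale.Agent.P359.Mom.Fock
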