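import Vale.Agent.P359.Mom.Pins

/-!
# P359: channels of the moment forms

Lowest vectors are translation invariant polynomials in the pair variable `w` and the orbital
variables `z`, with coefficient of `w^(s-1) z^a` at the index `(s, a)`; they do not depend on `Q`.
The ladder up from them is `up`, with squared norms `lad`.
-/

noncomputable section

open Finset

namespace Vale.Agent.P359.Mom

/-- `∏_{i<t} (i+1)(d-i)/Q`, `d` the doubled spin. -/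
def lad (Q d t : ℕ) : ℝ := ∏ i ∈ range t, ((i : ℝ) + 1) * ((d : ℝ) - i) / Q

/-- Coefficients of `(w - z)^m`. -/
def low1 (m : ℕ) (p : J1) : ℝ :=
  if 1 ≤ p.1 ∧ p.1 + p.2 = m + 1 then (-1) ^ p.2 * (m.choose p.2 : ℝ) else 0

/-- Coefficients of `(z₁ - w)^i (z₂ - w)^k`. -/
def low2 (u : ℕ × ℕ) (p : J2) : ℝ :=
  if 1 ≤ p.1 ∧ p.1 + p.2.1 + p.2.2 = u.1 + u.2 + 1 ∧ p.2.1 ≤ u.1 ∧ p.2.2 ≤ u.2 then
    (-1) ^ (p.1 - 1) * (u.1.choose p.2.1 : ℝ) * (u.2.choose p.2.2 : ℝ) else 0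

/-- Doubled spins. -/
def spin1 (Q m : ℕ) : ℕ := 3 * Q - 2 - 2 * m

def spin2 (Q L : ℕ) : ℕ := 4 * Q - 2 - 2 * L

/-- The `t`-th vector of the channel `m`. -/
def vec1 (Q m t : ℕ) : J1 → ℝ := (up1 Q)^[t] (low1 m)

/-- The `t`-th vector over the lowest vector `u`. -/
def vec2 (Q : ℕ) (u : ℕ × ℕ) (t : ℕ) : J2 → ℝ := (up2 Q)^[t] (low2 u)

/-- Pairs `(i, k)` with `i + k = L`. -/
def pairs (L : ℕ) : Finset (ℕ × ℕ) := antidiagonal L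

/-- The pair moment is one number. -/
def Dec0Pin : Prop :=
  ∀ (Q : ℕ) (D : Data), 2 ≤ Q → IsMom Q D →
    ∃ y : ℝ, 0 ≤ y ∧ ∀ s, 1 ≤ s → s < 2 * Q → D.y0 s s = y * pn Q s

/-- The full decomposition of the pair-plus-one moment. -/
def Dec1Pin : Prop :=
  ∀ (Q : ℕ) (D : Data), 2 ≤ Q → IsMom Q D →
    ∃ γ : ℕ → ℝ, (∀ m, 0 ≤ γ m) ∧ ∀ p ∈ I1 Q, ∀ q ∈ I1 Q, D.z1 p q =
      ∑ m ∈ range (Q + 1), ∑ t ∈ range (spin1 Q m + 1),
        γ m * vec1 Q m t p * vec1 Q m t q / lad Q (spin1 Q m) t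

/-- The pair-plus-two moment up to grade `M + 1`, and a lower bound on the disjoint-pair form.
The channel matrices are read off at `s = 1`. -/
def Dec2Pin : Prop :=
  ∀ (M Q : ℕ) (D : Data), M + 2 ≤ Q → IsMom Q D →
    ∃ X : ℕ → ℕ × ℕ → ℕ × ℕ → ℝ,
      (∀ L u v, X L u v = X L v u) ∧
      (∀ L (c : ℕ × ℕ → ℝ), 0 ≤ ∑ u ∈ pairs L, ∑ v ∈ pairs L, c u * c v * X L u v) ∧
      (∀ L ≤ M, ∀ c : J2 → ℝ, (∀ x : Fin 4 → ℕ, (∀ i, x i ≤ Q) → ev2 c x = 0) →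
        ∀ v ∈ pairs L, ∑ u ∈ pairs L, (∑ p ∈ I2 Q, c p * low2 u p) * X L u v = 0) ∧
      (∀ p ∈ I2 Q, ∀ q ∈ I2 Q, grade2 p ≤ M + 1 → D.z2 p q =
        ∑ L ∈ range (M + 1), ∑ u ∈ pairs L, ∑ v ∈ pairs L,
          if grade2 p = grade2 q ∧ L + 1 ≤ grade2 p then
            X L u v * vec2 Q u (grade2 p - 1 - L) p * vec2 Q v (grade2 p - 1 - L) q
              / lad Q (spin2 Q L) (grade2 p - 1 - L)
          else 0) ∧
      ∑ L ∈ range (M + 1), (spin2 Q L + 1 : ℝ) * ∑ u ∈ pairs L, ∑ v ∈ pairs L, X L u v *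
        (∑ s ∈ I0 Q, ∑ t ∈ I0 Q,
          (∑ c ∈ range (t + 1), (((t - c : ℕ) : ℝ) - c) * low2 u (s, c, t - c))
            * (∑ c ∈ range (t + 1), (((t - c : ℕ) : ℝ) - c) * low2 v (s, c, t - c))
            / (pn Q s * pn Q t))
        ≤ fourForm Q D

end Vale.Agent.P359.Mom
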