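import Vale.Agent.P359.Kernel.Op

/-!
# P359: moments of a ladder-stable family of states

`cw Q k = C(Q,k) / Q^k` are the weights of the raw coordinates `φ = ψ √(∏ cw)`, which tend to
`1 / k!`. `rsl a` removes the first particle in orbital `a`, `rpc s` removes a pair along the pair
vector of orbital sum `s`, both in raw coordinates. The moments are sums over a family of states,
scaled by falling factorials of the particle number so that they do not see `N`.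
-/

noncomputable section

open Finset Function

namespace Vale.Agent.P359.Mom

open Upper

/-- Raw weight of the orbital `k`. -/
def cw (Q k : ℕ) : ℝ := (Q.choose k : ℝ) / (Q : ℝ) ^ k

/-- Scaled squared norm of the pair vector of orbital sum `s` (both orders). -/
def pn (Q s : ℕ) : ℝ :=
  ∑ k ∈ range (s + 1), (((s - k : ℕ) : ℝ) - k) ^ 2 * cw Q k * cw Q (s - k)

variable {N Q : ℕ}

/-- Remove the first particle in orbital `a`. -/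
def rsl (a : ℕ) (f : Orbs (N + 1) Q → ℝ) (x : Orbs N Q) : ℝ :=
  if h : a ≤ Q then √(cw Q a) * f (Fin.cons ⟨a, Nat.lt_succ_of_le h⟩ x) else 0

/-- Remove the first two particles along the pair vector of sum `s`. -/
def rpc (s : ℕ) (f : Orbs (N + 2) Q → ℝ) (x : Orbs N Q) : ℝ :=
  ∑ k ∈ range (s + 1), (((s - k : ℕ) : ℝ) - k) * rsl (s - k) (rsl k f) x

/-- Lowering ladder: the derivative in raw coordinates. -/
def jl (f : Orbs N Q → ℝ) (x : Orbs N Q) : ℝ :=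
  ∑ p : Fin N, if h : (x p : ℕ) < Q then
    ((x p : ℕ) + 1 : ℝ) * √(cw Q ((x p : ℕ) + 1) / cw Q (x p))
      * f (update x p ⟨(x p : ℕ) + 1, Nat.succ_lt_succ h⟩) else 0

/-- Its transpose. -/
def jr (f : Orbs N Q → ℝ) (x : Orbs N Q) : ℝ :=
  ∑ p : Fin N, if 1 ≤ (x p : ℕ) then
    ((x p : ℕ) : ℝ) * √(cw Q (x p) / cw Q ((x p : ℕ) - 1))
      * f (update x p ⟨(x p : ℕ) - 1, lt_of_le_of_lt (Nat.sub_le _ _) (x p).2⟩) else 0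

/-- Total orbital number. -/
def wgt (f : Orbs N Q → ℝ) (x : Orbs N Q) : ℝ := (∑ p, ((x p : ℕ) : ℝ)) * f x

/-- A finite family of fermionic states whose span is stable under the ladders and the weight. -/
structure Stable {r : ℕ} (e : Fin r → Orbs N Q → ℝ) : Prop where
  fermionic : ∀ i, IsFermionic (e i)
  ladder : ∃ A : Fin r → Fin r → ℝ,
    (∀ i, jl (e i) = ∑ j, A i j • e j) ∧ ∀ i, jr (e i) = ∑ j, A j i • e j
  weight : ∃ S : Fin r → Fin r → ℝ, (∀ i j, S i j = S j i) ∧ ∀ i, wgt (e i) = ∑ j, S i j • e j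

/-- Two-slot index `(s, a)`: pair sum and orbital. -/
abbrev J1 : Type := ℕ × ℕ

/-- Three-slot index `(s, a, b)`. -/
abbrev J2 : Type := ℕ × ℕ × ℕ

def I0 (Q : ℕ) : Finset ℕ := range (2 * Q)

def I1 (Q : ℕ) : Finset J1 := range (2 * Q) ×ˢ range (Q + 1)

def I2 (Q : ℕ) : Finset J2 := range (2 * Q) ×ˢ (range (Q + 1) ×ˢ range (Q + 1))

def grade1 (p : J1) : ℕ := p.1 + p.2

def grade2 (p : J2) : ℕ := p.1 + p.2.1 + p.2.2

/-- Ladder coefficient on the pair slot. -/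
def uR (Q s : ℕ) : ℝ := if 2 ≤ s then ((2 * Q - s : ℕ) : ℝ) / Q else 0

/-- Ladder coefficient on an orbital slot. -/
def uO (Q a : ℕ) : ℝ := if 1 ≤ a then ((Q + 1 - a : ℕ) : ℝ) / Q else 0

def lo0 (f : ℕ → ℝ) (s : ℕ) : ℝ := s * f (s + 1)

def up0 (Q : ℕ) (f : ℕ → ℝ) (s : ℕ) : ℝ := uR Q s * f (s - 1)

def lo1 (f : J1 → ℝ) (p : J1) : ℝ :=
  p.1 * f (p.1 + 1, p.2) + (p.2 + 1 : ℝ) * f (p.1, p.2 + 1)

def up1 (Q : ℕ) (f : J1 → ℝ) (p : J1) : ℝ :=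
  uR Q p.1 * f (p.1 - 1, p.2) + uO Q p.2 * f (p.1, p.2 - 1)

def lo2 (f : J2 → ℝ) (p : J2) : ℝ :=
  p.1 * f (p.1 + 1, p.2.1, p.2.2) + (p.2.1 + 1 : ℝ) * f (p.1, p.2.1 + 1, p.2.2)
    + (p.2.2 + 1 : ℝ) * f (p.1, p.2.1, p.2.2 + 1)

def up2 (Q : ℕ) (f : J2 → ℝ) (p : J2) : ℝ :=
  uR Q p.1 * f (p.1 - 1, p.2.1, p.2.2) + uO Q p.2.1 * f (p.1, p.2.1 - 1, p.2.2)
    + uO Q p.2.2 * f (p.1, p.2.1, p.2.2 - 1)

/-- Antisymmetrised three-particle coefficient of the functional with coefficients `c`. -/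
def ev1 (c : J1 → ℝ) (x : Fin 3 → ℕ) : ℝ :=
  ∑ π : Equiv.Perm (Fin 3),
    ((π.sign : ℤ) : ℝ) * ((x (π 1) : ℝ) - x (π 0)) * c (x (π 0) + x (π 1), x (π 2))

/-- Antisymmetrised four-particle coefficient of the functional with coefficients `c`. -/
def ev2 (c : J2 → ℝ) (x : Fin 4 → ℕ) : ℝ :=
  ∑ π : Equiv.Perm (Fin 4),
    ((π.sign : ℤ) : ℝ) * ((x (π 1) : ℝ) - x (π 0)) * c (x (π 0) + x (π 1), x (π 2), x (π 3))

/-- Moments: pair, pair plus one, pair plus two. -/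
structure Data where
  y0 : ℕ → ℕ → ℝ
  z1 : J1 → J1 → ℝ
  z2 : J2 → J2 → ℝ

/-- The moments of a family. -/
def dataOf {r : ℕ} (e : Fin r → Orbs (N + 4) Q → ℝ) : Data where
  y0 s t := ∑ i, ∑ x, rpc s (e i) x * rpc t (e i) x
  z1 p q := ((N : ℝ) + 2) * ∑ i, ∑ x, rsl p.2 (rpc p.1 (e i)) x * rsl q.2 (rpc q.1 (e i)) x
  z2 p q := ((N : ℝ) + 2) * ((N : ℝ) + 1) *
    ∑ i, ∑ x, rsl p.2.2 (rsl p.2.1 (rpc p.1 (e i))) x * rsl q.2.2 (rsl q.2.1 (rpc q.1 (e i))) x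

/-- What is used about moments. -/
structure IsMom (Q : ℕ) (D : Data) : Prop where
  symm0 : ∀ s t, D.y0 s t = D.y0 t s
  symm1 : ∀ p q, D.z1 p q = D.z1 q p
  symm2 : ∀ p q, D.z2 p q = D.z2 q p
  psd0 : ∀ (S : Finset ℕ) (c : ℕ → ℝ), 0 ≤ ∑ p ∈ S, ∑ q ∈ S, c p * c q * D.y0 p q
  psd1 : ∀ (S : Finset J1) (c : J1 → ℝ), 0 ≤ ∑ p ∈ S, ∑ q ∈ S, c p * c q * D.z1 p q
  psd2 : ∀ (S : Finset J2) (c : J2 → ℝ), 0 ≤ ∑ p ∈ S, ∑ q ∈ S, c p * c q * D.z2 p q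
  out0 : ∀ s t, (s = 0 ∨ 2 * Q ≤ s) → D.y0 s t = 0
  out1 : ∀ p q, (p.1 = 0 ∨ 2 * Q ≤ p.1 ∨ Q < p.2) → D.z1 p q = 0
  out2 : ∀ p q, (p.1 = 0 ∨ 2 * Q ≤ p.1 ∨ Q < p.2.1 ∨ Q < p.2.2) → D.z2 p q = 0
  grade0 : ∀ s t, s ≠ t → D.y0 s t = 0
  grade1 : ∀ p q, Mom.grade1 p ≠ Mom.grade1 q → D.z1 p q = 0
  grade2 : ∀ p q, Mom.grade2 p ≠ Mom.grade2 q → D.z2 p q = 0
  rel0 : ∀ s t, lo0 (fun p => D.y0 p t) s = up0 Q (fun q => D.y0 s q) t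
  rel1 : ∀ p q, lo1 (fun u => D.z1 u q) p = up1 Q (fun v => D.z1 p v) q
  rel2 : ∀ p q, lo2 (fun u => D.z2 u q) p = up2 Q (fun v => D.z2 p v) q
  null1 : ∀ c : J1 → ℝ, (∀ x : Fin 3 → ℕ, (∀ i, x i ≤ Q) → ev1 c x = 0) →
    ∀ q, ∑ p ∈ I1 Q, c p * D.z1 p q = 0
  null2 : ∀ c : J2 → ℝ, (∀ x : Fin 4 → ℕ, (∀ i, x i ≤ Q) → ev2 c x = 0) →
    ∀ q, ∑ p ∈ I2 Q, c p * D.z2 p q = 0
  pauli : ∀ s a, D.z1 (s, a) (s, a) ≤ cw Q a * D.y0 s s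

/-- The energy per pair. -/
def pairForm (Q : ℕ) (D : Data) : ℝ := ∑ s ∈ I0 Q, D.y0 s s / pn Q s

/-- The matrix of two pairs sharing a particle. -/
def tmat (Q : ℕ) (p q : J1) : ℝ :=
  ∑ b ∈ range (Q + 1), if q.2 + b = p.1 ∧ b + p.2 = q.1 then
    cw Q b * ((b : ℝ) - q.2) * ((p.2 : ℝ) - b) / (pn Q p.1 * pn Q q.1) else 0

def threeForm (Q : ℕ) (D : Data) : ℝ := ∑ p ∈ I1 Q, ∑ q ∈ I1 Q, tmat Q p q * D.z1 p q

/-- Two disjoint pairs. -/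
def fourForm (Q : ℕ) (D : Data) : ℝ :=
  ∑ s ∈ I0 Q, ∑ t ∈ I0 Q, (∑ c ∈ range (t + 1), ∑ c' ∈ range (t + 1),
    (((t - c : ℕ) : ℝ) - c) * (((t - c' : ℕ) : ℝ) - c')
      * D.z2 (s, c, t - c) (s, c', t - c')) / (pn Q s * pn Q t)

/-- `‖H ψ‖² - δ ⟨ψ, H ψ⟩`, per pair of particles. -/
def gapForm (Q : ℕ) (δ : ℝ) (D : Data) : ℝ :=
  (1 - δ) * pairForm Q D + 2 * threeForm Q D + fourForm Q D / 2

end Vale.Agent.P359.Mom
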