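import Vale.Agent.P359.Mom.Pins
import Vale.Agent.P359.Mom.Model.Pair

/-!
# P359: the moments of a stable family
-/

noncomputable section

open Finset Function Equiv

namespace Vale.Agent.P359.Mom

open Upper Kernel

variable {N Q r : ℕ}

lemma dot_add_left (f g h : Orbs N Q → ℝ) : dot (f + g) h = dot f h + dot g h := by
  simp only [dot, Pi.add_apply, add_mul, sum_add_distrib]

lemma dot_add_right (f g h : Orbs N Q → ℝ) : dot f (g + h) = dot f g + dot f h := by
  simp only [dot, Pi.add_apply, mul_add, sum_add_distrib]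

lemma dot_smul_left (c : ℝ) (f g : Orbs N Q → ℝ) : dot (c • f) g = c * dot f g := by
  simp only [dot, Pi.smul_apply, smul_eq_mul, mul_sum, mul_assoc]

lemma dot_smul_right (c : ℝ) (f g : Orbs N Q → ℝ) : dot f (c • g) = c * dot f g := by
  simp only [dot, Pi.smul_apply, smul_eq_mul, mul_sum, mul_left_comm]

lemma dot_sum_left {ι : Type*} (s : Finset ι) (f : ι → Orbs N Q → ℝ) (g : Orbs N Q → ℝ) :
    dot (∑ i ∈ s, f i) g = ∑ i ∈ s, dot (f i) g := by
  simp only [dot, Finset.sum_apply, sum_mul]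
  exact Finset.sum_comm

lemma dot_sum_right {ι : Type*} (s : Finset ι) (f : Orbs N Q → ℝ) (g : ι → Orbs N Q → ℝ) :
    dot f (∑ i ∈ s, g i) = ∑ i ∈ s, dot f (g i) := by
  simp only [dot, Finset.sum_apply, mul_sum]
  exact Finset.sum_comm

section generic

variable {M : ℕ} {e : Fin r → Orbs M Q → ℝ}

/-- The moment of two maps. -/
def mom (e : Fin r → Orbs M Q → ℝ) (R S : (Orbs M Q → ℝ) →ₗ[ℝ] (Orbs N Q → ℝ)) : ℝ :=
  ∑ i, dot (R (e i)) (S (e i))

lemma mom_comm (R S : (Orbs M Q → ℝ) →ₗ[ℝ] (Orbs N Q → ℝ)) : mom e R S = mom e S R :=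
  sum_congr rfl fun _ _ => dot_comm _ _

lemma mom_psd {ι : Type*} (S : Finset ι) (c : ι → ℝ)
    (R : ι → (Orbs M Q → ℝ) →ₗ[ℝ] (Orbs N Q → ℝ)) :
    0 ≤ ∑ p ∈ S, ∑ q ∈ S, c p * c q * mom e (R p) (R q) := by
  have h : ∑ p ∈ S, ∑ q ∈ S, c p * c q * mom e (R p) (R q)
      = ∑ i, dot (∑ p ∈ S, c p • R p (e i)) (∑ q ∈ S, c q • R q (e i)) := by
    simp only [mom, mul_sum, dot_sum_left, dot_sum_right, dot_smul_left, dot_smul_right]
    conv_rhs => rw [Finset.sum_comm]
    refine sum_congr rfl fun p _ => ?_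
    conv_rhs => rw [Finset.sum_comm]
    exact sum_congr rfl fun q _ => sum_congr rfl fun i _ => by rw [dot_comm]; ring
  rw [h]
  exact sum_nonneg fun i _ => sum_nonneg fun x _ => mul_self_nonneg _

lemma mom_grade (he : Stable e) (R S : (Orbs M Q → ℝ) →ₗ[ℝ] (Orbs N Q → ℝ)) (a b : ℝ)
    (hR : ∀ f, R (wgt f) = a • R f + wgt (R f)) (hS : ∀ f, S (wgt f) = b • S f + wgt (S f))
    (hab : a ≠ b) : mom e R S = 0 := by
  obtain ⟨W, hW, hwe⟩ := he.weight
  have h : ∑ i, dot (R (wgt (e i))) (S (e i)) = ∑ i, dot (R (e i)) (S (wgt (e i))) := by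
    simp only [hwe, map_sum, map_smul, dot_sum_left, dot_sum_right, dot_smul_left, dot_smul_right]
    rw [Finset.sum_comm]
    exact sum_congr rfl fun i _ => sum_congr rfl fun j _ => by rw [hW j i]
  simp only [hR, hS, dot_add_left, dot_add_right, dot_smul_left, dot_smul_right, dot_wgt,
    sum_add_distrib, ← mul_sum] at h
  have : (a - b) * mom e R S = 0 := by
    unfold mom
    linarith
  rcases mul_eq_zero.1 this with h0 | h0
  · exact absurd (sub_eq_zero.1 h0) hab
  · exact h0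

lemma mom_rel (he : Stable e) (R S : (Orbs M Q → ℝ) →ₗ[ℝ] (Orbs N Q → ℝ))
    (L U : (Orbs M Q → ℝ) → Orbs N Q → ℝ) (hR : ∀ f, R (jl f) = L f + jl (R f))
    (hS : ∀ f, S (jr f) = U f + jr (S f)) :
    ∑ i, dot (L (e i)) (S (e i)) = ∑ i, dot (R (e i)) (U (e i)) := by
  obtain ⟨A, hl, hr⟩ := he.ladder
  have h : ∑ i, dot (R (jl (e i))) (S (e i)) = ∑ i, dot (R (e i)) (S (jr (e i))) := by
    simp only [hl, hr, map_sum, map_smul, dot_sum_left, dot_sum_right, dot_smul_left,
      dot_smul_right]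
    exact Finset.sum_comm
  simp only [hR, hS, dot_add_left, dot_add_right, dot_jl, sum_add_distrib] at h
  linarith

end generic

/-- A fermionic state with the first entries singled out. -/
lemma fermionic_append {k n m : ℕ} (h : m = k + n) {f : Orbs m Q → ℝ} (hf : IsFermionic f)
    (x : Orbs n Q) : IsFermionic fun y : Orbs k Q => f (Fin.append y x ∘ Fin.cast h) := by
  subst h
  intro π y
  set π' : Perm (Fin (k + n)) := finSumFinEquiv.permCongr (Equiv.sumCongr π 1) with hπ
  have hcomp : Fin.append (y ∘ π) x = Fin.append y x ∘ π' := by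
    funext p
    refine Fin.addCases (fun i => ?_) (fun i => ?_) p <;> simp [hπ]
  have hsign : π'.sign = π.sign := by
    rw [hπ, Perm.sign_permCongr, Perm.sign_sumCongr, map_one, mul_one]
  show f (Fin.append (y ∘ π) x) = ((π.sign : ℤ) : ℝ) * f (Fin.append y x)
  rw [hcomp, hf, hsign]

/-- Antisymmetrisation annihilates the sum. -/
lemma null_core {k : ℕ} (h : (Fin k → ℕ) → ℝ) {G : Orbs k Q → ℝ} (hG : IsFermionic G)
    (hz : ∀ x : Fin k → ℕ, (∀ i, x i ≤ Q) →
      ∑ π : Perm (Fin k), ((π.sign : ℤ) : ℝ) * h (x ∘ π) = 0) :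
    ∑ y : Orbs k Q, h (fun i => (y i : ℕ)) * G y = 0 := by
  set S := ∑ y : Orbs k Q, h (fun i => (y i : ℕ)) * G y
  have hπ : ∀ π : Perm (Fin k),
      S = ∑ y : Orbs k Q, ((π.sign : ℤ) : ℝ) * h ((fun i => (y i : ℕ)) ∘ π) * G y := fun π => by
    show ∑ y : Orbs k Q, h (fun i => (y i : ℕ)) * G y = _
    rw [← Equiv.sum_comp (π.symm.arrowCongr (Equiv.refl (Fin (Q + 1))))
      fun y : Orbs k Q => h (fun i => (y i : ℕ)) * G y]
    refine sum_congr rfl fun y _ => ?_
    show h (fun i => ((y ∘ π) i : ℕ)) * G (y ∘ π) = _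
    rw [hG π y]
    simp only [comp_def]
    ring
  have hsum : (Fintype.card (Perm (Fin k)) : ℝ) * S = 0 := by
    rw [← Finset.card_univ, ← nsmul_eq_mul, ← Finset.sum_const, sum_congr rfl fun π _ => hπ π,
      Finset.sum_comm]
    refine sum_eq_zero fun y _ => ?_
    rw [← sum_mul, hz _ fun i => Nat.lt_succ_iff.1 (y i).2, zero_mul]
  exact (mul_eq_zero.1 hsum).resolve_left (Nat.cast_ne_zero.2 Fintype.card_ne_zero)

/-- Remove a pair and a particle. -/
def rem1 (p : J1) : (Orbs (N + 3) Q → ℝ) →ₗ[ℝ] (Orbs N Q → ℝ) :=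
  (rslL p.2).comp (rpcL p.1)

/-- Remove a pair and two particles. -/
def rem2 (p : J2) : (Orbs (N + 4) Q → ℝ) →ₗ[ℝ] (Orbs N Q → ℝ) :=
  (rslL p.2.2).comp ((rslL p.2.1).comp (rpcL p.1))

lemma rem1_apply (p : J1) (f : Orbs (N + 3) Q → ℝ) : rem1 p f = rsl p.2 (rpc p.1 f) := rfl

lemma rem2_apply (p : J2) (f : Orbs (N + 4) Q → ℝ) :
    rem2 p f = rsl p.2.2 (rsl p.2.1 (rpc p.1 f)) := rfl

lemma rsl_lin (a : ℕ) (c : ℝ) (f g : Orbs (N + 1) Q → ℝ) :
    rsl a (c • f + g) = c • rsl a f + rsl a g := by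
  rw [← rslL_apply, map_add, map_smul]
  rfl

lemma rem1_jl (hQ : 1 ≤ Q) (p : J1) (f : Orbs (N + 3) Q → ℝ) :
    rem1 p (jl f) = ((p.1 : ℝ) • rem1 (p.1 + 1, p.2) f + ((p.2 : ℝ) + 1) • rem1 (p.1, p.2 + 1) f)
      + jl (rem1 p f) := by
  simp only [rem1_apply]
  rw [rpc_jl hQ, rsl_lin, rsl_jl hQ]
  abel

lemma rem1_jr (hQ : 1 ≤ Q) (p : J1) (f : Orbs (N + 3) Q → ℝ) :
    rem1 p (jr f) = (uR Q p.1 • rem1 (p.1 - 1, p.2) f + uO Q p.2 • rem1 (p.1, p.2 - 1) f)
      + jr (rem1 p f) := by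
  simp only [rem1_apply]
  rw [rpc_jr hQ, rsl_lin, rsl_jr hQ]
  abel

lemma rem1_wgt (p : J1) (f : Orbs (N + 3) Q → ℝ) :
    rem1 p (wgt f) = (grade1 p : ℝ) • rem1 p f + wgt (rem1 p f) := by
  simp only [rem1_apply, grade1, Nat.cast_add, add_smul]
  rw [rpc_wgt, rsl_lin, rsl_wgt]
  abel

lemma rem2_jl (hQ : 1 ≤ Q) (p : J2) (f : Orbs (N + 4) Q → ℝ) :
    rem2 p (jl f) = ((p.1 : ℝ) • rem2 (p.1 + 1, p.2.1, p.2.2) f
      + ((p.2.1 : ℝ) + 1) • rem2 (p.1, p.2.1 + 1, p.2.2) f
      + ((p.2.2 : ℝ) + 1) • rem2 (p.1, p.2.1, p.2.2 + 1) f) + jl (rem2 p f) := by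
  simp only [rem2_apply]
  rw [rpc_jl hQ, rsl_lin, rsl_jl hQ, rsl_lin, rsl_lin, rsl_jl hQ]
  abel

lemma rem2_jr (hQ : 1 ≤ Q) (p : J2) (f : Orbs (N + 4) Q → ℝ) :
    rem2 p (jr f) = (uR Q p.1 • rem2 (p.1 - 1, p.2.1, p.2.2) f
      + uO Q p.2.1 • rem2 (p.1, p.2.1 - 1, p.2.2) f
      + uO Q p.2.2 • rem2 (p.1, p.2.1, p.2.2 - 1) f) + jr (rem2 p f) := by
  simp only [rem2_apply]
  rw [rpc_jr hQ, rsl_lin, rsl_jr hQ, rsl_lin, rsl_lin, rsl_jr hQ]
  abel

lemma rem2_wgt (p : J2) (f : Orbs (N + 4) Q → ℝ) :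
    rem2 p (wgt f) = (grade2 p : ℝ) • rem2 p f + wgt (rem2 p f) := by
  simp only [rem2_apply, grade2, Nat.cast_add, add_smul]
  rw [rpc_wgt, rsl_lin, rsl_wgt, rsl_lin, rsl_lin, rsl_wgt]
  abel

lemma rem1_zero {p : J1} (h : p.1 = 0 ∨ 2 * Q ≤ p.1 ∨ Q < p.2) (f : Orbs (N + 3) Q → ℝ) :
    rem1 p f = 0 := by
  rw [rem1_apply]
  rcases h with h | h | h
  · rw [rpc_eq_zero_of_bad _ (Or.inl h)]; exact map_zero (rslL p.2)
  · rw [rpc_eq_zero_of_bad _ (Or.inr h)]; exact map_zero (rslL p.2)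
  · exact rsl_big h _

lemma rem2_zero {p : J2} (h : p.1 = 0 ∨ 2 * Q ≤ p.1 ∨ Q < p.2.1 ∨ Q < p.2.2)
    (f : Orbs (N + 4) Q → ℝ) : rem2 p f = 0 := by
  rw [rem2_apply]
  rcases h with h | h | h | h
  · rw [rpc_eq_zero_of_bad _ (Or.inl h), ← rslL_apply p.2.1, map_zero]; exact map_zero (rslL p.2.2)
  · rw [rpc_eq_zero_of_bad _ (Or.inr h), ← rslL_apply p.2.1, map_zero]; exact map_zero (rslL p.2.2)
  · rw [rsl_big h]; exact map_zero (rslL p.2.2)
  · exact rsl_big h _

lemma rem1_null {f : Orbs (N + 3) Q → ℝ} (hf : IsFermionic f) {c : J1 → ℝ}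
    (hc : ∀ x : Fin 3 → ℕ, (∀ i, x i ≤ Q) → ev1 c x = 0) :
    ∑ p ∈ I1 Q, c p • rem1 p f = 0 := by
  funext x
  set G : Orbs 3 Q → ℝ := fun y => (√(cw Q (y 0)) * √(cw Q (y 1)) * √(cw Q (y 2)))
    * f (Fin.append y x ∘ Fin.cast (Nat.add_comm N 3)) with hG
  have hGf : IsFermionic G := by
    intro π y
    have hprod : ∀ z : Orbs 3 Q,
        √(cw Q (z 0)) * √(cw Q (z 1)) * √(cw Q (z 2)) = ∏ i, √(cw Q (z i)) :=
      fun z => (Fin.prod_univ_three fun i => √(cw Q (z i))).symm
    simp only [hG, hprod]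
    have hperm : f (Fin.append (y ∘ π) x ∘ Fin.cast (Nat.add_comm N 3))
        = ((π.sign : ℤ) : ℝ) * f (Fin.append y x ∘ Fin.cast (Nat.add_comm N 3)) :=
      fermionic_append (Nat.add_comm N 3) hf x π y
    rw [hperm,
      show ∏ i, √(cw Q ((y ∘ π) i)) = ∏ i, √(cw Q (y i)) from
        Equiv.prod_comp π fun i => √(cw Q (y i))]
    ring
  have hkey := null_core (fun y => ((y 1 : ℝ) - y 0) * c (y 0 + y 1, y 2)) hGf fun z hz => by
    have := hc z hz
    simpa [ev1, mul_assoc] using this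
  have happ : ∀ (k l a : Fin (Q + 1)) (z : Orbs 0 Q),
      Fin.append (Fin.cons k (Fin.cons l (Fin.cons a z)) : Orbs 3 Q) x
        ∘ Fin.cast (Nat.add_comm N 3) = Fin.cons k (Fin.cons l (Fin.cons a x)) := by
    intro k l a z
    funext p
    induction p using Fin.cases with
    | zero => rfl
    | succ p =>
      induction p using Fin.cases with
      | zero => rfl
      | succ p =>
        induction p using Fin.cases with
        | zero => rfl
        | succ p =>
          show Fin.append _ x (Fin.cast _ p.succ.succ.succ) = _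
          rw [show Fin.cast (Nat.add_comm N 3) p.succ.succ.succ = Fin.natAdd 3 p from
            Fin.ext (by simp; omega), Fin.append_right]
          simp
  simp only [sum_cons, Fintype.sum_unique, hG, happ] at hkey
  simp only [Finset.sum_apply, Pi.smul_apply, smul_eq_mul, Pi.zero_apply]
  rw [I1, Finset.sum_product]
  have hext : ∑ s ∈ range (2 * Q), ∑ a ∈ range (Q + 1), c (s, a) * rem1 (s, a) f x
      = ∑ s ∈ range (2 * Q + 1), ∑ a ∈ range (Q + 1), c (s, a) * rem1 (s, a) f x := by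
    refine sum_subset (range_mono (Nat.le_succ _)) fun s _ hs => sum_eq_zero fun a _ => ?_
    rw [mem_range] at hs
    simp [rem1_zero (Q := Q) (p := (s, a)) (Or.inr (Or.inl (by simp; omega)))]
  rw [hext, Finset.sum_comm]
  refine Eq.trans ?_ hkey
  rw [← Fin.sum_univ_eq_sum_range (fun a => ∑ s ∈ range (2 * Q + 1), c (s, a) * rem1 (s, a) f x)]
  rw [sum_congr rfl fun k (_ : k ∈ (univ : Finset (Fin (Q + 1)))) => Finset.sum_comm]
  conv_rhs => rw [Finset.sum_comm]
  refine sum_congr rfl fun a _ => ?_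
  simp only [rem1_apply, rsl_fin, rpc_eq_sum, mul_sum]
  rw [Finset.sum_comm]
  refine sum_congr rfl fun k _ => ?_
  rw [Finset.sum_comm]
  refine sum_congr rfl fun l _ => ?_
  rw [sum_eq_single_of_mem ((k : ℕ) + l) (by have := k.2; have := l.2; rw [mem_range]; omega)
    fun s _ hs => by rw [if_neg fun h => hs h.symm]; ring, if_pos rfl]
  simp only [Fin.cons_zero, show (1 : Fin 3) = Fin.succ 0 from rfl,
    show (2 : Fin 3) = Fin.succ (Fin.succ 0) from rfl, Fin.cons_succ]
  ring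

lemma rem2_null {f : Orbs (N + 4) Q → ℝ} (hf : IsFermionic f) {c : J2 → ℝ}
    (hc : ∀ x : Fin 4 → ℕ, (∀ i, x i ≤ Q) → ev2 c x = 0) :
    ∑ p ∈ I2 Q, c p • rem2 p f = 0 := by
  funext x
  set G : Orbs 4 Q → ℝ := fun y =>
    (√(cw Q (y 0)) * √(cw Q (y 1)) * √(cw Q (y 2)) * √(cw Q (y 3)))
      * f (Fin.append y x ∘ Fin.cast (Nat.add_comm N 4)) with hG
  have hGf : IsFermionic G := by
    intro π y
    have hprod : ∀ z : Orbs 4 Q, √(cw Q (z 0)) * √(cw Q (z 1)) * √(cw Q (z 2)) * √(cw Q (z 3))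
        = ∏ i, √(cw Q (z i)) :=
      fun z => (Fin.prod_univ_four fun i => √(cw Q (z i))).symm
    simp only [hG, hprod]
    have hperm : f (Fin.append (y ∘ π) x ∘ Fin.cast (Nat.add_comm N 4))
        = ((π.sign : ℤ) : ℝ) * f (Fin.append y x ∘ Fin.cast (Nat.add_comm N 4)) :=
      fermionic_append (Nat.add_comm N 4) hf x π y
    rw [hperm,
      show ∏ i, √(cw Q ((y ∘ π) i)) = ∏ i, √(cw Q (y i)) from
        Equiv.prod_comp π fun i => √(cw Q (y i))]
    ring
  have hkey := null_core (fun y => ((y 1 : ℝ) - y 0) * c (y 0 + y 1, y 2, y 3)) hGf fun z hz => by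
    have := hc z hz
    simpa [ev2, mul_assoc] using this
  have happ : ∀ (k l a b : Fin (Q + 1)) (z : Orbs 0 Q),
      Fin.append (Fin.cons k (Fin.cons l (Fin.cons a (Fin.cons b z))) : Orbs 4 Q) x
        ∘ Fin.cast (Nat.add_comm N 4) = Fin.cons k (Fin.cons l (Fin.cons a (Fin.cons b x))) := by
    intro k l a b z
    funext p
    induction p using Fin.cases with
    | zero => rfl
    | succ p =>
      induction p using Fin.cases with
      | zero => rfl
      | succ p =>
        induction p using Fin.cases with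
        | zero => rfl
        | succ p =>
          induction p using Fin.cases with
          | zero => rfl
          | succ p =>
            show Fin.append _ x (Fin.cast _ p.succ.succ.succ.succ) = _
            rw [show Fin.cast (Nat.add_comm N 4) p.succ.succ.succ.succ = Fin.natAdd 4 p from
              Fin.ext (by simp; omega), Fin.append_right]
            simp
  simp only [sum_cons, Fintype.sum_unique, hG, happ] at hkey
  simp only [Finset.sum_apply, Pi.smul_apply, smul_eq_mul, Pi.zero_apply]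
  rw [I2, Finset.sum_product]
  simp only [Finset.sum_product]
  have hext : ∑ s ∈ range (2 * Q), ∑ a ∈ range (Q + 1), ∑ b ∈ range (Q + 1),
        c (s, a, b) * rem2 (s, a, b) f x
      = ∑ s ∈ range (2 * Q + 1), ∑ a ∈ range (Q + 1), ∑ b ∈ range (Q + 1),
        c (s, a, b) * rem2 (s, a, b) f x := by
    refine sum_subset (range_mono (Nat.le_succ _)) fun s _ hs => sum_eq_zero fun a _ => sum_eq_zero fun b _ => ?_
    rw [mem_range] at hs
    simp [rem2_zero (Q := Q) (p := (s, a, b)) (Or.inr (Or.inl (by simp; omega)))]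
  rw [hext]
  refine Eq.trans ?_ hkey
  rw [Finset.sum_comm, ← Fin.sum_univ_eq_sum_range (fun a => ∑ s ∈ range (2 * Q + 1),
    ∑ b ∈ range (Q + 1), c (s, a, b) * rem2 (s, a, b) f x)]
  -- order `(a, b, k, l)` on both sides
  rw [sum_congr rfl fun k (_ : k ∈ (univ : Finset (Fin (Q + 1)))) =>
    (Finset.sum_comm).trans (sum_congr rfl fun a _ => Finset.sum_comm)]
  conv_rhs => rw [Finset.sum_comm]
  refine sum_congr rfl fun a _ => ?_
  rw [Finset.sum_comm, ← Fin.sum_univ_eq_sum_range (fun b => ∑ s ∈ range (2 * Q + 1),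
    c (s, (a : ℕ), b) * rem2 (s, (a : ℕ), b) f x)]
  conv_rhs => rw [Finset.sum_comm]
  refine sum_congr rfl fun b _ => ?_
  simp only [rem2_apply, rsl_fin, rpc_eq_sum, mul_sum]
  rw [Finset.sum_comm]
  refine sum_congr rfl fun k _ => ?_
  rw [Finset.sum_comm]
  refine sum_congr rfl fun l _ => ?_
  rw [sum_eq_single_of_mem ((k : ℕ) + l) (by have := k.2; have := l.2; rw [mem_range]; omega)
    fun s _ hs => by rw [if_neg fun h => hs h.symm]; ring, if_pos rfl]
  simp only [Fin.cons_zero, show (1 : Fin 4) = Fin.succ 0 from rfl,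
    show (2 : Fin 4) = Fin.succ (Fin.succ 0) from rfl,
    show (3 : Fin 4) = Fin.succ (Fin.succ (Fin.succ 0)) from rfl, Fin.cons_succ]
  ring

/-- The Pauli bound: one particle in a given orbital. -/
lemma rsl_sq_le (a : ℕ) {g : Orbs (N + 1) Q → ℝ} (hg : IsFermionic g) :
    ((N : ℝ) + 1) * dot (rsl a g) (rsl a g) ≤ cw Q a * dot g g := by
  by_cases ha : a ≤ Q
  swap
  · rw [rsl_big (not_le.1 ha)]
    have : (0 : ℝ) ≤ cw Q a * dot g g :=
      mul_nonneg (cw_nonneg Q a) (sum_nonneg fun x _ => mul_self_nonneg _)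
    simpa [dot] using this
  set A : Fin (Q + 1) := ⟨a, Nat.lt_succ_of_le ha⟩ with hA
  have h0 : dot (rsl a g) (rsl a g)
      = cw Q a * ∑ y : Orbs (N + 1) Q, if y 0 = A then g y * g y else 0 := by
    rw [sum_cons, sum_eq_single_of_mem A (mem_univ _)
      fun b _ hb => sum_eq_zero fun x _ => by simp [hb], mul_sum, dot]
    refine sum_congr rfl fun x _ => ?_
    rw [rsl_apply ha, Fin.cons_zero, if_pos rfl, mul_mul_mul_comm,
      Real.mul_self_sqrt (cw_nonneg Q a), hA]
  have hp : ∀ p : Fin (N + 1), ∑ y : Orbs (N + 1) Q, (if y p = A then g y * g y else 0)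
      = ∑ y : Orbs (N + 1) Q, if y 0 = A then g y * g y else 0 := fun p => by
    rw [← Equiv.sum_comp ((Equiv.swap 0 p).symm.arrowCongr (Equiv.refl (Fin (Q + 1))))]
    refine sum_congr rfl fun y _ => ?_
    show (if (y ∘ Equiv.swap 0 p) p = A then g (y ∘ Equiv.swap 0 p) * g (y ∘ Equiv.swap 0 p)
      else 0) = _
    rw [hg]
    simp only [comp_apply, Equiv.swap_apply_right]
    split_ifs
    · linear_combination g y * g y * sign_sq (Equiv.swap 0 p)
    · rfl
  have hle : ((N : ℝ) + 1) * ∑ y : Orbs (N + 1) Q, (if y 0 = A then g y * g y else 0) ≤ dot g g := by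
    calc ((N : ℝ) + 1) * ∑ y : Orbs (N + 1) Q, (if y 0 = A then g y * g y else 0)
        = ∑ p : Fin (N + 1), ∑ y : Orbs (N + 1) Q, (if y p = A then g y * g y else 0) := by
          simp only [hp, sum_const, Finset.card_univ, Fintype.card_fin, nsmul_eq_mul]
          push_cast
          ring
      _ = ∑ y : Orbs (N + 1) Q, ∑ p : Fin (N + 1), (if y p = A then g y * g y else 0) :=
          Finset.sum_comm
      _ ≤ ∑ y : Orbs (N + 1) Q, g y * g y := sum_le_sum fun y _ => by
          by_cases h2 : ∃ p q, p ≠ q ∧ y p = A ∧ y q = A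
          · obtain ⟨p, q, hpq, hyp, hyq⟩ := h2
            have hy : g y = 0 := by
              have := hg (Equiv.swap p q) y
              rw [show y ∘ Equiv.swap p q = y from funext fun i => by
                by_cases h1 : i = p
                · subst h1; simp [hyp, hyq]
                by_cases h2 : i = q
                · subst h2; simp [hyp, hyq]
                · simp [Equiv.swap_apply_of_ne_of_ne h1 h2], Perm.sign_swap hpq] at this
              simp at this
              linarith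
            simp [hy]
          · push Not at h2
            rw [← Finset.sum_filter, sum_const, nsmul_eq_mul]
            refine mul_le_of_le_one_left (mul_self_nonneg _) ?_
            exact_mod_cast card_le_one.2 fun p hp q hq => by
              by_contra hpq
              exact h2 p q hpq (mem_filter.1 hp).2 (mem_filter.1 hq).2
      _ = _ := rfl
  rw [h0, mul_left_comm]
  exact mul_le_mul_of_nonneg_left hle (cw_nonneg Q a)

/-- **MomPin**. -/
theorem momPin : MomPin := by
  intro N Q r e hQ he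
  set K1 := (N : ℝ) + 2 with hK1
  set K2 := ((N : ℝ) + 2) * ((N : ℝ) + 1) with hK2
  have hy : ∀ s t, (dataOf e).y0 s t = mom e (rpcL s) (rpcL t) := fun s t => rfl
  have hz1 : ∀ p q, (dataOf e).z1 p q = K1 * mom e (rem1 p) (rem1 q) := fun p q => rfl
  have hz2 : ∀ p q, (dataOf e).z2 p q = K2 * mom e (rem2 p) (rem2 q) := fun p q => rfl
  have hpsd : ∀ {ι : Type} {n : ℕ} (S : Finset ι) (c : ι → ℝ) (K : ℝ) (_ : 0 ≤ K)
      (R : ι → (Orbs (N + 4) Q → ℝ) →ₗ[ℝ] (Orbs n Q → ℝ)),
      0 ≤ ∑ p ∈ S, ∑ q ∈ S, c p * c q * (K * mom e (R p) (R q)) := by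
    intro ι n S c K hK R
    simp only [mul_left_comm _ K, ← mul_sum]
    exact mul_nonneg hK (mom_psd S c R)
  refine
    { symm0 := fun s t => by rw [hy, hy, mom_comm]
      symm1 := fun p q => by rw [hz1, hz1, mom_comm]
      symm2 := fun p q => by rw [hz2, hz2, mom_comm]
      psd0 := fun S c => by simp only [hy]; exact mom_psd S c rpcL
      psd1 := fun S c => by simp only [hz1]; exact hpsd S c K1 (by positivity) rem1
      psd2 := fun S c => by simp only [hz2]; exact hpsd S c K2 (by positivity) rem2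
      out0 := fun s t h => by
        rw [hy, mom]; simp [rpc_eq_zero_of_bad s h, dot]
      out1 := fun p q h => by
        rw [hz1, mom]; simp [rem1_zero h, dot]
      out2 := fun p q h => by
        rw [hz2, mom]; simp [rem2_zero h, dot]
      grade0 := fun s t h => mom_grade he (rpcL s) (rpcL t) (s : ℝ) (t : ℝ) (rpc_wgt s) (rpc_wgt t)
        (by exact_mod_cast h)
      grade1 := fun p q h => by
        rw [hz1, mom_grade he (rem1 p) (rem1 q) _ _ (rem1_wgt p) (rem1_wgt q)
          (by exact_mod_cast h), mul_zero]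
      grade2 := fun p q h => by
        rw [hz2, mom_grade he (rem2 p) (rem2 q) _ _ (rem2_wgt p) (rem2_wgt q)
          (by exact_mod_cast h), mul_zero]
      rel0 := fun s t => ?_
      rel1 := fun p q => ?_
      rel2 := fun p q => ?_
      null1 := fun c hc q => ?_
      null2 := fun c hc q => ?_
      pauli := fun s a => ?_ }
  · have h := mom_rel he (rpcL s) (rpcL t) _ _ (rpc_jl hQ s) (rpc_jr hQ t)
    simp only [dot_smul_left, dot_smul_right, rpcL_apply, ← mul_sum] at h
    exact h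
  · have h := mom_rel he (rem1 p) (rem1 q) _ _ (rem1_jl hQ p) (rem1_jr hQ q)
    simp only [dot_add_left, dot_add_right, dot_smul_left, dot_smul_right, sum_add_distrib,
      ← mul_sum] at h
    simp only [lo1, up1, hz1, mom]
    linear_combination K1 * h
  · have h := mom_rel he (rem2 p) (rem2 q) _ _ (rem2_jl hQ p) (rem2_jr hQ q)
    simp only [dot_add_left, dot_add_right, dot_smul_left, dot_smul_right, sum_add_distrib,
      ← mul_sum] at h
    simp only [lo2, up2, hz2, mom]
    linear_combination K2 * h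
  · have h : ∀ i, ∑ p ∈ I1 Q, c p * dot (rem1 p (e i)) (rem1 q (e i)) = 0 := fun i => by
      simp only [← dot_smul_left, ← dot_sum_left]
      rw [rem1_null (N := N + 1) (he.fermionic i) hc]
      simp [dot]
    simp only [hz1, mom, mul_sum]
    rw [Finset.sum_comm]
    refine sum_eq_zero fun i _ => ?_
    simp only [mul_left_comm _ K1, ← mul_sum, h, mul_zero]
  · have h : ∀ i, ∑ p ∈ I2 Q, c p * dot (rem2 p (e i)) (rem2 q (e i)) = 0 := fun i => by
      simp only [← dot_smul_left, ← dot_sum_left]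
      rw [rem2_null (N := N) (he.fermionic i) hc]
      simp [dot]
    simp only [hz2, mom, mul_sum]
    rw [Finset.sum_comm]
    refine sum_eq_zero fun i _ => ?_
    simp only [mul_left_comm _ K2, ← mul_sum, h, mul_zero]
  · rw [hz1, hy, mom, mom, mul_sum, mul_sum]
    refine sum_le_sum fun i _ => ?_
    have h := rsl_sq_le (N := N + 1) a (rpc_fermionic (s := s) (he.fermionic i))
    push_cast at h
    rw [hK1, show (N : ℝ) + 2 = (N : ℝ) + 1 + 1 by ring]
    exact h

end Vale.Agent.P359.Mom
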