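import Vale.Agent.P359.Mom.ModelMom
import Vale.Agent.P359.Kernel.Expand

/-!
# P359: the Hamiltonian in moments
-/

noncomputable section

open Finset Function Equiv

namespace Vale.Agent.P359.Mom

open Upper Kernel

variable {N Q r : ℕ}

lemma cross_perm {n : ℕ} {f : Orbs n Q → ℝ} (hf : IsFermionic f) (e : Perm (Fin n))
    (i j k l : Fin n) : cross f (e i) (e j) (e k) (e l) = cross f i j k l := by
  show _ = dot (pairProj i j f) (pairProj k l f)
  rw [← dot_comp e, cross]
  refine sum_congr rfl fun y _ => ?_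
  rw [pairProj_comp hf, pairProj_comp hf]
  linear_combination -(pairProj (e i) (e j) f y * pairProj (e k) (e l) f y) * sign_sq e

lemma pairProj_one_two {f : Orbs (N + 3) Q → ℝ} (hf : IsFermionic f) (a b c : Fin (Q + 1))
    (x : Orbs N Q) :
    pairProj 1 2 f (Fin.cons a (Fin.cons b (Fin.cons c x)))
      = pairProj 0 1 f (Fin.cons b (Fin.cons c (Fin.cons a x))) := by
  set τ : Perm (Fin (N + 3)) := swap 0 1 * swap 1 2 with hτ
  have v0 : ((0 : Fin (N + 3)) : ℕ) = 0 := rfl
  have v1 : ((1 : Fin (N + 3)) : ℕ) = 1 := by simp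
  have v2 : ((2 : Fin (N + 3)) : ℕ) = 2 := by simp [Nat.mod_eq_of_lt]
  have d01 : (0 : Fin (N + 3)) ≠ 1 := fun h => by have := congrArg Fin.val h; omega
  have d02 : (0 : Fin (N + 3)) ≠ 2 := fun h => by have := congrArg Fin.val h; omega
  have d12 : (1 : Fin (N + 3)) ≠ 2 := fun h => by have := congrArg Fin.val h; omega
  have h0 : τ 0 = 1 := by
    rw [hτ, Perm.mul_apply, swap_apply_of_ne_of_ne d01 d02, swap_apply_left]
  have h1 : τ 1 = 2 := by
    rw [hτ, Perm.mul_apply, swap_apply_left, swap_apply_of_ne_of_ne d02.symm d12.symm]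
  have h2 : τ 2 = 0 := by rw [hτ, Perm.mul_apply, swap_apply_right, swap_apply_right]
  have hfix : ∀ p : Fin N, τ p.succ.succ.succ = p.succ.succ.succ := fun p => by
    have hp : (p.succ.succ.succ : Fin (N + 3)).val = p.val + 3 := by simp
    have n0 : (p.succ.succ.succ : Fin (N + 3)) ≠ 0 := fun h => by
      have := congrArg Fin.val h; omega
    have n1 : (p.succ.succ.succ : Fin (N + 3)) ≠ 1 := fun h => by
      have := congrArg Fin.val h; omega
    have n2 : (p.succ.succ.succ : Fin (N + 3)) ≠ 2 := fun h => by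
      have := congrArg Fin.val h; omega
    rw [hτ, Perm.mul_apply, swap_apply_of_ne_of_ne n1 n2, swap_apply_of_ne_of_ne n0 n1]
  have hs : ((τ.sign : ℤ) : ℝ) = 1 := by
    rw [hτ, Perm.sign_mul, Perm.sign_swap d01, Perm.sign_swap d12]
    simp
  have he : (Fin.cons a (Fin.cons b (Fin.cons c x)) : Orbs (N + 3) Q) ∘ τ
      = Fin.cons b (Fin.cons c (Fin.cons a x)) := by
    funext p
    induction p using Fin.cases with
    | zero => rw [comp_apply, h0]; rfl
    | succ p =>
      induction p using Fin.cases with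
      | zero => rw [comp_apply, show (Fin.succ 0 : Fin (N + 3)) = 1 from rfl, h1]; rfl
      | succ p =>
        induction p using Fin.cases with
        | zero =>
          rw [comp_apply, show (Fin.succ (Fin.succ 0) : Fin (N + 3)) = 2 from rfl, h2]
          rfl
        | succ p =>
          rw [comp_apply, hfix]
          rfl
  rw [← he, pairProj_comp hf, hs, h0, h1, one_mul]

lemma two_three_data :
    ∃ ρ : Perm (Fin (N + 4)), ρ 0 = 2 ∧ ρ 1 = 3 ∧ ((ρ.sign : ℤ) : ℝ) = 1 ∧
      ∀ (a b c d : Fin (Q + 1)) (x : Orbs N Q),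
        (Fin.cons a (Fin.cons b (Fin.cons c (Fin.cons d x))) : Orbs (N + 4) Q) ∘ ρ
          = Fin.cons c (Fin.cons d (Fin.cons a (Fin.cons b x))) := by
  set ρ : Perm (Fin (N + 4)) := swap 0 2 * swap 1 3 with hρ
  have v0 : ((0 : Fin (N + 4)) : ℕ) = 0 := rfl
  have v1 : ((1 : Fin (N + 4)) : ℕ) = 1 := by simp
  have v2 : ((2 : Fin (N + 4)) : ℕ) = 2 := by simp [Nat.mod_eq_of_lt]
  have v3 : ((3 : Fin (N + 4)) : ℕ) = 3 := by simp [Nat.mod_eq_of_lt]
  have d01 : (0 : Fin (N + 4)) ≠ 1 := fun h => by have := congrArg Fin.val h; omega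
  have d02 : (0 : Fin (N + 4)) ≠ 2 := fun h => by have := congrArg Fin.val h; omega
  have d03 : (0 : Fin (N + 4)) ≠ 3 := fun h => by have := congrArg Fin.val h; omega
  have d12 : (1 : Fin (N + 4)) ≠ 2 := fun h => by have := congrArg Fin.val h; omega
  have d13 : (1 : Fin (N + 4)) ≠ 3 := fun h => by have := congrArg Fin.val h; omega
  have d23 : (2 : Fin (N + 4)) ≠ 3 := fun h => by have := congrArg Fin.val h; omega
  have h0 : ρ 0 = 2 := by
    rw [hρ, Perm.mul_apply, swap_apply_of_ne_of_ne d01 d03, swap_apply_left]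
  have h1 : ρ 1 = 3 := by
    rw [hρ, Perm.mul_apply, swap_apply_left, swap_apply_of_ne_of_ne d03.symm d23.symm]
  have h2 : ρ 2 = 0 := by
    rw [hρ, Perm.mul_apply, swap_apply_of_ne_of_ne d12.symm d23, swap_apply_right]
  have h3 : ρ 3 = 1 := by
    rw [hρ, Perm.mul_apply, swap_apply_right, swap_apply_of_ne_of_ne d01.symm d12]
  have hfix : ∀ p : Fin N, ρ p.succ.succ.succ.succ = p.succ.succ.succ.succ := fun p => by
    have hp : (p.succ.succ.succ.succ : Fin (N + 4)).val = p.val + 4 := by simp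
    have n0 : (p.succ.succ.succ.succ : Fin (N + 4)) ≠ 0 := fun h => by
      have := congrArg Fin.val h; omega
    have n1 : (p.succ.succ.succ.succ : Fin (N + 4)) ≠ 1 := fun h => by
      have := congrArg Fin.val h; omega
    have n2 : (p.succ.succ.succ.succ : Fin (N + 4)) ≠ 2 := fun h => by
      have := congrArg Fin.val h; omega
    have n3 : (p.succ.succ.succ.succ : Fin (N + 4)) ≠ 3 := fun h => by
      have := congrArg Fin.val h; omega
    rw [hρ, Perm.mul_apply, swap_apply_of_ne_of_ne n1 n3, swap_apply_of_ne_of_ne n0 n2]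
  refine ⟨ρ, h0, h1, ?_, fun a b c d x => ?_⟩
  · rw [hρ, Perm.sign_mul, Perm.sign_swap d02, Perm.sign_swap d13]
    simp
  funext p
  induction p using Fin.cases with
  | zero => rw [comp_apply, h0]; rfl
  | succ p =>
    induction p using Fin.cases with
    | zero => rw [comp_apply, show (Fin.succ 0 : Fin (N + 4)) = 1 from rfl, h1]; rfl
    | succ p =>
      induction p using Fin.cases with
      | zero =>
        rw [comp_apply, show (Fin.succ (Fin.succ 0) : Fin (N + 4)) = 2 from rfl, h2]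
        rfl
      | succ p =>
        induction p using Fin.cases with
        | zero =>
          rw [comp_apply, show (Fin.succ (Fin.succ (Fin.succ 0)) : Fin (N + 4)) = 3 from rfl, h3]
          rfl
        | succ p =>
          rw [comp_apply, hfix]
          rfl

/-- `⟨P₀₁ f, P₁₂ f⟩` in moments. -/
lemma cross_three (hQ : 1 ≤ Q) {f : Orbs (N + 3) Q → ℝ} (hf : IsFermionic f) :
    cross f 0 1 1 2 = ∑ p ∈ I1 Q, ∑ q ∈ I1 Q, tmat Q p q * dot (rem1 p f) (rem1 q f) := by
  set R : ℕ → Orbs (N + 1) Q → ℝ := fun s => rpc s f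
  set K : ℕ → ℕ → ℕ → ℝ := fun a b c => cw Q b * ((b : ℝ) - a) * ((c : ℝ) - b)
    / (pn Q (a + b) * pn Q (b + c)) * dot (rem1 (a + b, c) f) (rem1 (b + c, a) f) with hK
  have hl : cross f 0 1 1 2
      = ∑ a : Fin (Q + 1), ∑ b : Fin (Q + 1), ∑ c : Fin (Q + 1), K a b c := by
    rw [cross, sum_cons]
    refine sum_congr rfl fun a _ => ?_
    rw [sum_cons]
    refine sum_congr rfl fun b _ => ?_
    rw [sum_cons]
    refine sum_congr rfl fun c _ => ?_
    simp only [hK, dot, mul_sum, rem1_apply]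
    refine sum_congr rfl fun x _ => ?_
    rw [pairProj_zero_one hQ, pairProj_one_two hf, pairProj_zero_one hQ, rsl_fin, rsl_fin]
    set A := √(cw Q a)
    set C := √(cw Q c)
    rw [show cw Q (b : ℕ) = √(cw Q b) * √(cw Q b) from (Real.mul_self_sqrt (cw_nonneg Q b)).symm]
    rw [Real.sqrt_mul_self (Real.sqrt_nonneg _)]
    ring
  have hr : ∀ p ∈ range (2 * Q + 1) ×ˢ range (Q + 1), ∀ q : J1,
      tmat Q p q * dot (rem1 p f) (rem1 q f) = ∑ b ∈ range (Q + 1),
        if q.2 + b = p.1 ∧ b + p.2 = q.1 then K q.2 b p.2 else 0 := by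
    intro p _ q
    rw [tmat, sum_mul]
    refine sum_congr rfl fun b _ => ?_
    split_ifs with h
    · simp only [hK]
      rw [h.1, h.2]
    · simp
  have hext : ∑ p ∈ I1 Q, ∑ q ∈ I1 Q, tmat Q p q * dot (rem1 p f) (rem1 q f)
      = ∑ p ∈ range (2 * Q + 1) ×ˢ range (Q + 1), ∑ q ∈ range (2 * Q + 1) ×ˢ range (Q + 1),
          tmat Q p q * dot (rem1 p f) (rem1 q f) := by
    have hsub : I1 Q ⊆ range (2 * Q + 1) ×ˢ range (Q + 1) :=
      product_subset_product (range_mono (Nat.le_succ _)) subset_rfl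
    have hout : ∀ p ∈ range (2 * Q + 1) ×ˢ range (Q + 1), p ∉ I1 Q → rem1 p f = 0 := by
      intro p hp hp'
      simp only [I1, mem_product, mem_range, not_and] at hp hp'
      exact rem1_zero (Or.inr (Or.inl (not_lt.1 fun h => hp' h hp.2))) f
    rw [sum_subset hsub fun p hp hp' => sum_eq_zero fun q _ => by simp [hout p hp hp', dot]]
    refine sum_congr rfl fun p _ => sum_subset hsub fun q hq hq' => ?_
    simp [hout q hq hq', dot]
  rw [hl, hext, sum_congr rfl fun p hp => sum_congr rfl fun q _ => hr p hp q]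
  simp only [← Finset.sum_product']
  rw [← sum_filter]
  refine Finset.sum_bij'
    (fun u _ => (((u.1 : ℕ) + u.2.1, (u.2.2 : ℕ)), (((u.2.1 : ℕ) + u.2.2, (u.1 : ℕ)), (u.2.1 : ℕ))))
    (fun v hv => (⟨v.2.1.2, ?_⟩, (⟨v.2.2, ?_⟩, ⟨v.1.2, ?_⟩))) ?_ ?_ ?_ ?_ ?_
  · simp only [mem_filter, mem_product, mem_range] at hv; omega
  · simp only [mem_filter, mem_product, mem_range] at hv; omega
  · simp only [mem_filter, mem_product, mem_range] at hv; omega
  · intro u _
    have := u.1.2; have := u.2.1.2; have := u.2.2.2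
    simp only [mem_filter, mem_product, mem_range, and_self, and_true]
    omega
  · intro v _; exact mem_univ _
  · intro u _; rfl
  · intro v hv
    simp only [mem_filter] at hv
    obtain ⟨-, h1, h2⟩ := hv
    obtain ⟨⟨s, c⟩, ⟨⟨t, a⟩, b⟩⟩ := v
    simp only at h1 h2
    subst h1 h2
    rfl
  · intro u _; rfl

/-- `⟨P₀₁ f, P₂₃ f⟩` in moments. -/
lemma cross_four (hQ : 1 ≤ Q) {f : Orbs (N + 4) Q → ℝ} (hf : IsFermionic f) :
    cross f 0 1 2 3 = ∑ s ∈ I0 Q, ∑ t ∈ I0 Q,
      dot (rpc t (rpc s f)) (rpc t (rpc s f)) / (pn Q s * pn Q t) := by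
  obtain ⟨ρ, h0, h1, hsign, hcomp⟩ := two_three_data (N := N) (Q := Q)
  -- the two orders of removal agree
  have hsymm : ∀ s t, rpc s (rpc t f) = rpc t (rpc s f) := by
    intro s t
    funext x
    simp only [rpc_eq_sum, mul_sum, ← Fintype.sum_prod_type', mul_ite, mul_zero]
    rw [sum_congr rfl fun u (_ : u ∈ (univ : Finset (Fin (Q + 1) × Fin (Q + 1)))) =>
      (apply_ite (fun z => z) _ _ _).symm]
    have key : ∀ s t : ℕ, ∀ u v : Fin (Q + 1) × Fin (Q + 1),
        f (Fin.cons v.1 (Fin.cons v.2 (Fin.cons u.1 (Fin.cons u.2 x))))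
          = f (Fin.cons u.1 (Fin.cons u.2 (Fin.cons v.1 (Fin.cons v.2 x)))) := fun _ _ u v => by
      rw [← hcomp u.1 u.2 v.1 v.2 x, hf, hsign, one_mul]
    have hexp : ∀ (s t : ℕ) (u : Fin (Q + 1) × Fin (Q + 1)),
        (if (u.1 : ℕ) + u.2 = s then ∑ v : Fin (Q + 1) × Fin (Q + 1),
          if (v.1 : ℕ) + v.2 = t then ((u.2 : ℝ) - u.1) * (√(cw Q u.1) * √(cw Q u.2) *
            (((v.2 : ℝ) - v.1) * (√(cw Q v.1) * √(cw Q v.2) *
              f (Fin.cons v.1 (Fin.cons v.2 (Fin.cons u.1 (Fin.cons u.2 x))))))) else 0 else 0)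
        = ∑ v : Fin (Q + 1) × Fin (Q + 1), if (u.1 : ℕ) + u.2 = s ∧ (v.1 : ℕ) + v.2 = t then
            ((u.2 : ℝ) - u.1) * ((v.2 : ℝ) - v.1) *
            (√(cw Q u.1) * √(cw Q u.2) * (√(cw Q v.1) * √(cw Q v.2)) *
              f (Fin.cons v.1 (Fin.cons v.2 (Fin.cons u.1 (Fin.cons u.2 x))))) else 0 := by
      intro s t u
      split_ifs with h
      · exact sum_congr rfl fun v _ => by simp only [h, true_and]; split_ifs <;> ring
      · exact (sum_eq_zero fun v _ => if_neg fun h' => h h'.1).symm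
    simp only [hexp]
    rw [Finset.sum_comm]
    refine sum_congr rfl fun u _ => sum_congr rfl fun v _ => ?_
    simp only [and_comm (a := (v.1 : ℕ) + v.2 = s)]
    rw [key s t v u]
    split_ifs <;> ring
  have hl : cross f 0 1 2 3 = ∑ x : Orbs N Q, ∑ u : Fin (Q + 1) × Fin (Q + 1),
      ∑ v : Fin (Q + 1) × Fin (Q + 1),
        ((u.2 : ℝ) - u.1) * ((v.2 : ℝ) - v.1) / (pn Q ((u.1 : ℕ) + u.2) * pn Q ((v.1 : ℕ) + v.2))
          * ((√(cw Q v.1) * √(cw Q v.2) * rpc ((u.1 : ℕ) + u.2) f (Fin.cons v.1 (Fin.cons v.2 x)))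
            * (√(cw Q u.1) * √(cw Q u.2)
              * rpc ((v.1 : ℕ) + v.2) f (Fin.cons u.1 (Fin.cons u.2 x)))) := by
    conv_rhs => rw [Finset.sum_comm]
    rw [sum_congr rfl fun u (_ : u ∈ (univ : Finset (Fin (Q + 1) × Fin (Q + 1)))) => Finset.sum_comm]
    rw [cross, sum_cons]
    simp only [Fintype.sum_prod_type]
    refine sum_congr rfl fun a _ => ?_
    rw [sum_cons]
    refine sum_congr rfl fun b _ => ?_
    rw [sum_cons]
    refine sum_congr rfl fun c _ => ?_
    rw [sum_cons]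
    refine sum_congr rfl fun d _ => sum_congr rfl fun x _ => ?_
    rw [← h0, ← h1, show pairProj (ρ 0) (ρ 1) f (Fin.cons a (Fin.cons b (Fin.cons c (Fin.cons d x))))
      = pairProj 0 1 f (Fin.cons c (Fin.cons d (Fin.cons a (Fin.cons b x)))) by
        rw [← hcomp a b c d x, pairProj_comp hf, hsign, one_mul]]
    rw [pairProj_zero_one hQ, pairProj_zero_one hQ]
    ring
  have hr : ∀ s t, dot (rpc t (rpc s f)) (rpc t (rpc s f)) / (pn Q s * pn Q t)
      = ∑ x : Orbs N Q, ∑ u : Fin (Q + 1) × Fin (Q + 1), ∑ v : Fin (Q + 1) × Fin (Q + 1),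
        if (u.1 : ℕ) + u.2 = s ∧ (v.1 : ℕ) + v.2 = t then
          ((u.2 : ℝ) - u.1) * ((v.2 : ℝ) - v.1) / (pn Q s * pn Q t)
          * ((√(cw Q v.1) * √(cw Q v.2) * rpc s f (Fin.cons v.1 (Fin.cons v.2 x)))
            * (√(cw Q u.1) * √(cw Q u.2) * rpc t f (Fin.cons u.1 (Fin.cons u.2 x)))) else 0 := by
    intro s t
    nth_rewrite 2 [← hsymm s t]
    rw [dot, sum_div]
    refine sum_congr rfl fun x _ => ?_
    rw [rpc_eq_sum t (rpc s f), rpc_eq_sum s (rpc t f)]
    rw [← Fintype.sum_prod_type', ← Fintype.sum_prod_type', sum_mul_sum]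
    simp only [sum_div]
    rw [Finset.sum_comm]
    refine sum_congr rfl fun u _ => sum_congr rfl fun v _ => ?_
    by_cases h1 : (u.1 : ℕ) + u.2 = s <;> by_cases h2 : (v.1 : ℕ) + v.2 = t <;> simp [h1, h2] <;> ring
  have hext : ∑ s ∈ I0 Q, ∑ t ∈ I0 Q, dot (rpc t (rpc s f)) (rpc t (rpc s f)) / (pn Q s * pn Q t)
      = ∑ s ∈ range (2 * Q + 1), ∑ t ∈ range (2 * Q + 1),
          dot (rpc t (rpc s f)) (rpc t (rpc s f)) / (pn Q s * pn Q t) := by
    have hz : ∀ s, rpc (2 * Q) (rpc s f) = 0 := fun s => rpc_eq_zero_of_bad _ (Or.inr le_rfl) _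
    have hz' : ∀ t, rpc t (rpc (2 * Q) f) = 0 := fun t => by rw [hsymm, hz]
    simp only [sum_range_succ, hz, hz', I0]
    simp [dot]
  rw [hext, hl]
  simp only [hr]
  conv_rhs => rw [sum_congr rfl fun s (_ : s ∈ range (2 * Q + 1)) => Finset.sum_comm, Finset.sum_comm]
  refine sum_congr rfl fun x _ => ?_
  conv_rhs => rw [sum_congr rfl fun s (_ : s ∈ range (2 * Q + 1)) => Finset.sum_comm, Finset.sum_comm]
  refine sum_congr rfl fun u _ => ?_
  conv_rhs => rw [sum_congr rfl fun s (_ : s ∈ range (2 * Q + 1)) => Finset.sum_comm, Finset.sum_comm]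
  refine sum_congr rfl fun v _ => ?_
  have hu : (u.1 : ℕ) + u.2 ∈ range (2 * Q + 1) := by
    have := u.1.2; have := u.2.2; rw [mem_range]; omega
  have hv : (v.1 : ℕ) + v.2 ∈ range (2 * Q + 1) := by
    have := v.1.2; have := v.2.2; rw [mem_range]; omega
  rw [sum_eq_single_of_mem _ hu fun s _ hs => sum_eq_zero fun t _ => if_neg fun h => hs h.1.symm,
    sum_eq_single_of_mem _ hv fun t _ ht => if_neg fun h => ht h.2.symm, if_pos ⟨rfl, rfl⟩]

lemma sum_other {n : ℕ} {i j : Fin (n + 2)} (hij : i ≠ j) (C : ℝ) :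
    (∑ k : Fin (n + 2), if k ≠ i ∧ k ≠ j then C else 0) = (n : ℝ) * C := by
  rw [← sum_filter, sum_const, nsmul_eq_mul]
  congr 2
  rw [show (univ.filter fun k => k ≠ i ∧ k ≠ j) = ({i, j} : Finset (Fin (n + 2)))ᶜ by
    ext k; simp, card_compl, Fintype.card_fin, card_pair hij]
  simp

lemma three_eq {f : Orbs (N + 4) Q → ℝ} (hf : IsFermionic f) :
    three f = ((N : ℝ) + 4) * ((N : ℝ) + 3) * ((N : ℝ) + 2) * cross f 0 1 1 2 := by
  have hC : ∀ i j k : Fin (N + 4), i ≠ j ∧ k ≠ i ∧ k ≠ j →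
      cross f i j j k = cross f 0 1 1 2 := by
    rintro i j k ⟨hij, hki, hkj⟩
    obtain ⟨e, he⟩ := exists_perm ![i, j, k] ![(0 : Fin (N + 4)), 1, 2]
      (by intro a b; fin_cases a <;> fin_cases b <;> simp [hij, hij.symm, hki, hki.symm, hkj, hkj.symm])
      (by intro a b; fin_cases a <;> fin_cases b <;> simp [Fin.ext_iff, Nat.mod_eq_of_lt])
    have h0 : e 0 = i := he 0
    have h1 : e 1 = j := he 1
    have h2 : e 2 = k := he 2
    rw [← cross_perm hf e 0 1 1 2, h0, h1, h2]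
  have hrow : ∀ i j : Fin (N + 4),
      (∑ k : Fin (N + 4), if i ≠ j ∧ k ≠ i ∧ k ≠ j then cross f i j j k else 0)
      = if i ≠ j then ((N : ℝ) + 2) * cross f 0 1 1 2 else 0 := by
    intro i j
    split_ifs with hij
    · rw [sum_congr rfl fun k _ => show (if i ≠ j ∧ k ≠ i ∧ k ≠ j then cross f i j j k else 0)
        = if k ≠ i ∧ k ≠ j then cross f 0 1 1 2 else 0 by
          by_cases hk : k ≠ i ∧ k ≠ j
          · rw [if_pos ⟨hij, hk⟩, if_pos hk, hC i j k ⟨hij, hk⟩]
          · rw [if_neg fun h => hk h.2, if_neg hk], sum_other (n := N + 2) hij]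
      push_cast
      rfl
    · exact sum_eq_zero fun k _ => if_neg fun h => hij h.1
  rw [three]
  simp only [hrow]
  rw [sum_congr rfl fun i _ => show
    (∑ j : Fin (N + 4), if i ≠ j then ((N : ℝ) + 2) * cross f 0 1 1 2 else 0)
      = ((N : ℝ) + 3) * (((N : ℝ) + 2) * cross f 0 1 1 2) by
    rw [← sum_filter, sum_const, filter_ne, card_erase_of_mem (mem_univ i), Finset.card_univ,
      Fintype.card_fin, nsmul_eq_mul]
    push_cast [show N + 4 - 1 = N + 3 by omega]
    rfl]
  simp only [sum_const, Finset.card_univ, Fintype.card_fin, nsmul_eq_mul]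
  push_cast
  ring

lemma four_eq {f : Orbs (N + 4) Q → ℝ} (hf : IsFermionic f) :
    four f = ((N : ℝ) + 4) * ((N : ℝ) + 3) * (((N : ℝ) + 2) * ((N : ℝ) + 1))
      * cross f 0 1 2 3 / 4 := by
  have hC : ∀ i j k l : Fin (N + 4), i ≠ j ∧ k ≠ i ∧ k ≠ j ∧ l ≠ i ∧ l ≠ j ∧ k ≠ l →
      cross f i j k l = cross f 0 1 2 3 := by
    rintro i j k l ⟨hij, hki, hkj, hli, hlj, hkl⟩
    obtain ⟨e, he⟩ := exists_perm ![i, j, k, l] ![(0 : Fin (N + 4)), 1, 2, 3]
      (by intro a b; fin_cases a <;> fin_cases b <;>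
        simp [hij, hij.symm, hki, hki.symm, hkj, hkj.symm, hli, hli.symm, hlj, hlj.symm, hkl, hkl.symm])
      (by
        have e3 : ((3 : Fin (N + 4)) : ℕ) = 3 := by simp
        intro a b; fin_cases a <;> fin_cases b <;> simp [Fin.ext_iff, Nat.mod_eq_of_lt])
    have h0 : e 0 = i := he 0
    have h1 : e 1 = j := he 1
    have h2 : e 2 = k := he 2
    have h3 : e 3 = l := he 3
    rw [← cross_perm hf e 0 1 2 3, h0, h1, h2, h3]
  have hrow : ∀ i j : Fin (N + 4), (∑ k : Fin (N + 4), ∑ l : Fin (N + 4),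
      if i ≠ j ∧ k ≠ i ∧ k ≠ j ∧ l ≠ i ∧ l ≠ j ∧ k ≠ l then cross f i j k l else 0)
      = if i ≠ j then ((N : ℝ) + 2) * (((N : ℝ) + 1) * cross f 0 1 2 3) else 0 := by
    intro i j
    split_ifs with hij
    · rw [sum_congr rfl fun k _ => show (∑ l : Fin (N + 4),
          if i ≠ j ∧ k ≠ i ∧ k ≠ j ∧ l ≠ i ∧ l ≠ j ∧ k ≠ l then cross f i j k l else 0)
        = if k ≠ i ∧ k ≠ j then ((N : ℝ) + 1) * cross f 0 1 2 3 else 0 by
          by_cases hk : k ≠ i ∧ k ≠ j
          · rw [if_pos hk, sum_congr rfl fun l _ => show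
              (if i ≠ j ∧ k ≠ i ∧ k ≠ j ∧ l ≠ i ∧ l ≠ j ∧ k ≠ l then cross f i j k l else 0)
              = if l ∉ ({i, j, k} : Finset (Fin (N + 4))) then cross f 0 1 2 3 else 0 by
                by_cases h : l ≠ i ∧ l ≠ j ∧ k ≠ l
                · rw [if_pos ⟨hij, hk.1, hk.2, h⟩,
                    if_pos (by simp [h.1, h.2.1, h.2.2.symm]), hC i j k l ⟨hij, hk.1, hk.2, h⟩]
                · rw [if_neg fun h' => h h'.2.2.2, if_neg fun h' => h (by
                    simp only [mem_insert, mem_singleton, not_or] at h'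
                    exact ⟨h'.1, h'.2.1, fun e => h'.2.2 e.symm⟩)],
              ← sum_filter, sum_const, nsmul_eq_mul, filter_not, filter_mem_eq_inter, univ_inter,
              ← compl_eq_univ_sdiff, card_compl, Fintype.card_fin,
              card_eq_three.2 ⟨i, j, k, hij, hk.1.symm, hk.2.symm, rfl⟩]
            push_cast [show N + 4 - 3 = N + 1 by omega]
            rfl
          · rw [if_neg hk]
            exact sum_eq_zero fun l _ => if_neg fun h => hk ⟨h.2.1, h.2.2.1⟩,
        sum_other (n := N + 2) hij]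
      push_cast
      rfl
    · exact sum_eq_zero fun k _ => sum_eq_zero fun l _ => if_neg fun h => hij h.1
  rw [four]
  simp only [hrow]
  rw [sum_congr rfl fun i _ => show
    (∑ j : Fin (N + 4), if i ≠ j then ((N : ℝ) + 2) * (((N : ℝ) + 1) * cross f 0 1 2 3) else 0)
      = ((N : ℝ) + 3) * (((N : ℝ) + 2) * (((N : ℝ) + 1) * cross f 0 1 2 3)) by
    rw [← sum_filter, sum_const, filter_ne, card_erase_of_mem (mem_univ i), Finset.card_univ,
      Fintype.card_fin, nsmul_eq_mul]
    push_cast [show N + 4 - 1 = N + 3 by omega]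
    rfl]
  simp only [sum_const, Finset.card_univ, Fintype.card_fin, nsmul_eq_mul]
  push_cast
  ring

/-- **ObjPin**. -/
theorem objPin : ObjPin := by
  intro N Q r δ e hQ he
  have hone : ∀ i, normSq (ham (e i)) - δ * energy (e i)
      = (((N + 4).choose 2 : ℕ) : ℝ) * ((1 - δ) * ∑ s ∈ I0 Q, dot (rpc s (e i)) (rpc s (e i)) / pn Q s
        + 2 * (((N : ℝ) + 2) * cross (e i) 0 1 1 2)
        + ((N : ℝ) + 2) * ((N : ℝ) + 1) * cross (e i) 0 1 2 3 / 2) := fun i => by
    rw [normSq_ham, three_eq (he.fermionic i), four_eq (he.fermionic i), ← form_self,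
      form_eq_pair (N := N + 2) hQ (he.fermionic i) (he.fermionic i), Nat.cast_choose_two]
    push_cast
    ring
  have hp : pairForm Q (dataOf e) = ∑ i, ∑ s ∈ I0 Q, dot (rpc s (e i)) (rpc s (e i)) / pn Q s := by
    simp only [pairForm, dataOf, dot, sum_div]
    rw [Finset.sum_comm]
  have h3 : threeForm Q (dataOf e) = ∑ i, ((N : ℝ) + 2) * cross (e i) 0 1 1 2 := by
    calc threeForm Q (dataOf e)
        = ∑ p ∈ I1 Q, ∑ q ∈ I1 Q, ∑ i, ((N : ℝ) + 2) * (tmat Q p q
            * dot (rem1 p (e i)) (rem1 q (e i))) := by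
          refine sum_congr rfl fun p _ => sum_congr rfl fun q _ => ?_
          show tmat Q p q * (((N : ℝ) + 2) * ∑ i, dot (rem1 p (e i)) (rem1 q (e i))) = _
          simp only [mul_sum]
          exact sum_congr rfl fun i _ => by ring
      _ = _ := by
          rw [sum_congr rfl fun p (_ : p ∈ I1 Q) => Finset.sum_comm, Finset.sum_comm]
          refine sum_congr rfl fun i _ => ?_
          simp only [← mul_sum]
          rw [cross_three (N := N + 1) hQ (he.fermionic i)]
  have hz : ∀ (s t c : ℕ) (i : Fin r),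
      rem2 (s, c, t - c) (e i) = rsl (t - c) (rsl c (rpc s (e i))) := fun _ _ _ _ => rfl
  have h4 : fourForm Q (dataOf e) = ∑ i, ((N : ℝ) + 2) * ((N : ℝ) + 1) * cross (e i) 0 1 2 3 := by
    calc fourForm Q (dataOf e)
        = ∑ s ∈ I0 Q, ∑ t ∈ I0 Q, ∑ i, ((N : ℝ) + 2) * ((N : ℝ) + 1)
            * (dot (rpc t (rpc s (e i))) (rpc t (rpc s (e i))) / (pn Q s * pn Q t)) := by
          refine sum_congr rfl fun s _ => sum_congr rfl fun t _ => ?_
          simp only [rpc_fun t, dot_sum_left, dot_sum_right, dot_smul_left, dot_smul_right, sum_div,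
            mul_sum]
          rw [sum_congr rfl fun c (_ : c ∈ range (t + 1)) => show (∑ c' ∈ range (t + 1),
              (((t - c : ℕ) : ℝ) - c) * (((t - c' : ℕ) : ℝ) - c')
              * (dataOf e).z2 (s, c, t - c) (s, c', t - c') / (pn Q s * pn Q t))
            = ∑ c' ∈ range (t + 1), ∑ i, ((N : ℝ) + 2) * ((N : ℝ) + 1)
              * ((((t - c' : ℕ) : ℝ) - c') * ((((t - c : ℕ) : ℝ) - c)
              * dot (rsl (t - c) (rsl c (rpc s (e i)))) (rsl (t - c') (rsl c' (rpc s (e i)))))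
              / (pn Q s * pn Q t)) by
            refine sum_congr rfl fun c' _ => ?_
            show _ * (((N : ℝ) + 2) * ((N : ℝ) + 1) * ∑ i, dot (rem2 (s, c, t - c) (e i))
              (rem2 (s, c', t - c') (e i))) / _ = _
            simp only [hz, mul_sum, sum_div]
            exact sum_congr rfl fun i _ => by ring]
          conv_rhs => rw [Finset.sum_comm]
          rw [Finset.sum_comm]
          refine sum_congr rfl fun c' _ => ?_
          conv_rhs => rw [Finset.sum_comm]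
      _ = _ := by
          rw [sum_congr rfl fun s (_ : s ∈ I0 Q) => Finset.sum_comm, Finset.sum_comm]
          refine sum_congr rfl fun i _ => ?_
          simp only [← mul_sum]
          rw [cross_four (N := N) hQ (he.fermionic i)]
  rw [gapForm, hp, h3, h4]
  simp only [hone, mul_sum, sum_div, ← sum_add_distrib]

end Vale.Agent.P359.Mom
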