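import Vale.Agent.P359.Mom.ModelMom

/-!
# P359: stable families from the eigenspaces of the Hamiltonian
-/

noncomputable section

open Finset Function Equiv

namespace Vale.Agent.P359.Mom

open Upper Kernel

variable {n N Q : ℕ}

lemma jl_fermionic {f : Orbs n Q → ℝ} (hf : IsFermionic f) : IsFermionic (jl f) := by
  intro e y
  simp only [jl, mul_sum]
  rw [← Equiv.sum_comp e fun p => ((e.sign : ℤ) : ℝ) *
    (if h : (y p : ℕ) < Q then ((y p : ℕ) + 1 : ℝ) * √(cw Q ((y p : ℕ) + 1) / cw Q (y p))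
      * f (update y p ⟨(y p : ℕ) + 1, Nat.succ_lt_succ h⟩) else 0)]
  refine sum_congr rfl fun p _ => ?_
  simp only [comp_apply]
  split_ifs with h
  · rw [show update (y ∘ e) p ⟨(y (e p) : ℕ) + 1, Nat.succ_lt_succ h⟩
      = update y (e p) ⟨(y (e p) : ℕ) + 1, Nat.succ_lt_succ h⟩ ∘ e by
        rw [update_comp_eq_of_injective _ e.injective], hf]
    ring
  · ring

lemma jr_fermionic {f : Orbs n Q → ℝ} (hf : IsFermionic f) : IsFermionic (jr f) := by
  intro e y
  simp only [jr, mul_sum]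
  rw [← Equiv.sum_comp e fun p => ((e.sign : ℤ) : ℝ) *
    (if 1 ≤ (y p : ℕ) then ((y p : ℕ) : ℝ) * √(cw Q (y p) / cw Q ((y p : ℕ) - 1))
      * f (update y p ⟨(y p : ℕ) - 1, lt_of_le_of_lt (Nat.sub_le _ _) (y p).2⟩) else 0)]
  refine sum_congr rfl fun p _ => ?_
  simp only [comp_apply]
  split_ifs with h
  · rw [show update (y ∘ e) p ⟨(y (e p) : ℕ) - 1, lt_of_le_of_lt (Nat.sub_le _ _) (y (e p)).2⟩
      = update y (e p) ⟨(y (e p) : ℕ) - 1, lt_of_le_of_lt (Nat.sub_le _ _) (y (e p)).2⟩ ∘ e by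
        rw [update_comp_eq_of_injective _ e.injective], hf]
    ring
  · ring

lemma wgt_fermionic {f : Orbs n Q → ℝ} (hf : IsFermionic f) : IsFermionic (wgt f) := by
  intro e y
  simp only [wgt, hf e y, comp_apply]
  rw [Equiv.sum_comp e fun p => ((y p : ℕ) : ℝ)]
  ring

/-- The adjoint ladder relation of the pair vectors. -/
lemma pn_step (hQ : 1 ≤ Q) (s : ℕ) (h : s + 1 < 2 * Q) :
    (s : ℝ) * pn Q (s + 1) = uR Q (s + 1) * pn Q s := by
  set V : ℕ → Orbs 2 Q → ℝ := fun t y =>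
    if (y 0 : ℕ) + y 1 = t then ((y 1 : ℝ) - y 0) * (√(cw Q (y 0)) * √(cw Q (y 1))) else 0 with hV
  -- the unique state without particles
  set z0 : Orbs 0 Q := fun i => i.elim0
  have hpair : ∀ (t : ℕ) (g : Orbs 2 Q → ℝ), rpc (N := 0) t g z0 = dot (V t) g := by
    intro t g
    rw [dot, rpc_eq_sum, sum_cons]
    refine sum_congr rfl fun a _ => ?_
    rw [sum_cons]
    refine sum_congr rfl fun b _ => ?_
    rw [Fintype.sum_subsingleton _ z0]
    simp only [hV, Fin.cons_zero, show (1 : Fin 2) = Fin.succ 0 from rfl, Fin.cons_succ]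
    split_ifs <;> ring
  have hjl0 : ∀ g : Orbs 0 Q → ℝ, jl g = 0 := fun g => by funext z; simp [jl]
  have hjr0 : ∀ g : Orbs 0 Q → ℝ, jr g = 0 := fun g => by funext z; simp [jr]
  have hpn : ∀ t, t ≤ 2 * Q → dot (V t) (V t) = pn Q t := by
    intro t ht
    have hp : (0 : ℝ) < (Q : ℝ) ^ t := pow_pos (Nat.cast_pos.2 hQ) _
    apply mul_left_cancel₀ hp.ne'
    rw [← pairNorm_eq hQ, pairNorm, dot, sum_cons, mul_sum]
    refine sum_congr rfl fun a _ => ?_
    rw [sum_cons, mul_sum]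
    refine sum_congr rfl fun b _ => ?_
    rw [Fintype.sum_unique, pairVec_eq hQ]
    simp only [hV, Fin.cons_zero, show (1 : Fin 2) = Fin.succ 0 from rfl, Fin.cons_succ]
    split_ifs
    · rw [mul_pow, Real.sq_sqrt hp.le]
      ring
    · ring
  have h1 := hpair s (jl (V (s + 1)))
  rw [rpc_jl hQ, hjl0, add_zero, Pi.smul_apply, smul_eq_mul, hpair, hpn _ (by omega)] at h1
  have h2 := hpair (s + 1) (jr (V s))
  rw [rpc_jr hQ, hjr0, add_zero, Pi.smul_apply, smul_eq_mul, hpair, Nat.add_sub_cancel,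
    hpn _ (by omega)] at h2
  rw [h1, h2, ← dot_jl, dot_comm]

lemma form_eq_ham (φ ψ : Orbs n Q → ℝ) : dot φ (ham ψ) = form φ ψ := sum_mul_ham φ ψ

lemma form_jl (hQ : 1 ≤ Q) {φ ψ : Orbs (N + 2) Q → ℝ} (hφ : IsFermionic φ) (hψ : IsFermionic ψ) :
    form φ (jl ψ) = form (jr φ) ψ := by
  rw [form_eq_pair hQ hφ (jl_fermionic hψ), form_eq_pair hQ (jr_fermionic hφ) hψ]
  congr 1
  have hdd : ∀ s, dot (rpc s φ) (jl (rpc s ψ)) = dot (jr (rpc s φ)) (rpc s ψ) := fun s => by
    rw [dot_comm, dot_jl, dot_comm]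
  simp only [rpc_jl hQ, rpc_jr hQ, dot_add_left, dot_add_right, dot_smul_left, dot_smul_right, hdd,
    add_div, sum_add_distrib]
  congr 1
  rw [I0]
  obtain ⟨M, hM⟩ : ∃ M, 2 * Q = M + 1 := ⟨2 * Q - 1, by omega⟩
  rw [hM, sum_range_succ, sum_range_succ' (fun s => uR Q s * dot (rpc (s - 1) φ) (rpc s ψ) / pn Q s) M]
  have hlast : rpc (M + 1) ψ = 0 := rpc_eq_zero_of_bad _ (Or.inr (by omega)) _
  have hfirst : uR Q 0 = 0 := by simp [uR]
  rw [hlast, hfirst]
  simp only [dot, Pi.zero_apply, mul_zero, sum_const_zero, zero_div, zero_mul, add_zero,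
    Nat.add_sub_cancel]
  refine sum_congr rfl fun s hs => ?_
  rw [mem_range] at hs
  have hstep := pn_step hQ s (by omega)
  rcases Nat.eq_zero_or_pos s with rfl | hs0
  · simp [uR]
  have hp : ∀ t, 1 ≤ t → t < 2 * Q → pn Q t ≠ 0 := fun t h1 h2 => ne_of_gt <| by
    refine sum_pos' (fun k _ => mul_nonneg (mul_nonneg (sq_nonneg _) (cw_nonneg Q k))
      (cw_nonneg Q _)) ?_
    rcases le_or_gt t Q with h | h
    · refine ⟨0, mem_range.2 (by omega), mul_pos (mul_pos ?_ (cw_pos hQ (Nat.zero_le _))) (cw_pos hQ (by omega))⟩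
      have : (1 : ℝ) ≤ t := by exact_mod_cast h1
      simp only [Nat.sub_zero, Nat.cast_zero, sub_zero]
      positivity
    · refine ⟨t - Q, mem_range.2 (by omega), mul_pos (mul_pos ?_ (cw_pos hQ (by omega))) (cw_pos hQ (by omega))⟩
      rw [show t - (t - Q) = Q by omega, Nat.cast_sub h.le]
      have : (t : ℝ) + 1 ≤ 2 * Q := by exact_mod_cast (show t + 1 ≤ 2 * Q by omega)
      have : (0 : ℝ) < (Q : ℝ) - ((t : ℝ) - Q) := by linarith
      positivity
  have a1 := hp s hs0 (by omega)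
  have a2 := hp (s + 1) (by omega) (by omega)
  field_simp
  linear_combination (∑ x : Orbs N Q, rpc s φ x * rpc (s + 1) ψ x) * hstep

lemma form_wgt (hQ : 1 ≤ Q) {φ ψ : Orbs (N + 2) Q → ℝ} (hφ : IsFermionic φ) (hψ : IsFermionic ψ) :
    form φ (wgt ψ) = form (wgt φ) ψ := by
  rw [form_eq_pair hQ hφ (wgt_fermionic hψ), form_eq_pair hQ (wgt_fermionic hφ) hψ]
  congr 1
  refine sum_congr rfl fun s _ => ?_
  rw [rpc_wgt, rpc_wgt, dot_add_left, dot_add_right, dot_smul_left, dot_smul_right, dot_wgt]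

lemma eq_of_dot {f g : Orbs n Q → ℝ} (hf : IsFermionic f) (hg : IsFermionic g)
    (h : ∀ φ : Orbs n Q → ℝ, IsFermionic φ → dot φ f = dot φ g) : f = g := by
  have hd : IsFermionic fun x => f x - g x := fun e x => by
    show f (x ∘ e) - g (x ∘ e) = _
    rw [hf, hg]
    ring
  have h0 := h _ hd
  have hz : ∑ x, (f x - g x) * (f x - g x) = 0 := by
    simp only [mul_sub, sum_sub_distrib]
    exact sub_eq_zero.2 h0
  funext x
  exact sub_eq_zero.1 (mul_self_eq_zero.1
    ((sum_eq_zero_iff_of_nonneg fun _ _ => mul_self_nonneg _).1 hz x (mem_univ x)))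

lemma ham_small (hn : n < 2) (f : Orbs n Q → ℝ) : ham f = 0 := by
  funext y
  refine sum_eq_zero fun i _ => sum_eq_zero fun j _ => if_neg ?_
  have := i.2; have := j.2
  omega

lemma ham_jl (hQ : 1 ≤ Q) {f : Orbs n Q → ℝ} (hf : IsFermionic f) : ham (jl f) = jl (ham f) := by
  rcases lt_or_ge n 2 with hn | hn
  · rw [ham_small hn, ham_small hn]
    exact (map_zero jlL).symm
  obtain ⟨N, rfl⟩ : ∃ N, n = N + 2 := ⟨n - 2, by omega⟩
  refine eq_of_dot (ham_fermionic (jl_fermionic hf)) (jl_fermionic (ham_fermionic hf)) fun φ hφ => ?_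
  rw [form_eq_ham, form_jl hQ hφ hf, dot_comm φ, dot_jl, dot_comm, form_eq_ham]

lemma ham_jr (hQ : 1 ≤ Q) {f : Orbs n Q → ℝ} (hf : IsFermionic f) : ham (jr f) = jr (ham f) := by
  refine eq_of_dot (ham_fermionic (jr_fermionic hf)) (jr_fermionic (ham_fermionic hf)) fun φ hφ => ?_
  rw [form_eq_ham, form_comm, ← form_eq_ham, dot_comm (jr f), ← dot_jl, ← ham_jl hQ hφ, dot_comm,
    form_eq_ham, form_comm, ← form_eq_ham, dot_jl]

lemma ham_wgt (hQ : 1 ≤ Q) {f : Orbs n Q → ℝ} (hf : IsFermionic f) : ham (wgt f) = wgt (ham f) := by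
  rcases lt_or_ge n 2 with hn | hn
  · rw [ham_small hn, ham_small hn]
    exact (map_zero wgtL).symm
  obtain ⟨N, rfl⟩ : ∃ N, n = N + 2 := ⟨n - 2, by omega⟩
  refine eq_of_dot (ham_fermionic (wgt_fermionic hf)) (wgt_fermionic (ham_fermionic hf)) fun φ hφ => ?_
  rw [form_eq_ham, form_wgt hQ hφ hf, ← dot_wgt, form_eq_ham]

/-- An orthonormal basis of an eigenspace is a stable family. -/
lemma stable_eigen (hQ : 1 ≤ Q) (μ : ℝ) :
    ∃ e : Fin (Module.finrank ℝ (Module.End.eigenspace (hamOp n Q) μ)) → Orbs n Q → ℝ,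
      Stable e ∧ (∀ i, ham (e i) = μ • e i) ∧ ∀ i, dot (e i) (e i) = 1 := by
  classical
  set K := Module.End.eigenspace (hamOp n Q) μ
  set b := stdOrthonormalBasis ℝ K
  set e : Fin (Module.finrank ℝ K) → Orbs n Q → ℝ := fun i => (b i).1.1.ofLp with he
  have hfer : ∀ i, IsFermionic (e i) := fun i => (b i).1.2
  have hin : ∀ u v : K, inner ℝ u v = dot u.1.1.ofLp v.1.1.ofLp := fun u v => by
    rw [Submodule.coe_inner, Submodule.coe_inner, PiLp.inner_apply]
    exact sum_congr rfl fun y _ => by simp [mul_comm]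
  have hev : ∀ i, ham (e i) = μ • e i := fun i => by
    have h := Module.End.mem_eigenspace_iff.1 (b i).2
    exact congrArg (fun u : fermions n Q => u.1.ofLp) h
  have hexp : ∀ (g : Orbs n Q → ℝ), IsFermionic g → ham g = μ • g →
      g = ∑ j, dot (e j) g • e j := by
    intro g hg hgμ
    set u : fermions n Q := ⟨WithLp.toLp 2 g, hg⟩ with hu
    have hmem : u ∈ K := Module.End.mem_eigenspace_iff.2 (Subtype.ext (by
      show WithLp.toLp 2 (ham g) = _
      rw [hgμ]
      rfl))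
    have h := b.sum_repr' (⟨u, hmem⟩ : K)
    have h' := congrArg (fun v : K => v.1.1.ofLp) h
    simp only [hin] at h'
    simpa [he, hu] using h'.symm
  refine ⟨e, ⟨hfer, ?_, ?_⟩, hev, fun i => ?_⟩
  · refine ⟨fun i j => dot (e j) (jl (e i)), fun i => ?_, fun i => ?_⟩
    · refine hexp _ (jl_fermionic (hfer i)) ?_
      rw [ham_jl hQ (hfer i), hev]
      exact map_smul jlL μ (e i)
    · have h := hexp _ (jr_fermionic (hfer i)) (by
        rw [ham_jr hQ (hfer i), hev]
        exact map_smul jrL μ (e i))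
      refine h.trans (sum_congr rfl fun j _ => ?_)
      show dot (e j) (jr (e i)) • e j = dot (e i) (jl (e j)) • e j
      rw [← dot_jl, dot_comm]
  · refine ⟨fun i j => dot (e j) (wgt (e i)), fun i j => ?_, fun i => ?_⟩
    · show dot (e j) (wgt (e i)) = dot (e i) (wgt (e j))
      rw [← dot_wgt, dot_comm]
    · refine hexp _ (wgt_fermionic (hfer i)) ?_
      rw [ham_wgt hQ (hfer i), hev]
      exact map_smul wgtL μ (e i)
  · rw [he, ← hin, real_inner_self_eq_norm_sq, b.orthonormal.1]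
    norm_num

/-- **ReducePin**. -/
theorem reducePin : ReducePin := by
  intro n Q δ hQ h ψ hψ
  set A := hamOp n Q
  have hin : ∀ u v : fermions n Q, inner ℝ u v = dot u.1.ofLp v.1.ofLp := fun u v => by
    rw [Submodule.coe_inner, PiLp.inner_apply]
    exact sum_congr rfl fun y _ => by simp [mul_comm]
  have hA : ∀ u v, inner ℝ u (A v) = form u.1.ofLp v.1.ofLp := fun u v => by
    rw [hin]; exact form_eq_ham _ _
  have hsym : A.IsSymmetric := fun u v => by rw [real_inner_comm, hA, hA, form_comm]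
  set b := hsym.eigenvectorBasis (rfl : Module.finrank ℝ (fermions n Q) = _)
  set μ := hsym.eigenvalues (rfl : Module.finrank ℝ (fermions n Q) = _)
  have hb : ∀ i, A (b i) = μ i • b i := fun i => by
    exact_mod_cast hsym.apply_eigenvectorBasis rfl i
  have hkey : ∀ i, δ * μ i ≤ μ i * μ i := by
    intro i
    obtain ⟨e, hst, hev, hnorm⟩ := stable_eigen (n := n) hQ (μ i)
    have hs := h _ e hst
    have hone : ∀ j, normSq (ham (e j)) - δ * energy (e j) = μ i * μ i - δ * μ i := fun j => by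
      have h1 : energy (e j) = μ i := by
        rw [energy_eq_sum_mul_ham, show ∑ y, e j y * ham (e j) y = dot (e j) (ham (e j)) from rfl,
          hev, dot_smul_right, hnorm, mul_one]
      have h2 : normSq (ham (e j)) = μ i * μ i := by
        rw [show normSq (ham (e j)) = dot (ham (e j)) (ham (e j)) from by simp [normSq, dot, sq],
          hev, dot_smul_left, dot_smul_right, hnorm, mul_one]
      rw [h1, h2]
    simp only [hone, sum_const, card_univ, Fintype.card_fin, nsmul_eq_mul] at hs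
    have hpos : 0 < Module.finrank ℝ (Module.End.eigenspace (hamOp n Q) (μ i)) := by
      refine Submodule.one_le_finrank_iff.2 ?_
      exact fun hbot => b.orthonormal.ne_zero i
        ((Submodule.mem_bot ℝ).1 (hbot ▸ Module.End.mem_eigenspace_iff.2 (hb i)))
    have := nonneg_of_mul_nonneg_right hs (Nat.cast_pos.2 hpos)
    linarith
  set x : fermions n Q := ⟨WithLp.toLp 2 ψ, hψ⟩
  have e1 : energy ψ = inner ℝ x (A x) := by rw [hA, form_self]
  have e2 : normSq (ham ψ) = inner ℝ (A x) (A x) := by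
    rw [hin]
    simp [normSq, dot, sq, A, x, hamOp]
  have hc : ∀ i, inner ℝ (b i) (A x) = μ i * inner ℝ (b i) x := fun i => by
    rw [← hsym (b i) x, hb]
    exact @inner_smul_left ℝ (fermions n Q) _ _ _ (b i) x (μ i)
  rw [e1, e2, ← b.sum_inner_mul_inner x (A x), ← b.sum_inner_mul_inner (A x) (A x), mul_sum]
  refine sum_le_sum fun i _ => ?_
  rw [real_inner_comm (b i) x, real_inner_comm (b i) (A x), hc]
  calc δ * (inner ℝ (b i) x * (μ i * inner ℝ (b i) x))
      = (δ * μ i) * (inner ℝ (b i) x) ^ 2 := by ring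
    _ ≤ (μ i * μ i) * (inner ℝ (b i) x) ^ 2 :=
        mul_le_mul_of_nonneg_right (hkey i) (sq_nonneg _)
    _ = _ := by ring

end Vale.Agent.P359.Mom
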