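import Vale.Agent.P359.Mom.Defs

/-!
# P359: interfaces between the blocks

`Model` (helper1): MomPin, ObjPin, ReducePin. `Window` (helper6): WinPin. `Channels` (helper2, helper3)
and `Cert` (helper7, helper5) together give BoundPin. The assembly gives the gap.
-/

noncomputable section

open Finset Filter

namespace Vale.Agent.P359.Mom

open Upper Kernel

/-- The moments of a stable family satisfy the axioms. -/
def MomPin : Prop :=
  ∀ (N Q r : ℕ) (e : Fin r → Orbs (N + 4) Q → ℝ), 1 ≤ Q → Stable e → IsMom Q (dataOf e)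

/-- The Hamiltonian in moments. -/
def ObjPin : Prop :=
  ∀ (N Q r : ℕ) (δ : ℝ) (e : Fin r → Orbs (N + 4) Q → ℝ), 1 ≤ Q → Stable e →
    ∑ i, (normSq (ham (e i)) - δ * energy (e i))
      = ((N + 4).choose 2 : ℝ) * gapForm Q δ (dataOf e)

/-- It suffices to treat stable families (orthonormal bases of eigenspaces of `ham`). -/
def ReducePin : Prop :=
  ∀ (n Q : ℕ) (δ : ℝ), 1 ≤ Q →
    (∀ (r : ℕ) (e : Fin r → Orbs n Q → ℝ), Stable e →
      0 ≤ ∑ i, (normSq (ham (e i)) - δ * energy (e i))) →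
    ∀ ψ : Orbs n Q → ℝ, IsFermionic ψ → δ * energy ψ ≤ normSq (ham ψ)

/-- Data of a window operator: symmetric coefficients on functionals given through the moments. -/
structure WinData where
  W : ℕ
  n1 : ℕ
  n2 : ℕ
  q0 : ℕ → ℝ
  c1 : Fin n1 → J1 → ℝ
  q1 : Fin n1 → Fin n1 → ℝ
  c2 : Fin n2 → J2 → ℝ
  q2 : Fin n2 → Fin n2 → ℝ

/-- The sign of moving the set `A` in front of `R`. -/
def setSign (A R : Finset ℕ) : ℝ := (-1) ^ ((A ×ˢ R).filter fun u => u.2 < u.1).card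

/-- Value of a `k`-particle functional `g` on `v`, the other particles occupying `R`. -/
def setApply (W k : ℕ) (g : Finset ℕ → ℝ) (v : Finset ℕ → ℝ) (R : Finset ℕ) : ℝ :=
  ∑ A ∈ ((range W \ R).powersetCard k), setSign A R * g A * v (A ∪ R)

/-- Evaluation of a tuple function on the increasing enumeration of a set. -/
def onSet {k : ℕ} (g : (Fin k → ℕ) → ℝ) (A : Finset ℕ) : ℝ :=
  if h : A.card = k then g (A.orderEmbOfFin h) else 0

/-- The functional `(k, l) ↦ l - k` on `k + l = s`. -/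
def pairFun (s : ℕ) (x : Fin 2 → ℕ) : ℝ := if x 0 + x 1 = s then (x 1 : ℝ) - x 0 else 0

/-- The quadratic form of the window operator on the window Fock space at flux `Q`. -/
def fockForm (Q : ℕ) (w : WinData) (v : Finset ℕ → ℝ) : ℝ :=
  ∑ R ∈ (range w.W).powerset, (∏ k ∈ R, cw Q k)⁻¹ *
    ((∑ s ∈ range w.W, w.q0 s * setApply w.W 2 (onSet (pairFun s)) v R ^ 2)
      + (∑ a, ∑ b, w.q1 a b * setApply w.W 3 (onSet (ev1 (w.c1 a))) v R
          * setApply w.W 3 (onSet (ev1 (w.c1 b))) v R)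
      + ∑ a, ∑ b, w.q2 a b * setApply w.W 4 (onSet (ev2 (w.c2 a))) v R
          * setApply w.W 4 (onSet (ev2 (w.c2 b))) v R)

/-- The same operator in the moments. -/
def winForm (Q : ℕ) (w : WinData) (D : Data) : ℝ :=
  (∑ s ∈ range w.W, w.q0 s * D.y0 s s) / 4
    + (∑ a, ∑ b, w.q1 a b * ∑ p ∈ I1 Q, ∑ q ∈ I1 Q, w.c1 a p * w.c1 b q * D.z1 p q)
    + ∑ a, ∑ b, w.q2 a b * ∑ p ∈ I2 Q, ∑ q ∈ I2 Q, w.c2 a p * w.c2 b q * D.z2 p q

/-- The functionals live in the window. -/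
structure WinData.Local (w : WinData) (Q : ℕ) : Prop where
  le : w.W ≤ Q
  local1 : ∀ a, ∀ x : Fin 3 → ℕ, (∀ i, x i ≤ Q) → (∃ i, w.W ≤ x i) → ev1 (w.c1 a) x = 0
  local2 : ∀ a, ∀ x : Fin 4 → ℕ, (∀ i, x i ≤ Q) → (∃ i, w.W ≤ x i) → ev2 (w.c2 a) x = 0

/-- Positivity on the window Fock space gives positivity on every family. -/
def WinPin : Prop :=
  ∀ (N Q r : ℕ) (w : WinData) (e : Fin r → Orbs (N + 4) Q → ℝ), 1 ≤ Q → Stable e →
    w.Local Q → (∀ v : Finset ℕ → ℝ, 0 ≤ fockForm Q w v) → 0 ≤ winForm Q w (dataOf e)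

/-- The certificate: local, positive on the window, and its average is below the gap form. -/
def BoundPin : Prop :=
  ∃ (δ : ℝ) (w : WinData), 0 < δ ∧ ∀ᶠ Q in atTop, w.Local Q ∧
    (∀ v : Finset ℕ → ℝ, 0 ≤ fockForm Q w v) ∧
    ∀ D : Data, IsMom Q D → 0 ≤ winForm Q w D → 0 ≤ gapForm Q δ D

/-- The gap inequality for all large flux and every number of particles. -/
def GapPin : Prop :=
  ∃ δ : ℝ, 0 < δ ∧ ∀ᶠ Q in atTop, ∀ N : ℕ, ∀ ψ : Orbs (N + 4) Q → ℝ,
    IsFermionic ψ → δ * energy ψ ≤ normSq (ham ψ)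

theorem gapPin_of (hm : MomPin) (ho : ObjPin) (hr : ReducePin) (hw : WinPin) (hb : BoundPin) :
    GapPin := by
  obtain ⟨δ, w, hδ, hb⟩ := hb
  refine ⟨δ, hδ, ?_⟩
  filter_upwards [hb, eventually_ge_atTop 1] with Q hQ hQ1 N ψ hψ
  refine hr (N + 4) Q δ hQ1 (fun r e he => ?_) ψ hψ
  rw [ho N Q r δ e hQ1 he]
  exact mul_nonneg (Nat.cast_nonneg _)
    (hQ.2.2 _ (hm N Q r e hQ1 he) (hw N Q r w e hQ1 he hQ.1 hQ.2.1))

end Vale.Agent.P359.Mom
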