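import Vale.Agent.P359.Mom.Channels
import Vale.Agent.P359.Sphere.Ladder

/-!
# P359: the three-particle form in the channels, and its uniform tail
-/

noncomputable section

open Finset Filter
open scoped Nat Topology

namespace Vale.Agent.P359.Mom

open Sphere

/-- Weight of one channel of the pair-plus-one moment in `threeForm`. -/
def chan1 (Q m : ℕ) : ℝ :=
  ((spin1 Q m : ℝ) + 1) * (Q : ℝ) ^ m * (∑ i ∈ range (m + 1), hw Q m i ^ 2) / 4

theorem chan1_nonneg (Q m : ℕ) : 0 ≤ chan1 Q m := by unfold chan1; positivity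

theorem vec1_succ (Q m t : ℕ) (p : J1) : vec1 Q m (t + 1) p = up1 Q (vec1 Q m t) p := by
  rw [vec1, Function.iterate_succ_apply']; rfl

theorem vec1_zero_fst (Q m : ℕ) : ∀ t a, vec1 Q m t (0, a) = 0
  | 0, a => by simp [vec1, low1]
  | t + 1, a => by
      rw [vec1_succ, up1]
      have : uR Q 0 = 0 := by simp [uR]
      simp [this, vec1_zero_fst Q m t (a - 1)]

theorem vec1_eq (Q m : ℕ) :
    ∀ t i a, vec1 Q m t (i + 1, a) = (-1) ^ m * ladder Q m t i a / (Q : ℝ) ^ t
  | 0, i, a => by
      simp only [vec1, ladder, Function.iterate_zero_apply, low1, extremal, pow_zero, div_one]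
      by_cases h : i + a = m
      · rw [if_pos ⟨by omega, by omega⟩, if_pos h, ← h, ← Nat.choose_symm_add, pow_add]
        have hi : ((-1 : ℝ) ^ i) * (-1) ^ i = 1 := by rw [← mul_pow]; norm_num
        calc (-1 : ℝ) ^ a * ((i + a).choose i : ℕ)
            = ((-1) ^ i * (-1) ^ i) * ((-1) ^ a * ((i + a).choose i : ℕ)) := by rw [hi, one_mul]
          _ = _ := by ring
      · rw [if_neg h, mul_zero, if_neg fun hc => h (Nat.succ.inj (by omega))]
  | t + 1, i, a => by
      rw [vec1_succ, up1, ladder_succ, lift]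
      dsimp only
      rw [Nat.add_sub_cancel]
      have hR : uR Q (i + 1) * vec1 Q m t (i, a)
          = (-1) ^ m * (if i = 0 then 0 else
              ((2 * Q - 2 - (i - 1) : ℕ) : ℝ) * ladder Q m t (i - 1) a) / (Q : ℝ) ^ (t + 1) := by
        rcases i with _ | j
        · simp [uR]
        · rw [uR, if_pos (by omega), vec1_eq Q m t j a, if_neg (Nat.succ_ne_zero j),
            Nat.add_sub_cancel, show 2 * Q - (j + 1 + 1) = 2 * Q - 2 - j by omega, pow_succ]
          simp only [div_eq_mul_inv, mul_inv]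
          ring
      have hO : uO Q a * vec1 Q m t (i + 1, a - 1)
          = (-1) ^ m * (if a = 0 then 0 else
              ((Q - (a - 1) : ℕ) : ℝ) * ladder Q m t i (a - 1)) / (Q : ℝ) ^ (t + 1) := by
        rcases a with _ | j
        · simp [uO]
        · rw [uO, if_pos (by omega), Nat.add_sub_cancel, vec1_eq Q m t i j,
            if_neg (Nat.succ_ne_zero j), show Q + 1 - (j + 1) = Q - j by omega, pow_succ]
          simp only [div_eq_mul_inv, mul_inv]
          ring
      rw [hR, hO]
      ring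

theorem lad_eq (Q m t : ℕ) (hm : m ≤ Q) (hQ : 2 ≤ Q) :
    lad Q (spin1 Q m) t = ladderFac Q m t / (Q : ℝ) ^ t := by
  rw [lad, ladderFac, prod_div_distrib, prod_const, card_range, prod_mul_distrib,
    ← prod_range_add_one_eq_factorial]
  push_cast
  congr 2
  refine prod_congr rfl fun u _ => ?_
  rw [spin1, Nat.cast_sub (by omega : 2 * m ≤ 3 * Q - 2), Nat.cast_sub (by omega : 2 ≤ 3 * Q)]
  push_cast
  ring

theorem ladderFac_pos {Q m t : ℕ} (ht : t ≤ spin1 Q m) :
    0 < ladderFac Q m t := by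
  refine mul_pos (by exact_mod_cast Nat.factorial_pos t) (prod_pos fun u hu => ?_)
  rw [mem_range] at hu
  have h : 2 * m + u + 3 ≤ 3 * Q := by unfold spin1 at ht; omega
  have h' : (2 * (m : ℝ) + u + 3) ≤ 3 * Q := by exact_mod_cast h
  linarith

theorem pn_eq (Q i : ℕ) (hQ : 1 ≤ Q) : pn Q (i + 1) = 2 * cP Q i / (Q : ℝ) ^ i := by
  have hQ' : (Q : ℝ) ≠ 0 := by exact_mod_cast (by omega : Q ≠ 0)
  rw [pn, ← Nat.sum_antidiagonal_eq_sum_range_succ
    (fun k l => ((l : ℝ) - k) ^ 2 * cw Q k * cw Q l)]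
  have h : ∀ p ∈ antidiagonal (i + 1), ((p.2 : ℝ) - p.1) ^ 2 * cw Q p.1 * cw Q p.2
      = (Q.choose p.1 : ℝ) * Q.choose p.2 * ((p.2 : ℝ) - p.1) ^ 2 / (Q : ℝ) ^ (i + 1) := by
    intro p hp
    rw [HasAntidiagonal.mem_antidiagonal] at hp
    rw [cw, cw, ← hp, pow_add]
    field_simp
  rw [sum_congr rfl h, ← sum_div, sum_choose_sq Q i hQ, cP, pow_succ]
  field_simp

/-- The exchange matrix on one member of a multiplet. -/
theorem sum_tmat_vec1 {Q m t : ℕ} (hQ : 2 ≤ Q) (hm : m ≤ Q) :
    ∑ p ∈ I1 Q, ∑ q ∈ I1 Q, tmat Q p q * (vec1 Q m t p * vec1 Q m t q)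
      = -((Q : ℝ) ^ m / (Q : ℝ) ^ t / 4) * ip Q (exchOp Q (ladder Q m t)) (ladder Q m t) := by
  classical
  have hQ' : (Q : ℝ) ≠ 0 := by exact_mod_cast (by omega : Q ≠ 0)
  set v := vec1 Q m t with hv
  calc ∑ p ∈ I1 Q, ∑ q ∈ I1 Q, tmat Q p q * (v p * v q)
      = ∑ a ∈ range (Q + 1), ∑ a' ∈ range (Q + 1), ∑ b ∈ range (Q + 1),
          ∑ s ∈ range (2 * Q), ∑ s' ∈ range (2 * Q), if s = a' + b ∧ s' = b + a then
            cw Q b * ((b : ℝ) - a') * ((a : ℝ) - b) / (pn Q s * pn Q s') * (v (s, a) * v (s', a'))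
          else 0 := by
        rw [I1, sum_product, sum_comm]
        refine sum_congr rfl fun a _ => ?_
        have : ∀ s, ∑ q ∈ range (2 * Q) ×ˢ range (Q + 1), tmat Q (s, a) q * (v (s, a) * v q)
            = ∑ a' ∈ range (Q + 1), ∑ b ∈ range (Q + 1), ∑ s' ∈ range (2 * Q),
              if s = a' + b ∧ s' = b + a then
                cw Q b * ((b : ℝ) - a') * ((a : ℝ) - b) / (pn Q s * pn Q s') * (v (s, a) * v (s', a'))
              else 0 := by
          intro s
          rw [sum_product, sum_comm]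
          refine sum_congr rfl fun a' _ => ?_
          simp only [tmat, sum_mul]
          rw [sum_comm]
          refine sum_congr rfl fun b _ => sum_congr rfl fun s' _ => ?_
          simp only [ite_mul, zero_mul, eq_comm (a := a' + b), eq_comm (a := b + a)]
        simp only [this]
        rw [sum_comm]
        exact sum_congr rfl fun a' _ => sum_comm
    _ = ∑ a ∈ range (Q + 1), ∑ b ∈ range (Q + 1), ∑ l ∈ range (Q + 1),
          -((Q : ℝ) ^ m / (Q : ℝ) ^ t / 4) * ((1 / (Q : ℝ)) * (((l : ℝ) - b) * ((l : ℝ) - a) * cS Q l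
            * (ladder Q m t (a + l - 1) b / cP Q (a + l - 1))
            * (ladder Q m t (b + l - 1) a / cP Q (b + l - 1)))) := by
        refine sum_congr rfl fun a ha => sum_congr rfl fun a' ha' => sum_congr rfl fun b hb => ?_
        rw [mem_range] at ha ha' hb
        have hL := inBox_ladder hQ hm t

        -- collapse the two pair sums
        have hcol : ∑ s ∈ range (2 * Q), ∑ s' ∈ range (2 * Q), (if s = a' + b ∧ s' = b + a then
              cw Q b * ((b : ℝ) - a') * ((a : ℝ) - b) / (pn Q s * pn Q s') * (v (s, a) * v (s', a'))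
            else 0)
            = cw Q b * ((b : ℝ) - a') * ((a : ℝ) - b) / (pn Q (a' + b) * pn Q (b + a))
                * (v (a' + b, a) * v (b + a, a')) := by
          by_cases h1 : a' + b < 2 * Q
          · by_cases h2 : b + a < 2 * Q
            · rw [sum_eq_single (a' + b), sum_eq_single (b + a), if_pos ⟨rfl, rfl⟩]
              · intro s' _ h; rw [if_neg (by tauto)]
              · intro h; exact absurd (mem_range.2 h2) h
              · intro s _ h; exact sum_eq_zero fun s' _ => if_neg (by tauto)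
              · intro h; exact absurd (mem_range.2 h1) h
            · rw [sum_eq_zero fun s _ => sum_eq_zero fun s' hs' => if_neg (by
                rw [mem_range] at hs'; omega), show a = b by omega]
              simp
          · rw [sum_eq_zero fun s hs => sum_eq_zero fun s' _ => if_neg (by
              rw [mem_range] at hs; omega), show a' = b by omega]
            simp
        rw [hcol]
        rcases Nat.eq_zero_or_pos (a' + b) with h1 | h1
        · simp [show a' = 0 by omega, show b = 0 by omega]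
        rcases Nat.eq_zero_or_pos (b + a) with h2 | h2
        · simp [show a = 0 by omega, show b = 0 by omega]
        obtain ⟨i, hi⟩ : ∃ i, a' + b = i + 1 := ⟨a' + b - 1, by omega⟩
        obtain ⟨j, hj⟩ : ∃ j, b + a = j + 1 := ⟨b + a - 1, by omega⟩
        rw [show a' + b - 1 = i by omega, show a + b - 1 = j by omega, hi, hj, hv, vec1_eq, vec1_eq,
          pn_eq Q i (by omega), pn_eq Q j (by omega)]
        by_cases hg : i + a = m + t
        · have he : i + j + 1 = m + t + b := by omega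
          have hsgn : ((-1 : ℝ) ^ m) * (-1) ^ m = 1 := by rw [← mul_pow]; norm_num
          have hpow : (Q : ℝ) ^ i * (Q : ℝ) ^ j * Q = (Q : ℝ) ^ m * (Q : ℝ) ^ t * (Q : ℝ) ^ b := by
            rw [← pow_add, ← pow_succ, he, pow_add, pow_add]
          rw [cw, cS]
          generalize hX : ladder Q m t i a = X
          generalize hY : ladder Q m t j a' = Y
          calc (Q.choose b : ℝ) / (Q : ℝ) ^ b * ((b : ℝ) - a') * ((a : ℝ) - b)
                / (2 * cP Q i / (Q : ℝ) ^ i * (2 * cP Q j / (Q : ℝ) ^ j))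
                * ((-1) ^ m * X / (Q : ℝ) ^ t * ((-1) ^ m * Y / (Q : ℝ) ^ t))
              = ((-1 : ℝ) ^ m * (-1) ^ m) * ((Q : ℝ) ^ i * (Q : ℝ) ^ j * Q)
                  * ((Q.choose b : ℝ) * ((b : ℝ) - a') * ((a : ℝ) - b) * X * Y)
                  / (4 * cP Q i * cP Q j * (Q : ℝ) ^ b * (Q : ℝ) ^ t * (Q : ℝ) ^ t * Q) := by
                field_simp
                ring
            _ = _ := by
                rw [hsgn, hpow]
                field_simp
                ring
        · rw [hasSum'_ladder Q m t i a hg]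
          simp
    _ = _ := by
        rw [ip_exchOp_triple _ (inBox_ladder hQ hm t)]
        simp only [mul_sum]

/-- The three-particle form, channel by channel. -/
theorem threeForm_eq {Q : ℕ} {D : Data} {γ : ℕ → ℝ} (hQ : 2 ≤ Q)
    (hexp : ∀ p ∈ I1 Q, ∀ q ∈ I1 Q, D.z1 p q = ∑ m ∈ range (Q + 1),
      ∑ t ∈ range (spin1 Q m + 1), γ m * vec1 Q m t p * vec1 Q m t q / lad Q (spin1 Q m) t) :
    threeForm Q D = -∑ m ∈ range (Q + 1), γ m * exchEig Q m * chan1 Q m := by
  have hQ' : (Q : ℝ) ≠ 0 := by exact_mod_cast (by omega : Q ≠ 0)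
  calc threeForm Q D
      = ∑ m ∈ range (Q + 1), ∑ t ∈ range (spin1 Q m + 1), γ m / lad Q (spin1 Q m) t
          * ∑ p ∈ I1 Q, ∑ q ∈ I1 Q, tmat Q p q * (vec1 Q m t p * vec1 Q m t q) := by
        rw [threeForm]
        simp only [mul_sum]
        rw [sum_congr rfl fun p hp => sum_congr rfl fun q hq => by rw [hexp p hp q hq]]
        simp only [mul_sum]
        conv_lhs => enter [2, p]; rw [sum_comm]
        rw [sum_comm]
        refine sum_congr rfl fun m _ => ?_
        conv_lhs => enter [2, p]; rw [sum_comm]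
        rw [sum_comm]
        exact sum_congr rfl fun t _ => sum_congr rfl fun p _ => sum_congr rfl fun q _ => by ring
    _ = _ := by
        rw [← sum_neg_distrib]
        refine sum_congr rfl fun m hm => ?_
        rw [mem_range] at hm
        have hterm : ∀ t ∈ range (spin1 Q m + 1), γ m / lad Q (spin1 Q m) t
            * ∑ p ∈ I1 Q, ∑ q ∈ I1 Q, tmat Q p q * (vec1 Q m t p * vec1 Q m t q)
            = -(γ m * exchEig Q m * (Q : ℝ) ^ m * (∑ i ∈ range (m + 1), hw Q m i ^ 2) / 4) := by
          intro t ht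
          rw [mem_range] at ht
          have hK : exchOp Q (ladder Q m t) = exchEig Q m • ladder Q m t := by
            unfold exchEig
            split_ifs with h0
            · subst h0; rw [exchOp_ladder_zero hQ, one_smul]
            · exact exchOp_ladder hQ (by omega) (by omega) t
          rw [sum_tmat_vec1 hQ (by omega), hK, ip_smul_left,
            ip_ladder hQ (by omega) (by omega), if_pos ⟨rfl, rfl⟩, ip_extremal hQ (by omega),
            lad_eq Q m t (by omega) hQ]
          have := (ladderFac_pos (Q := Q) (m := m) (t := t) (by omega)).ne'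
          field_simp
        rw [sum_congr rfl hterm, sum_const, card_range, nsmul_eq_mul, chan1]
        push_cast
        ring

theorem pairForm_eq {Q : ℕ} {D : Data} (hQ : 2 ≤ Q) (hD : IsMom Q D) {y : ℝ}
    (hy : ∀ s, 1 ≤ s → s < 2 * Q → D.y0 s s = y * pn Q s) :
    pairForm Q D = ((2 * Q - 1 : ℕ) : ℝ) * y := by
  rw [pairForm, I0, show 2 * Q = 2 * Q - 1 + 1 by omega, sum_range_succ', Nat.add_sub_cancel,
    hD.out0 0 0 (Or.inl rfl), zero_div, add_zero,
    sum_congr rfl (g := fun _ => y) fun i hi => ?_]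
  · rw [sum_const, card_range, nsmul_eq_mul]
  · rw [mem_range] at hi
    have hpos : 0 < pn Q (i + 1) := by
      rw [pn_eq Q i (by omega)]
      have := cP_pos (Q := Q) (i := i) (by omega)
      have : (0 : ℝ) < Q := by exact_mod_cast (by omega : 0 < Q)
      positivity
    rw [hy (i + 1) (by omega) (by omega), mul_div_cancel_right₀ _ hpos.ne']

/-- The tail of the three-particle form against the pair form. -/
theorem three_tail {Q M : ℕ} {D : Data} {γ : ℕ → ℝ} (hQ : 2 ≤ Q) (hM : 1 ≤ M) (hD : IsMom Q D)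
    (hγ : ∀ m, 0 ≤ γ m)
    (hexp : ∀ p ∈ I1 Q, ∀ q ∈ I1 Q, D.z1 p q = ∑ m ∈ range (Q + 1),
      ∑ t ∈ range (spin1 Q m + 1), γ m * vec1 Q m t p * vec1 Q m t q / lad Q (spin1 Q m) t)
    {y : ℝ} (hy : ∀ s, 1 ≤ s → s < 2 * Q → D.y0 s s = y * pn Q s) (d : ℕ → ℝ) (hd0 : ∀ k, 0 ≤ d k)
    (hd : ∀ m, M ≤ m → m ≤ Q → exch Q m ≤ ∑ p ∈ range (Q - m + 1), d (m + p) * symb Q m p) :
    ∑ m ∈ range (Q + 1), (if M ≤ m then γ m * exchEig Q m * chan1 Q m else 0)
      ≤ (∑ k ∈ range (Q + 1), d k) / 2 * pairForm Q D := by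
  classical
  have hQpos : (0 : ℝ) < Q := by exact_mod_cast (by omega : 0 < Q)
  have hQ' : (Q : ℝ) ≠ 0 := hQpos.ne'
  set c : ℕ → ℕ → ℝ := fun k m =>
    if M ≤ m ∧ m ≤ k then γ m * ((Q - m).descFactorial (k - m) : ℕ) ^ 2
      / ((Q : ℝ) ^ (k - m) * ladderFac Q m (k - m)) else 0 with hc
  -- Pauli at `(1, k)`
  have hP : ∀ k ∈ range (Q + 1), ∑ m ∈ range (Q + 1), c k m ≤ cw Q k * (2 * y) := by
    intro k hk
    rw [mem_range] at hk
    have h1 : (1, k) ∈ I1 Q := by simp [I1]; omega
    have hp := hD.pauli 1 k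
    rw [hexp _ h1 _ h1, hy 1 le_rfl (by omega), show pn Q 1 = 2 by
      simpa [cP_zero] using pn_eq Q 0 (by omega)] at hp
    rw [mul_comm 2 y]
    refine le_trans ?_ hp
    refine sum_le_sum fun m hm => ?_
    rw [mem_range] at hm
    have hnn : ∀ t ∈ range (spin1 Q m + 1),
        0 ≤ γ m * vec1 Q m t (1, k) * vec1 Q m t (1, k) / lad Q (spin1 Q m) t := by
      intro t ht
      rw [mem_range] at ht
      rw [mul_assoc, lad_eq Q m t (by omega) hQ]
      have := ladderFac_pos (Q := Q) (m := m) (t := t) (by omega)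
      exact div_nonneg (mul_nonneg (hγ m) (mul_self_nonneg _)) (by positivity)
    by_cases hmk : M ≤ m ∧ m ≤ k
    · have hts : k - m ≤ spin1 Q m := by unfold spin1; omega
      refine le_trans (le_of_eq ?_) (single_le_sum hnn (mem_range.2 (Nat.lt_succ_of_le hts)))
      rw [show (1 : ℕ) = 0 + 1 from rfl, vec1_eq, lad_eq Q m _ (by omega) hQ, hc]
      simp only [if_pos hmk]
      have hz := ladder_zero_row Q m (k - m)
      rw [show m + (k - m) = k by omega] at hz
      rw [hz]
      have hsgn : ((-1 : ℝ) ^ m) * (-1) ^ m = 1 := by rw [← mul_pow]; norm_num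
      have := (ladderFac_pos hts).ne'
      field_simp
      linear_combination
        (-(γ m * (((Q - m).descFactorial (k - m) : ℕ) : ℝ) ^ 2)) * hsgn
    · simp only [hc, if_neg hmk]
      exact sum_nonneg hnn
  have hdw : ∀ k ∈ range (Q + 1), 0 ≤ d k * ((2 * Q - 1 : ℕ) : ℝ) / cw Q k := fun k _ => by
    have := hd0 k
    unfold cw; positivity
  calc ∑ m ∈ range (Q + 1), (if M ≤ m then γ m * exchEig Q m * chan1 Q m else 0)
      ≤ ∑ m ∈ range (Q + 1), ∑ k ∈ range (Q + 1),
          d k * ((2 * Q - 1 : ℕ) : ℝ) / cw Q k * c k m / 4 := by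
        refine sum_le_sum fun m hm => ?_
        rw [mem_range] at hm
        split_ifs with hMm
        swap
        · refine (sum_eq_zero fun k _ => ?_).ge
          simp [hc, hMm]
        rw [exchEig, if_neg (by omega)]
        refine le_trans (mul_le_mul_of_nonneg_right (mul_le_mul_of_nonneg_left
          (hd m hMm (by omega)) (hγ m)) (chan1_nonneg Q m)) (le_of_eq ?_)
        symm
        rw [← sum_subset (s₁ := Ico m (Q + 1)) (fun k hk => mem_range.2 (mem_Ico.1 hk).2)
          (fun k hk hk' => ?_), sum_Ico_eq_sum_range, show Q + 1 - m = Q - m + 1 by omega, mul_sum,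
          sum_mul]
        swap
        · rw [mem_range] at hk
          rw [mem_Ico] at hk'
          simp [hc, show ¬m ≤ k by omega]
        refine sum_congr rfl fun g hg => ?_
        rw [mem_range] at hg
        have hts : g ≤ spin1 Q m := by unfold spin1; omega
        simp only [hc, if_pos (show M ≤ m ∧ m ≤ m + g from ⟨hMm, Nat.le_add_right m g⟩),
          Nat.add_sub_cancel_left]
        have hpw := pole_weight hQ (show m + g ≤ Q by omega)
        rw [ip_pole (by omega : m + g ≤ Q), ladder_zero_row, ip_ladder hQ (by omega) (by omega),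
          if_pos ⟨rfl, rfl⟩, ip_extremal hQ (by omega)] at hpw
        have hs : ((spin1 Q m : ℝ) + 1) = ((3 * Q - 1 - 2 * m : ℕ) : ℝ) := by
          rw [show 3 * Q - 1 - 2 * m = spin1 Q m + 1 by unfold spin1; omega]; push_cast; rfl
        have hs0 : (0 : ℝ) < ((3 * Q - 1 - 2 * m : ℕ) : ℝ) := by exact_mod_cast (by omega)
        have hF := (ladderFac_pos hts).ne'
        have hC := (cS_pos (show m + g ≤ Q by omega)).ne'
        have hN : (0 : ℝ) < ∑ i ∈ range (m + 1), hw Q m i ^ 2 := by
          rw [hw_normSq Q m hQ (by omega)]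
          have := Nat.choose_pos (show m ≤ 3 * Q - 1 - m by omega)
          have := Nat.choose_pos (show m ≤ 2 * Q - 2 by omega)
          have := Nat.choose_pos (show m ≤ Q by omega)
          positivity
        rw [← hpw, chan1, hs, cw, show ((Q.choose (m + g) : ℕ) : ℝ) = cS Q (m + g) from rfl,
          pow_add]
        field_simp
    _ = ∑ k ∈ range (Q + 1), d k * ((2 * Q - 1 : ℕ) : ℝ) / cw Q k
          * (∑ m ∈ range (Q + 1), c k m) / 4 := by
        rw [sum_comm]
        simp only [mul_sum, sum_div]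
    _ ≤ ∑ k ∈ range (Q + 1), d k * ((2 * Q - 1 : ℕ) : ℝ) / cw Q k * (cw Q k * (2 * y)) / 4 := by
        gcongr with k hk
        · exact hdw k hk
        · exact hP k hk
    _ = _ := by
        rw [pairForm_eq hQ hD hy, sum_div, sum_mul]
        refine sum_congr rfl fun k hk => ?_
        rw [mem_range] at hk
        have : cw Q k ≠ 0 := by
          unfold cw
          have := Nat.choose_pos (show k ≤ Q by omega)
          positivity
        field_simp
        ring

/-- **The three-particle block**: for all large `Q`, the channels below `15` and a `3/200` tail. -/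
theorem threeForm_ge (h0 : Dec0Pin) (h1 : Dec1Pin) : ∀ᶠ Q in atTop, ∀ D : Data, IsMom Q D →
    ∃ γ : ℕ → ℝ, (∀ m, 0 ≤ γ m) ∧
      (∀ p ∈ I1 Q, ∀ q ∈ I1 Q, D.z1 p q = ∑ m ∈ range (Q + 1),
        ∑ t ∈ range (spin1 Q m + 1), γ m * vec1 Q m t p * vec1 Q m t q / lad Q (spin1 Q m) t) ∧
      -(∑ m ∈ range 15, γ m * exchEig Q m * chan1 Q m) - 3 / 200 * pairForm Q D
        ≤ threeForm Q D := by
  filter_upwards [tail_majorant_fifteen, eventually_ge_atTop 15] with Q hQ hQ15 D hD
  obtain ⟨γ, hγ, hexp⟩ := h1 Q D (by omega) hD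
  obtain ⟨y, hy0, hy⟩ := h0 Q D (by omega) hD
  refine ⟨γ, hγ, hexp, ?_⟩
  have ht := three_tail (by omega) (by norm_num) hD hγ hexp hy (tailWeight 15 (1 / 37))
    (tailWeight_nonneg 15 (by norm_num)) hQ
  have hs := sum_tailWeight_fifteen (Q + 1)
  have hp : 0 ≤ pairForm Q D := by
    rw [pairForm_eq (by omega) hD hy]; positivity
  have hsplit : ∑ m ∈ range (Q + 1), γ m * exchEig Q m * chan1 Q m
      = ∑ m ∈ range 15, γ m * exchEig Q m * chan1 Q m
        + ∑ m ∈ range (Q + 1), (if 15 ≤ m then γ m * exchEig Q m * chan1 Q m else 0) := by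
    rw [← sum_filter, ← sum_filter_add_sum_filter_not (range (Q + 1)) (fun m => m < 15)]
    congr 1
    · congr 1
      ext m; simp; omega
    · simp [not_lt]
  rw [threeForm_eq (by omega) hexp, hsplit]
  nlinarith [mul_le_mul_of_nonneg_right hs hp]

/-- Planar limit of the channel weight. -/
theorem tendsto_chan1 (m : ℕ) :
    Tendsto (fun Q => chan1 Q m / Q) atTop (𝓝 (3 / 4 * (3 / 2 : ℝ) ^ m * (m ! : ℝ))) := by
  have hA := tendsto_linear 3 (1 + 2 * m)
  have hB := tendsto_choose_div (f := fun Q => 3 * Q - (1 + m)) (a := 3)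
    (by simpa using tendsto_linear 3 (1 + m)) m
  have hC := tendsto_choose_div (f := fun Q => 2 * Q - 2) (a := 2)
    (by simpa using tendsto_linear 2 2) m
  have hE := tendsto_choose_div (f := fun Q => Q) (a := 1)
    ((tendsto_linear 1 0).congr (fun Q => by simp) |>.trans (by simp)) m
  have h := ((hA.mul (hB.div (hC.mul hE) (by positivity)))).div_const 4
  have hlim : ((3 : ℕ) : ℝ) * (3 ^ m / (m ! : ℝ) / (2 ^ m / (m ! : ℝ) * (1 ^ m / (m ! : ℝ)))) / 4
      = 3 / 4 * (3 / 2 : ℝ) ^ m * (m ! : ℝ) := by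
    rw [div_pow]
    push_cast
    field_simp
    simp
  rw [← hlim]
  refine h.congr' ?_
  filter_upwards [eventually_ge_atTop (m + 2)] with Q hQ
  have hQ' : (0 : ℝ) < (Q : ℝ) := by exact_mod_cast (by omega)
  have hs : ((spin1 Q m : ℝ) + 1) = ((3 * Q - (1 + 2 * m) : ℕ) : ℝ) := by
    rw [show 3 * Q - (1 + 2 * m) = spin1 Q m + 1 by unfold spin1; omega]; push_cast; rfl
  rw [chan1, hw_normSq Q m (by omega) (by omega), hs]
  simp only [Nat.sub_sub, Pi.div_apply]
  field_simp

/-- Planar limit of the eigenvalue, including `m = 0`. -/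
theorem tendsto_exchEig : ∀ m : ℕ,
    Tendsto (fun Q => exchEig Q m) atTop (𝓝 ((-1) ^ m * (1 - 3 * (m : ℝ)) / 2 ^ m))
  | 0 => by simp [exchEig]
  | l + 1 => by simpa [exchEig] using tendsto_exch l

/-- Planar limit of one channel of `threeForm`. -/
theorem tendsto_exchEig_chan1 (m : ℕ) :
    Tendsto (fun Q => exchEig Q m * chan1 Q m / Q) atTop
      (𝓝 (3 / 4 * (1 - 3 * (m : ℝ)) * (-3 / 4 : ℝ) ^ m * (m ! : ℝ))) := by
  have h := (tendsto_exchEig m).mul (tendsto_chan1 m)
  rw [show 3 / 4 * (1 - 3 * (m : ℝ)) * (-3 / 4 : ℝ) ^ m * (m ! : ℝ)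
      = (-1) ^ m * (1 - 3 * (m : ℝ)) / 2 ^ m * (3 / 4 * (3 / 2 : ℝ) ^ m * (m ! : ℝ)) by
    rw [show (-3 / 4 : ℝ) = -1 * ((3 / 2) * (1 / 2)) by norm_num, mul_pow, mul_pow,
      div_pow 1 (2 : ℝ), one_pow]
    ring]
  simpa only [mul_div_assoc] using h

end Vale.Agent.P359.Mom
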