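import Vale.Agent.P359.Mom.ModelMom
import Vale.Agent.P359.Mom.Window.Sets

/-!
# P359: positivity on the window Fock space gives positivity on the moments

With `Φ S` the raw amplitude of the configuration `S`, every moment of a local functional is
`n!` times a sum over the configurations `S` of the remaining particles, weighted by
`(∏ k ∈ S, cw k)⁻¹`. Splitting `S` into its part inside the window and its part outside leaves a
nonnegative combination of values of `fockForm`.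
-/

noncomputable section

open Finset Function Equiv

namespace Vale.Agent.P359.Mom

open Upper

variable {n k N Q r W : ℕ}

/-- Raw amplitude, on all tuples. -/
def raw (f : Orbs n Q → ℝ) (y : Fin n → ℕ) : ℝ :=
  if h : ∀ i, y i ≤ Q then
    f (fun i => ⟨y i, Nat.lt_succ_of_le (h i)⟩) * ∏ i, √(cw Q (y i)) else 0

lemma raw_val (f : Orbs n Q → ℝ) (x : Orbs n Q) :
    raw f (fun i => (x i : ℕ)) = f x * ∏ i, √(cw Q (x i)) :=
  dif_pos fun i => Nat.lt_succ_iff.1 (x i).2

lemma raw_anti {f : Orbs n Q → ℝ} (hf : IsFermionic f) : Anti (raw f) := by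
  intro π x
  by_cases h : ∀ i, x i ≤ Q
  · rw [raw, raw, dif_pos h, dif_pos (show ∀ i, (x ∘ π) i ≤ Q from fun i => h (π i))]
    have := hf π fun i => ⟨x i, Nat.lt_succ_of_le (h i)⟩
    rw [show (fun i => (⟨(x ∘ π) i, Nat.lt_succ_of_le (h (π i))⟩ : Fin (Q + 1)))
      = (fun i => (⟨x i, Nat.lt_succ_of_le (h i)⟩ : Fin (Q + 1))) ∘ π from rfl, this,
      show ∏ i, √(cw Q ((x ∘ π) i)) = ∏ i, √(cw Q (x i)) from
        Equiv.prod_comp π fun i => √(cw Q (x i))]
    ring
  · rw [raw, raw, dif_neg h, dif_neg fun h' => h fun i => by simpa using h' (π.symm i), mul_zero]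

lemma raw_sum {ι : Type*} (s : Finset ι) (c : ι → ℝ) (f : ι → Orbs n Q → ℝ) (x : Fin n → ℕ) :
    raw (∑ p ∈ s, c p • f p) x = ∑ p ∈ s, c p * raw (f p) x := by
  unfold raw
  split_ifs with h
  · simp only [Finset.sum_apply, Pi.smul_apply, smul_eq_mul, sum_mul, mul_assoc]
  · simp

lemma raw_rsl (a : ℕ) (f : Orbs (n + 1) Q → ℝ) (x : Fin n → ℕ) :
    raw (rsl a f) x = raw f (Fin.cons a x) := by
  by_cases h : a ≤ Q ∧ ∀ i, x i ≤ Q
  · obtain ⟨ha, hx⟩ := h
    have hc : ∀ i, (Fin.cons a x : Fin (n + 1) → ℕ) i ≤ Q := fun i => by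
      induction i using Fin.cases with
      | zero => simpa using ha
      | succ j => simpa using hx j
    rw [raw, raw, dif_pos hx, dif_pos hc, rsl_apply ha, Fin.prod_univ_succ]
    simp only [Fin.cons_zero, Fin.cons_succ]
    have he : (fun i => (⟨(Fin.cons a x : Fin (n + 1) → ℕ) i, Nat.lt_succ_of_le (hc i)⟩ : Fin (Q + 1)))
        = Fin.cons ⟨a, Nat.lt_succ_of_le ha⟩ fun i => ⟨x i, Nat.lt_succ_of_le (hx i)⟩ := by
      funext i
      induction i using Fin.cases with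
      | zero => rfl
      | succ j => rfl
    rw [he]
    ring
  · have hc : ¬ ∀ i, (Fin.cons a x : Fin (n + 1) → ℕ) i ≤ Q := fun hc =>
      h ⟨by simpa using hc 0, fun i => by simpa using hc i.succ⟩
    rw [raw, raw, dif_neg hc]
    split_ifs with hx
    · rw [rsl_big (not_le.1 fun ha => h ⟨ha, hx⟩)]
      simp
    · rfl

lemma raw_rpc (s : ℕ) (f : Orbs (n + 2) Q → ℝ) (x : Fin n → ℕ) :
    raw (rpc s f) x = ∑ k : Fin (Q + 1), ∑ l : Fin (Q + 1),
      if (k : ℕ) + l = s then ((l : ℝ) - k) * raw f (Fin.cons (k : ℕ) (Fin.cons (l : ℕ) x))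
        else 0 := by
  simp only [← raw_rsl]
  by_cases h : ∀ i, x i ≤ Q
  · simp only [raw, dif_pos h, rsl_fin]
    rw [rpc_eq_sum, sum_mul]
    refine sum_congr rfl fun k _ => ?_
    rw [sum_mul]
    refine sum_congr rfl fun l _ => ?_
    split_ifs <;> ring
  · simp [raw, dif_neg h]

/-- The antisymmetrisation of a functional. -/
def alt (h : (Fin k → ℕ) → ℝ) (x : Fin k → ℕ) : ℝ :=
  ∑ π : Perm (Fin k), ((π.sign : ℤ) : ℝ) * h (x ∘ π)

/-- Amplitudes of configurations. -/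
def amps (f : Orbs n Q → ℝ) : Finset ℕ → ℝ := onSet (raw f)

/-- The antisymmetrisation is supported on the window. -/
def InWindow (Q W : ℕ) (h : (Fin k → ℕ) → ℝ) : Prop :=
  ∀ x : Fin k → ℕ, (∀ i, x i ≤ Q) → (∃ i, W ≤ x i) → alt h x = 0

lemma apply_enum (hW : W ≤ Q + 1) {f : Orbs (n + k) Q → ℝ} (hf : IsFermionic f)
    {h : (Fin k → ℕ) → ℝ} (hh : InWindow Q W h) {S : Finset ℕ} (hS : S.card = n) :
    ∑ y : Orbs k Q, h (fun i => (y i : ℕ))
        * raw f (app (fun i => (y i : ℕ)) (S.orderEmbOfFin hS))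
      = setApply W k (onSet (alt h)) (amps f) S := by
  set G := fun y : Fin k → ℕ => raw f (app y (S.orderEmbOfFin hS)) with hG
  have hGa : Anti G := anti_app (raw_anti hf) _
  rw [sum_tuples Q (fun y => h y * G y) fun y hy => by rw [anti_zero hGa hy, mul_zero]]
  have hterm : ∀ A ∈ (range (Q + 1)).powersetCard k,
      onSet (fun y => ∑ π : Perm (Fin k), h (y ∘ π) * G (y ∘ π)) A
        = if Disjoint A S then setSign A S * onSet (alt h) A * amps f (A ∪ S) else 0 := by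
    intro A hA
    have hA' := (mem_powersetCard.1 hA).2
    rw [onSet_eq _ hA', onSet_eq _ hA']
    have : G (A.orderEmbOfFin hA') = if Disjoint A S then setSign A S * amps f (A ∪ S) else 0 :=
      app_enum k (raw_anti hf) hA' hS
    simp only [hGa _ _]
    rw [sum_congr rfl fun (π : Perm (Fin k)) _ => show h (⇑(A.orderEmbOfFin hA') ∘ π)
        * (((π.sign : ℤ) : ℝ) * G (A.orderEmbOfFin hA'))
      = ((π.sign : ℤ) : ℝ) * h (⇑(A.orderEmbOfFin hA') ∘ π) * G (A.orderEmbOfFin hA') by ring,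
      ← sum_mul, this, alt]
    split_ifs <;> ring
  rw [sum_congr rfl hterm, setApply]
  symm
  refine Eq.trans (sum_congr rfl fun A hA => ?_) (sum_subset (powersetCard_mono ?_) fun A hA hA' => ?_)
  · have := (mem_powersetCard.1 hA).1
    rw [if_pos (disjoint_sdiff_self_left.mono_left this)]
  · exact sdiff_subset.trans (range_mono hW)
  · split_ifs with hd
    · obtain ⟨hsub, hcard⟩ := mem_powersetCard.1 hA
      obtain ⟨u, hu, huW⟩ : ∃ u ∈ A, W ≤ u := by
        by_contra hc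
        push Not at hc
        exact hA' (mem_powersetCard.2 ⟨fun u hu => mem_sdiff.2
          ⟨mem_range.2 (hc u hu), disjoint_left.1 hd hu⟩, hcard⟩)
      obtain ⟨i, hi⟩ : u ∈ Set.range (A.orderEmbOfFin hcard) := by simpa using hu
      rw [onSet_eq _ hcard, hh _ (fun j => Nat.lt_succ_iff.1
        (mem_range.1 (hsub (orderEmbOfFin_mem _ hcard j)))) ⟨i, hi ▸ huW⟩]
      ring
    · rfl

lemma setApply_of_card {f : Orbs (n + k) Q → ℝ} (g : Finset ℕ → ℝ) {S : Finset ℕ}
    (hS : S.card ≠ n) : setApply W k g (amps f) S = 0 := by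
  refine sum_eq_zero fun A hA => ?_
  obtain ⟨hsub, hcard⟩ := mem_powersetCard.1 hA
  rw [amps, onSet_of_ne _ (A := A ∪ S), mul_zero]
  rw [card_union_of_disjoint (disjoint_sdiff_self_left.mono_left hsub), hcard]
  omega

/-- Contractions of local functionals as sums over configurations. -/
lemma pairing (hQ : 1 ≤ Q) (hW : W ≤ Q + 1) {f : Orbs (n + k) Q → ℝ} (hf : IsFermionic f)
    {L L' : Orbs n Q → ℝ} (hL : IsFermionic L) (hL' : IsFermionic L')
    {h h' : (Fin k → ℕ) → ℝ} (hh : InWindow Q W h) (hh' : InWindow Q W h')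
    (e : ∀ x, raw L x = ∑ y : Orbs k Q, h (fun i => (y i : ℕ))
      * raw f (app (fun i => (y i : ℕ)) x))
    (e' : ∀ x, raw L' x = ∑ y : Orbs k Q, h' (fun i => (y i : ℕ))
      * raw f (app (fun i => (y i : ℕ)) x)) :
    dot L L' = (n.factorial : ℝ) * ∑ S ∈ (range (Q + 1)).powerset, (∏ u ∈ S, cw Q u)⁻¹ *
      (setApply W k (onSet (alt h)) (amps f) S * setApply W k (onSet (alt h')) (amps f) S) := by
  set F := fun x : Fin n → ℕ => (∏ i, cw Q (x i))⁻¹ * (raw L x * raw L' x) with hF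
  have hdot : dot L L' = ∑ x : Orbs n Q, F fun i => (x i : ℕ) := by
    refine sum_congr rfl fun x _ => ?_
    have hp : 0 < ∏ i, cw Q (x i) :=
      prod_pos fun i _ => cw_pos hQ (Nat.lt_succ_iff.1 (x i).2)
    have hsq : (∏ i, √(cw Q (x i))) * (∏ i, √(cw Q (x i))) = ∏ i, cw Q (x i) := by
      rw [← prod_mul_distrib]
      exact prod_congr rfl fun i _ => Real.mul_self_sqrt (cw_nonneg Q _)
    show L x * L' x = _
    simp only [hF, raw_val]
    rw [show L x * (∏ i, √(cw Q (x i))) * (L' x * ∏ i, √(cw Q (x i)))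
      = ((∏ i, √(cw Q (x i))) * (∏ i, √(cw Q (x i)))) * (L x * L' x) by ring, hsq,
      inv_mul_cancel_left₀ hp.ne']
  rw [hdot, sum_tuples Q F fun x hx => by simp [hF, anti_zero (raw_anti hL) hx], mul_sum,
    ← sum_subset (s₁ := (range (Q + 1)).powersetCard n) (s₂ := (range (Q + 1)).powerset)
      (fun S hS => mem_powerset.2 (mem_powersetCard.1 hS).1) fun S hS hS' => by
        rw [setApply_of_card _ fun hc => hS' (mem_powersetCard.2 ⟨mem_powerset.1 hS, hc⟩)]
        simp]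
  refine sum_congr rfl fun S hS => ?_
  have hS' := (mem_powersetCard.1 hS).2
  rw [onSet_eq _ hS', ← apply_enum hW hf hh hS', ← apply_enum hW hf hh' hS', ← e, ← e']
  have hprod : ∀ π : Perm (Fin n),
      F (⇑(S.orderEmbOfFin hS') ∘ π) = F (S.orderEmbOfFin hS') := fun π => by
    simp only [hF, raw_anti hL π, raw_anti hL' π]
    rw [show ∏ i, cw Q ((⇑(S.orderEmbOfFin hS') ∘ π) i) = ∏ i, cw Q (S.orderEmbOfFin hS' i) from
      Equiv.prod_comp π fun i => cw Q (S.orderEmbOfFin hS' i)]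
    linear_combination ((∏ i, cw Q (S.orderEmbOfFin hS' i))⁻¹
      * (raw L (S.orderEmbOfFin hS') * raw L' (S.orderEmbOfFin hS'))) * sign_sq π
  show ∑ π : Perm (Fin n), F (⇑(S.orderEmbOfFin hS') ∘ π) = _
  simp only [hprod, sum_const, card_univ, Fintype.card_perm, Fintype.card_fin, nsmul_eq_mul]
  simp only [hF]
  have himg : ∏ i, cw Q (S.orderEmbOfFin hS' i) = ∏ u ∈ S, cw Q u := by
    conv_rhs => rw [← Finset.map_orderEmbOfFin_univ S hS', prod_map]
    rfl
  rw [himg]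

/-- The functional of a pair and a particle. -/
def fun1 (c : J1 → ℝ) (y : Fin 3 → ℕ) : ℝ := ((y 1 : ℝ) - y 0) * c (y 0 + y 1, y 2)

/-- The functional of a pair and two particles. -/
def fun2 (c : J2 → ℝ) (y : Fin 4 → ℕ) : ℝ := ((y 1 : ℝ) - y 0) * c (y 0 + y 1, y 2, y 3)

lemma alt_fun1 (c : J1 → ℝ) : alt (fun1 c) = ev1 c := by
  funext x; simp [alt, fun1, ev1, mul_assoc]

lemma alt_fun2 (c : J2 → ℝ) : alt (fun2 c) = ev2 c := by
  funext x; simp [alt, fun2, ev2, mul_assoc]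

lemma alt_pairFun (s : ℕ) (x : Fin 2 → ℕ) : alt (pairFun s) x = 2 * pairFun s x := by
  have hu : (univ : Finset (Perm (Fin 2))) = {1, swap 0 1} := by decide
  rw [alt, hu, sum_pair (by decide)]
  by_cases h : x 0 + x 1 = s <;> simp [pairFun, h, add_comm (x 1) (x 0)] <;> ring

lemma app_two (a b : Fin (Q + 1)) (z : Orbs 0 Q) (x : Fin n → ℕ) :
    app (fun i => ((Fin.cons a (Fin.cons b z) : Orbs 2 Q) i : ℕ)) x
      = Fin.cons (a : ℕ) (Fin.cons (b : ℕ) x) := by
  rw [show (fun i => ((Fin.cons a (Fin.cons b z) : Orbs 2 Q) i : ℕ))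
    = Fin.cons (a : ℕ) (Fin.cons (b : ℕ) fun i => (z i : ℕ)) from by
      funext i; fin_cases i <;> rfl, app_cons, app_cons, app_zero]

lemma app_three (a b c : Fin (Q + 1)) (z : Orbs 0 Q) (x : Fin n → ℕ) :
    app (fun i => ((Fin.cons a (Fin.cons b (Fin.cons c z)) : Orbs 3 Q) i : ℕ)) x
      = Fin.cons (a : ℕ) (Fin.cons (b : ℕ) (Fin.cons (c : ℕ) x)) := by
  rw [show (fun i => ((Fin.cons a (Fin.cons b (Fin.cons c z)) : Orbs 3 Q) i : ℕ))
    = Fin.cons (a : ℕ) (Fin.cons (b : ℕ) (Fin.cons (c : ℕ) fun i => (z i : ℕ))) from by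
      funext i; fin_cases i <;> rfl, app_cons, app_cons, app_cons, app_zero]

lemma app_four (a b c d : Fin (Q + 1)) (z : Orbs 0 Q) (x : Fin n → ℕ) :
    app (fun i => ((Fin.cons a (Fin.cons b (Fin.cons c (Fin.cons d z))) : Orbs 4 Q) i : ℕ)) x
      = Fin.cons (a : ℕ) (Fin.cons (b : ℕ) (Fin.cons (c : ℕ) (Fin.cons (d : ℕ) x))) := by
  rw [show (fun i => ((Fin.cons a (Fin.cons b (Fin.cons c (Fin.cons d z))) : Orbs 4 Q) i : ℕ))
    = Fin.cons (a : ℕ) (Fin.cons (b : ℕ) (Fin.cons (c : ℕ) (Fin.cons (d : ℕ) fun i => (z i : ℕ))))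
      from by funext i; fin_cases i <;> rfl, app_cons, app_cons, app_cons, app_cons, app_zero]

lemma raw_pair (s : ℕ) (f : Orbs (n + 2) Q → ℝ) (x : Fin n → ℕ) :
    raw (rpc s f) x = ∑ y : Orbs 2 Q, pairFun s (fun i => (y i : ℕ))
      * raw f (app (fun i => (y i : ℕ)) x) := by
  simp only [sum_cons, Fintype.sum_unique, app_two, raw_rpc, pairFun, Fin.cons_zero,
    show (1 : Fin 2) = Fin.succ 0 from rfl, Fin.cons_succ, ite_mul, zero_mul]

lemma collapse (c : ℕ → ℝ) (F : ℕ → ℕ → ℝ) :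
    ∑ s ∈ range (2 * Q), c s * ∑ k : Fin (Q + 1), ∑ l : Fin (Q + 1),
        (if (k : ℕ) + l = s then ((l : ℝ) - k) * F k l else 0)
      = ∑ k : Fin (Q + 1), ∑ l : Fin (Q + 1), ((l : ℝ) - k) * c ((k : ℕ) + l) * F k l := by
  simp only [mul_sum]
  rw [Finset.sum_comm]
  refine sum_congr rfl fun k _ => ?_
  rw [Finset.sum_comm]
  refine sum_congr rfl fun l _ => ?_
  by_cases h : (k : ℕ) + l < 2 * Q
  · rw [sum_eq_single_of_mem _ (mem_range.2 h) fun s _ hs => by rw [if_neg hs.symm, mul_zero],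
      if_pos rfl]
    ring
  · have hk : (k : ℕ) = l := by have := k.2; have := l.2; omega
    rw [hk]
    simp

lemma raw_triple (c : J1 → ℝ) (f : Orbs (n + 3) Q → ℝ) (x : Fin n → ℕ) :
    raw (∑ p ∈ I1 Q, c p • rem1 p f) x = ∑ y : Orbs 3 Q, fun1 c (fun i => (y i : ℕ))
      * raw f (app (fun i => (y i : ℕ)) x) := by
  rw [raw_sum]
  simp only [sum_cons, Fintype.sum_unique, app_three, fun1, Fin.cons_zero,
    show (1 : Fin 3) = Fin.succ 0 from rfl, show (2 : Fin 3) = Fin.succ (Fin.succ 0) from rfl,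
    Fin.cons_succ, I1, Finset.sum_product, rem1_apply, raw_rsl, raw_rpc]
  rw [Finset.sum_comm, ← Fin.sum_univ_eq_sum_range]
  rw [sum_congr rfl fun (a : Fin (Q + 1)) _ => collapse (fun s => c (s, (a : ℕ)))
    fun k l => raw f (Fin.cons k (Fin.cons l (Fin.cons (a : ℕ) x)))]
  rw [Finset.sum_comm]
  exact sum_congr rfl fun k _ => Finset.sum_comm

lemma raw_quad (c : J2 → ℝ) (f : Orbs (n + 4) Q → ℝ) (x : Fin n → ℕ) :
    raw (∑ p ∈ I2 Q, c p • rem2 p f) x = ∑ y : Orbs 4 Q, fun2 c (fun i => (y i : ℕ))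
      * raw f (app (fun i => (y i : ℕ)) x) := by
  rw [raw_sum]
  simp only [sum_cons, Fintype.sum_unique, app_four, fun2, Fin.cons_zero,
    show (1 : Fin 4) = Fin.succ 0 from rfl, show (2 : Fin 4) = Fin.succ (Fin.succ 0) from rfl,
    show (3 : Fin 4) = Fin.succ (Fin.succ (Fin.succ 0)) from rfl, Fin.cons_succ, I2,
    Finset.sum_product, rem2_apply, raw_rsl, raw_rpc]
  rw [Finset.sum_comm, ← Fin.sum_univ_eq_sum_range]
  refine (sum_congr rfl fun (a : Fin (Q + 1)) _ => (Finset.sum_comm).trans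
    ((Fin.sum_univ_eq_sum_range _ _).symm.trans (sum_congr rfl fun (b : Fin (Q + 1)) _ =>
      collapse (fun s => c (s, (a : ℕ), (b : ℕ)))
        fun k l => raw f (Fin.cons k (Fin.cons l (Fin.cons (a : ℕ) (Fin.cons (b : ℕ) x))))))).trans ?_
  rw [sum_congr rfl fun (a : Fin (Q + 1)) _ => Finset.sum_comm, Finset.sum_comm]
  refine sum_congr rfl fun k _ => ?_
  rw [sum_congr rfl fun (a : Fin (Q + 1)) _ => Finset.sum_comm]
  exact Finset.sum_comm

lemma comb_fermionic {ι : Type*} (s : Finset ι) (c : ι → ℝ) {g : ι → Orbs n Q → ℝ}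
    (hg : ∀ p, IsFermionic (g p)) : IsFermionic (∑ p ∈ s, c p • g p) := by
  intro π x
  simp only [Finset.sum_apply, Pi.smul_apply, smul_eq_mul, mul_sum]
  exact sum_congr rfl fun p _ => by rw [hg p π x]; ring

/-- The integrand of `fockForm`. -/
def fockTerm (w : WinData) (v : Finset ℕ → ℝ) (R : Finset ℕ) : ℝ :=
  (∑ s ∈ range w.W, w.q0 s * setApply w.W 2 (onSet (pairFun s)) v R ^ 2)
    + (∑ a, ∑ b, w.q1 a b * setApply w.W 3 (onSet (ev1 (w.c1 a))) v R
        * setApply w.W 3 (onSet (ev1 (w.c1 b))) v R)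
    + ∑ a, ∑ b, w.q2 a b * setApply w.W 4 (onSet (ev2 (w.c2 a))) v R
        * setApply w.W 4 (onSet (ev2 (w.c2 b))) v R

lemma fockForm_eq (w : WinData) (v : Finset ℕ → ℝ) :
    fockForm Q w v = ∑ R ∈ (range w.W).powerset, (∏ u ∈ R, cw Q u)⁻¹ * fockTerm w v R := rfl

/-- The configuration outside the window is frozen. -/
lemma setApply_frozen (g v : Finset ℕ → ℝ) {R O : Finset ℕ} (hO : ∀ u ∈ O, W ≤ u) :
    setApply W k g (fun U => v (U ∪ O)) R = setApply W k g v (R ∪ O) := by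
  have hs : range W \ (R ∪ O) = range W \ R := by
    ext u
    simp only [mem_sdiff, mem_range, mem_union, not_or]
    exact ⟨fun h => ⟨h.1, h.2.1⟩, fun h => ⟨h.1, h.2, fun hu => not_lt.2 (hO u hu) h.1⟩⟩
  rw [setApply, setApply, hs]
  refine sum_congr rfl fun A hA => ?_
  have hlt : ∀ a ∈ A, a < W := fun a ha =>
    mem_range.1 (mem_sdiff.1 ((mem_powersetCard.1 hA).1 ha)).1
  have hsign : setSign A (R ∪ O) = setSign A R := by
    rw [setSign_eq, setSign_eq]
    refine congrArg _ (sum_congr rfl fun a ha => ?_)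
    rw [filter_union, filter_false_of_mem (s := O) fun u hu => not_lt.2 ((hlt a ha).le.trans (hO u hu)),
      union_empty]
  rw [hsign, union_assoc]

/-- Window positivity for the configurations of all orbitals. -/
lemma fockTerm_sum_nonneg (w : WinData) (hW : w.W ≤ Q + 1)
    (hw : ∀ v : Finset ℕ → ℝ, 0 ≤ fockForm Q w v) (Φ : Finset ℕ → ℝ) :
    0 ≤ ∑ S ∈ (range (Q + 1)).powerset, (∏ u ∈ S, cw Q u)⁻¹ * fockTerm w Φ S := by
  have hsplit : ∑ S ∈ (range (Q + 1)).powerset, (∏ u ∈ S, cw Q u)⁻¹ * fockTerm w Φ S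
      = ∑ p ∈ (Ico w.W (Q + 1)).powerset ×ˢ (range w.W).powerset,
          (∏ u ∈ p.2 ∪ p.1, cw Q u)⁻¹ * fockTerm w Φ (p.2 ∪ p.1) := by
    refine sum_nbij' (fun S => (S \ range w.W, S ∩ range w.W)) (fun p => p.2 ∪ p.1) ?_ ?_ ?_ ?_ ?_
    · intro S hS
      rw [mem_powerset] at hS
      refine mem_product.2 ⟨mem_powerset.2 fun u hu => ?_, mem_powerset.2 inter_subset_right⟩
      rw [mem_sdiff, mem_range] at hu
      exact mem_Ico.2 ⟨not_lt.1 hu.2, mem_range.1 (hS hu.1)⟩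
    · intro p hp
      obtain ⟨h1, h2⟩ := mem_product.1 hp
      exact mem_powerset.2 (union_subset ((mem_powerset.1 h2).trans (range_mono hW))
        fun u hu => mem_range.2 (mem_Ico.1 (mem_powerset.1 h1 hu)).2)
    · intro S _
      ext u
      simp only [mem_union, mem_inter, mem_sdiff]
      tauto
    · intro p hp
      obtain ⟨h1, h2⟩ := mem_product.1 hp
      have hO : ∀ u ∈ p.1, u ∉ range w.W := fun u hu => by
        have := (mem_Ico.1 (mem_powerset.1 h1 hu)).1
        simp only [mem_range]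
        omega
      have hR := mem_powerset.1 h2
      refine Prod.ext ?_ ?_
      · ext u
        simp only [mem_union, mem_sdiff]
        exact ⟨fun h => h.1.resolve_left fun h' => h.2 (hR h'), fun h => ⟨Or.inr h, hO u h⟩⟩
      · ext u
        simp only [mem_union, mem_inter]
        exact ⟨fun h => h.1.resolve_right fun h' => hO u h' h.2, fun h => ⟨Or.inl h, hR h⟩⟩
    · intro S _
      rw [union_comm, sdiff_union_inter]
  rw [hsplit, sum_product]
  refine sum_nonneg fun O hO => ?_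
  have hOge : ∀ u ∈ O, w.W ≤ u := fun u hu => (mem_Ico.1 (mem_powerset.1 hO hu)).1
  have hterm : ∀ R ∈ (range w.W).powerset, (∏ u ∈ R ∪ O, cw Q u)⁻¹ * fockTerm w Φ (R ∪ O)
      = (∏ u ∈ O, cw Q u)⁻¹ * ((∏ u ∈ R, cw Q u)⁻¹ * fockTerm w (fun U => Φ (U ∪ O)) R) := by
    intro R hR
    rw [prod_union (disjoint_left.2 fun u hu hu' =>
      not_lt.2 (hOge u hu') (mem_range.1 (mem_powerset.1 hR hu))), mul_inv]
    simp only [fockTerm, setApply_frozen _ Φ hOge]
    ring
  rw [sum_congr rfl hterm, ← mul_sum, ← fockForm_eq]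
  exact mul_nonneg (inv_nonneg.2 (prod_nonneg fun u _ => cw_nonneg Q u)) (hw _)

/-- The sum over configurations of a product of two window contractions. -/
def cfg (Q W k : ℕ) (g g' : Finset ℕ → ℝ) (Φ : Finset ℕ → ℝ) : ℝ :=
  ∑ S ∈ (range (Q + 1)).powerset,
    (∏ u ∈ S, cw Q u)⁻¹ * (setApply W k g Φ S * setApply W k g' Φ S)

lemma y0_cfg (hQ : 1 ≤ Q) (hW : W ≤ Q) {s : ℕ} (hs : s < W) {e : Fin r → Orbs (N + 4) Q → ℝ}
    (he : ∀ i, IsFermionic (e i)) :
    (dataOf e).y0 s s / 4 = ((N + 2).factorial : ℝ)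
      * ∑ i, cfg Q W 2 (onSet (pairFun s)) (onSet (pairFun s)) (amps (e i)) := by
  have hin : InWindow Q W (pairFun s) := by
    intro x _ ⟨i, hi⟩
    rw [alt_pairFun, pairFun, if_neg, mul_zero]
    fin_cases i <;> simp at hi <;> omega
  have hy : (dataOf e).y0 s s = ∑ i, dot (rpc s (e i)) (rpc s (e i)) := rfl
  rw [hy, sum_div, mul_sum]
  refine sum_congr rfl fun i _ => ?_
  have hp := pairing (n := N + 2) (k := 2) hQ (hW.trans (Nat.le_succ Q)) (he i)
    (rpc_fermionic (he i)) (rpc_fermionic (he i)) hin hin (raw_pair s (e i)) (raw_pair s (e i))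
  have hset : ∀ S, setApply W 2 (onSet (alt (pairFun s))) (amps (e i)) S
      = 2 * setApply W 2 (onSet (pairFun s)) (amps (e i)) S := by
    intro S
    rw [setApply, setApply, mul_sum]
    refine sum_congr rfl fun A hA => ?_
    have hA' := (mem_powersetCard.1 hA).2
    rw [onSet_eq _ hA', onSet_eq _ hA', alt_pairFun]
    ring
  rw [hp, cfg, mul_sum, mul_sum, sum_div]
  refine sum_congr rfl fun S _ => ?_
  rw [hset]
  ring

lemma z1_cfg (hQ : 1 ≤ Q) (hW : W ≤ Q) {e : Fin r → Orbs (N + 4) Q → ℝ}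
    (he : ∀ i, IsFermionic (e i)) {c c' : J1 → ℝ}
    (hc : InWindow Q W (fun1 c)) (hc' : InWindow Q W (fun1 c')) :
    ∑ p ∈ I1 Q, ∑ q ∈ I1 Q, c p * c' q * (dataOf e).z1 p q = ((N + 2).factorial : ℝ)
      * ∑ i, cfg Q W 3 (onSet (ev1 c)) (onSet (ev1 c')) (amps (e i)) := by
  have hz : ∀ p q, (dataOf e).z1 p q
      = ((N : ℝ) + 2) * ∑ i, dot (rem1 (N := N + 1) p (e i)) (rem1 q (e i)) := fun p q => rfl
  have hL : ∀ i, ∑ p ∈ I1 Q, ∑ q ∈ I1 Q, c p * c' q
      * dot (rem1 (N := N + 1) p (e i)) (rem1 q (e i))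
      = ((N + 1).factorial : ℝ) * cfg Q W 3 (onSet (ev1 c)) (onSet (ev1 c')) (amps (e i)) := by
    intro i
    have hf : ∀ d : J1 → ℝ, IsFermionic (∑ p ∈ I1 Q, d p • rem1 (N := N + 1) p (e i)) := fun d =>
      comb_fermionic _ _ fun p => rsl_fermionic (rpc_fermionic (he i))
    have hp := pairing (n := N + 1) (k := 3) hQ (hW.trans (Nat.le_succ Q)) (he i) (hf c) (hf c')
      hc hc' (raw_triple c (e i)) (raw_triple c' (e i))
    rw [alt_fun1, alt_fun1] at hp
    rw [cfg, ← hp, dot_sum_left]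
    refine sum_congr rfl fun p _ => ?_
    rw [dot_sum_right]
    refine sum_congr rfl fun q _ => ?_
    rw [dot_smul_left, dot_smul_right]
    ring
  rw [show ((N + 2).factorial : ℝ) = ((N : ℝ) + 2) * ((N + 1).factorial : ℝ) by
    rw [Nat.factorial_succ]; push_cast; ring, mul_assoc, mul_sum, ← sum_congr rfl fun i _ => hL i]
  simp only [hz, mul_sum]
  rw [sum_congr rfl fun p (_ : p ∈ I1 Q) => Finset.sum_comm, Finset.sum_comm]
  exact sum_congr rfl fun i _ => sum_congr rfl fun p _ => sum_congr rfl fun q _ => by ring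

lemma z2_cfg (hQ : 1 ≤ Q) (hW : W ≤ Q) {e : Fin r → Orbs (N + 4) Q → ℝ}
    (he : ∀ i, IsFermionic (e i)) {c c' : J2 → ℝ}
    (hc : InWindow Q W (fun2 c)) (hc' : InWindow Q W (fun2 c')) :
    ∑ p ∈ I2 Q, ∑ q ∈ I2 Q, c p * c' q * (dataOf e).z2 p q = ((N + 2).factorial : ℝ)
      * ∑ i, cfg Q W 4 (onSet (ev2 c)) (onSet (ev2 c')) (amps (e i)) := by
  have hz : ∀ p q, (dataOf e).z2 p q = ((N : ℝ) + 2) * ((N : ℝ) + 1)
      * ∑ i, dot (rem2 (N := N) p (e i)) (rem2 q (e i)) := fun p q => rfl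
  have hL : ∀ i, ∑ p ∈ I2 Q, ∑ q ∈ I2 Q, c p * c' q * dot (rem2 (N := N) p (e i)) (rem2 q (e i))
      = (N.factorial : ℝ) * cfg Q W 4 (onSet (ev2 c)) (onSet (ev2 c')) (amps (e i)) := by
    intro i
    have hf : ∀ d : J2 → ℝ, IsFermionic (∑ p ∈ I2 Q, d p • rem2 (N := N) p (e i)) := fun d =>
      comb_fermionic _ _ fun p => rsl_fermionic (rsl_fermionic (rpc_fermionic (he i)))
    have hp := pairing (n := N) (k := 4) hQ (hW.trans (Nat.le_succ Q)) (he i) (hf c) (hf c')
      hc hc' (raw_quad c (e i)) (raw_quad c' (e i))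
    rw [alt_fun2, alt_fun2] at hp
    rw [cfg, ← hp, dot_sum_left]
    refine sum_congr rfl fun p _ => ?_
    rw [dot_sum_right]
    refine sum_congr rfl fun q _ => ?_
    rw [dot_smul_left, dot_smul_right]
    ring
  rw [show ((N + 2).factorial : ℝ) = (((N : ℝ) + 2) * ((N : ℝ) + 1)) * (N.factorial : ℝ) by
    rw [Nat.factorial_succ, Nat.factorial_succ]; push_cast; ring, mul_assoc, mul_sum,
    ← sum_congr rfl fun i _ => hL i]
  simp only [hz, mul_sum]
  rw [sum_congr rfl fun p (_ : p ∈ I2 Q) => Finset.sum_comm, Finset.sum_comm]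
  exact sum_congr rfl fun i _ => sum_congr rfl fun p _ => sum_congr rfl fun q _ => by ring

lemma fockTerm_sum_eq (w : WinData) (Φ : Finset ℕ → ℝ) :
    ∑ S ∈ (range (Q + 1)).powerset, (∏ u ∈ S, cw Q u)⁻¹ * fockTerm w Φ S
      = (∑ s ∈ range w.W, w.q0 s * cfg Q w.W 2 (onSet (pairFun s)) (onSet (pairFun s)) Φ)
        + (∑ a, ∑ b, w.q1 a b
            * cfg Q w.W 3 (onSet (ev1 (w.c1 a))) (onSet (ev1 (w.c1 b))) Φ)
        + ∑ a, ∑ b, w.q2 a b
            * cfg Q w.W 4 (onSet (ev2 (w.c2 a))) (onSet (ev2 (w.c2 b))) Φ := by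
  simp only [fockTerm, cfg, mul_add, sum_add_distrib, mul_sum]
  congr 1
  · congr 1
    · rw [Finset.sum_comm]
      exact sum_congr rfl fun s _ => sum_congr rfl fun S _ => by ring
    · rw [Finset.sum_comm]
      refine sum_congr rfl fun a _ => ?_
      rw [Finset.sum_comm]
      exact sum_congr rfl fun b _ => sum_congr rfl fun S _ => by ring
  · rw [Finset.sum_comm]
    refine sum_congr rfl fun a _ => ?_
    rw [Finset.sum_comm]
    exact sum_congr rfl fun b _ => sum_congr rfl fun S _ => by ring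

/-- **WinPin**. -/
theorem winPin : WinPin := by
  intro N Q r w e hQ he hl hw
  have hin1 : ∀ a, InWindow Q w.W (fun1 (w.c1 a)) := fun a x h h' => by
    rw [alt_fun1]; exact hl.local1 a x h h'
  have hin2 : ∀ a, InWindow Q w.W (fun2 (w.c2 a)) := fun a x h h' => by
    rw [alt_fun2]; exact hl.local2 a x h h'
  have key : winForm Q w (dataOf e) = ((N + 2).factorial : ℝ) * ∑ i,
      ∑ S ∈ (range (Q + 1)).powerset, (∏ u ∈ S, cw Q u)⁻¹ * fockTerm w (amps (e i)) S := by
    simp only [fockTerm_sum_eq, sum_add_distrib, mul_add, winForm]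
    congr 1
    · congr 1
      · rw [sum_div, Finset.sum_comm (s := (univ : Finset (Fin r))), mul_sum]
        refine sum_congr rfl fun s hs => ?_
        rw [← mul_sum, mul_left_comm, ← y0_cfg hQ hl.le (mem_range.1 hs) he.fermionic]
        ring
      · rw [Finset.sum_comm (s := (univ : Finset (Fin r))), mul_sum]
        refine sum_congr rfl fun a _ => ?_
        rw [Finset.sum_comm (s := (univ : Finset (Fin r))), mul_sum]
        refine sum_congr rfl fun b _ => ?_
        rw [z1_cfg hQ hl.le he.fermionic (hin1 a) (hin1 b), ← mul_sum]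
        ring
    · rw [Finset.sum_comm (s := (univ : Finset (Fin r))), mul_sum]
      refine sum_congr rfl fun a _ => ?_
      rw [Finset.sum_comm (s := (univ : Finset (Fin r))), mul_sum]
      refine sum_congr rfl fun b _ => ?_
      rw [z2_cfg hQ hl.le he.fermionic (hin2 a) (hin2 b), ← mul_sum]
      ring
  rw [key]
  exact mul_nonneg (Nat.cast_nonneg _)
    (sum_nonneg fun i _ => fockTerm_sum_nonneg w (hl.le.trans (Nat.le_succ Q)) hw _)

end Vale.Agent.P359.Mom
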